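import Vale.Agent.P237.Petty.Cor.Bounds

/-!
# P237: scalar inequalities for the minimum over the speed

The gauges `r - 1 - log r` and `1 / r - 1 + log r` of the speed are comparable on bounded ranges,
and the first absorbs a linear term. An affine function plus a multiple of the logarithm is
nonnegative between two points where it is.
-/

namespace Vale.Agent.P237.Petty.Cor

open Set

/-- The gauge of the speed in `q = 1 / r` dominates that of the speed on a bounded range: it is
enough to check the far end. -/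
theorem gauge_le_of_end {K M q : ℝ} (hK : 1 ≤ K) (hq : 0 < q) (hqM : q ≤ M) (_hM : 1 ≤ M)
    (hend : M - 1 - Real.log M ≤ K * (1 / M - 1 + Real.log M)) :
    q - 1 - Real.log q ≤ K * (1 / q - 1 + Real.log q) := by
  set h : ℝ → ℝ := fun y => K * (1 / y - 1 + Real.log y) - (y - 1 - Real.log y) with hh
  have hd : ∀ y : ℝ, 0 < y → HasDerivAt h ((y - 1) * (K - y) / y ^ 2) y := fun y hy => by
    refine (((((hasDerivAt_const y (1 : ℝ)).div (hasDerivAt_id y) hy.ne').sub_const 1).add
      (Real.hasDerivAt_log hy.ne')).const_mul K |>.sub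
        (((hasDerivAt_id y).sub_const 1).sub (Real.hasDerivAt_log hy.ne'))).congr_deriv ?_
    simp only [id]
    field_simp
    ring
  have hc : ∀ a b : ℝ, 0 < a → ContinuousOn h (Icc a b) := fun a b ha y hy =>
    (hd y (ha.trans_le hy.1)).continuousAt.continuousWithinAt
  have h1 : h 1 = 0 := by simp [hh]
  have hM0 : 0 ≤ h M := sub_nonneg.2 hend
  suffices 0 ≤ h q by
    simp only [hh] at this
    linarith
  rcases le_total q 1 with hq1 | hq1
  · have ha : AntitoneOn h (Icc q 1) := antitoneOn_of_hasDerivWithinAt_nonpos (convex_Icc q 1)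
      (hc q 1 hq) (f' := fun y => (y - 1) * (K - y) / y ^ 2)
      (fun y hy => by rw [interior_Icc] at hy; exact (hd y (hq.trans hy.1)).hasDerivWithinAt)
      fun y hy => by
        rw [interior_Icc] at hy
        exact div_nonpos_of_nonpos_of_nonneg
          (mul_nonpos_of_nonpos_of_nonneg (by linarith [hy.2]) (by linarith [hy.2])) (sq_nonneg y)
    have := ha (left_mem_Icc.2 hq1) (right_mem_Icc.2 hq1) hq1
    linarith
  rcases le_total q K with hqK | hqK
  · have ha : MonotoneOn h (Icc 1 q) := monotoneOn_of_hasDerivWithinAt_nonneg (convex_Icc 1 q)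
      (hc 1 q one_pos) (f' := fun y => (y - 1) * (K - y) / y ^ 2)
      (fun y hy => by rw [interior_Icc] at hy; exact (hd y (one_pos.trans hy.1)).hasDerivWithinAt)
      fun y hy => by
        rw [interior_Icc] at hy
        exact div_nonneg (mul_nonneg (by linarith [hy.1]) (by linarith [hy.2])) (sq_nonneg y)
    have := ha (left_mem_Icc.2 hq1) (right_mem_Icc.2 hq1) hq1
    linarith
  · have ha : AntitoneOn h (Icc q M) := antitoneOn_of_hasDerivWithinAt_nonpos (convex_Icc q M)
      (hc q M hq) (f' := fun y => (y - 1) * (K - y) / y ^ 2)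
      (fun y hy => by rw [interior_Icc] at hy; exact (hd y (hq.trans hy.1)).hasDerivWithinAt)
      fun y hy => by
        rw [interior_Icc] at hy
        exact div_nonpos_of_nonpos_of_nonneg
          (mul_nonpos_of_nonneg_of_nonpos (by linarith [hy.1]) (by linarith [hy.1])) (sq_nonneg y)
    have := ha (left_mem_Icc.2 hqM) (right_mem_Icc.2 hqM) hqM
    linarith

/-- The gauge of the speed absorbs a linear term, exactly. -/
theorem gauge_linear_le {mu lam r : ℝ} (hmu : 0 < mu) (hlam : 0 < mu + lam) (hr : 0 < r) :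
    mu * Real.log ((mu + lam) / mu) - lam ≤ lam * (r - 1) + mu * (r - 1 - Real.log r) := by
  have h := Real.log_le_sub_one_of_pos (mul_pos hr (div_pos hlam hmu))
  rw [Real.log_mul hr.ne' (div_pos hlam hmu).ne'] at h
  have h' := mul_le_mul_of_nonneg_left h hmu.le
  have e : mu * (r * ((mu + lam) / mu) - 1) = r * (mu + lam) - mu := by field_simp
  nlinarith [h', e]

/-- The gauge of the speed absorbs a linear term at a quadratic cost. -/
theorem gauge_linear_sq_le {mu lam r : ℝ} (hmu : 0 < mu) (hlam : 0 < mu + lam) (hr : 0 < r) :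
    -(lam ^ 2 / (mu + lam)) ≤ lam * (r - 1) + mu * (r - 1 - Real.log r) := by
  refine le_trans ?_ (gauge_linear_le hmu hlam hr)
  have h := mul_le_mul_of_nonneg_left (Real.one_sub_inv_le_log_of_pos (div_pos hlam hmu)) hmu.le
  have e : mu * (1 - ((mu + lam) / mu)⁻¹) = lam - lam ^ 2 / (mu + lam) := by
    field_simp
    ring
  linarith

/-- A quadratic in the displacement is above its vertex. -/
theorem vertex_le {k b x : ℝ} (hk : 0 < k) : -(b ^ 2 / (4 * k)) ≤ k * x ^ 2 + b * x := by
  have e : k * x ^ 2 + b * x + b ^ 2 / (4 * k) = (2 * k * x + b) ^ 2 / (4 * k) := by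
    field_simp
    ring
  have : 0 ≤ (2 * k * x + b) ^ 2 / (4 * k) := by positivity
  linarith

/-- The gauge of the speed absorbs a linear term at half the square over the smaller coefficient. -/
theorem gauge_linear_min_le {mu lam k r : ℝ} (hk : 0 < k) (hmu : k ≤ mu) (hlam : k ≤ mu + lam)
    (hr : 0 < r) : -(lam ^ 2 / (2 * k)) ≤ lam * (r - 1) + mu * (r - 1 - Real.log r) := by
  have hm : 0 < mu := hk.trans_le hmu
  have hm' : 0 < mu + lam := hk.trans_le hlam
  refine le_trans ?_ (gauge_linear_le hm hm' hr)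
  rcases le_total 0 lam with hl | hl
  · have h := Real.le_log_one_add_of_nonneg (div_nonneg hl hm.le)
    rw [one_add_div hm.ne'] at h
    have h' := mul_le_mul_of_nonneg_left h hm.le
    have e : mu * (2 * (lam / mu) / (lam / mu + 2)) - lam = -(lam ^ 2 / (lam + 2 * mu)) := by
      field_simp
      ring
    have h2 : lam ^ 2 / (lam + 2 * mu) ≤ lam ^ 2 / (2 * k) :=
      div_le_div_of_nonneg_left (sq_nonneg lam) (by linarith) (by linarith)
    linarith
  · have hy : 0 < (mu + lam) / mu := div_pos hm' hm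
    have hy1 : (mu + lam) / mu ≤ 1 := (div_le_one hm).2 (by linarith)
    have h := Real.self_le_sinh_iff.2 (Real.log_nonneg ((one_le_inv₀ hy).2 hy1))
    rw [Real.sinh_log (inv_pos.2 hy), Real.log_inv, inv_inv] at h
    have h' := mul_le_mul_of_nonneg_left h hm.le
    have e : mu * ((((mu + lam) / mu)⁻¹ - (mu + lam) / mu) / 2) =
        lam ^ 2 / (2 * (mu + lam)) - lam := by
      field_simp
      ring
    have h2 : lam ^ 2 / (2 * (mu + lam)) ≤ lam ^ 2 / (2 * k) :=
      div_le_div_of_nonneg_left (sq_nonneg lam) (by linarith) (by linarith)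
    linarith

/-- An affine function plus a nonnegative multiple of the logarithm is above zero between two
points where it is. -/
theorem log_affine_nonneg {A b c x₀ x₁ x : ℝ} (hA : 0 ≤ A) (hx₀ : 0 < x₀) (h₀ : x₀ ≤ x)
    (h₁ : x ≤ x₁) (e₀ : 0 ≤ A * Real.log x₀ + b * x₀ + c)
    (e₁ : 0 ≤ A * Real.log x₁ + b * x₁ + c) : 0 ≤ A * Real.log x + b * x + c := by
  rcases h₁.eq_or_lt with rfl | h₁'
  · exact e₁
  set v := (x - x₀) / (x₁ - x₀) with hv
  have hd : 0 < x₁ - x₀ := by linarith
  have hv0 : 0 ≤ v := div_nonneg (by linarith) hd.le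
  have hv1 : v ≤ 1 := (div_le_one hd).2 (by linarith)
  have ex : (1 - v) * x₀ + v * x₁ = x := by
    rw [hv]
    field_simp
    ring
  have hc := strictConcaveOn_log_Ioi.concaveOn.2 (show x₀ ∈ Ioi (0 : ℝ) from hx₀)
    (show x₁ ∈ Ioi (0 : ℝ) by simp only [mem_Ioi]; linarith) (sub_nonneg.2 hv1) hv0 (by ring)
  simp only [smul_eq_mul, ex] at hc
  have h' := mul_le_mul_of_nonneg_left hc hA
  have g₀ := mul_nonneg (sub_nonneg.2 hv1) e₀
  have g₁ := mul_nonneg hv0 e₁
  have eb : b * ((1 - v) * x₀ + v * x₁) = b * x := by rw [ex]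
  linarith

end Vale.Agent.P237.Petty.Cor
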