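import Vale.Agent.P237.Petty.Cor.MidHigh.Main
import Vale.Agent.P237.Petty.Cor.Mid36.Main
import Vale.Agent.P237.Petty.Cor.Top.Low100
import Vale.Agent.P237.Petty.Cor.Top.High100
import Vale.Agent.P237.Petty.Cor.Few.All

/-!
# P237: the cells joined

In every order the bounds follow from one cell up to the threshold of the large regime; in a large
order only the values below `3 / (p + 2)` are left.
-/

namespace Vale.Agent.P237.Petty.Cor

variable {p : ℕ}

/-- From `6 / (p + 2)` to `1`. -/
theorem corCell_upper_one (hp : 98 ≤ p) : CorCell p (6 / ((p : ℝ) + 2)) 1 :=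
  ((corCell_midHigh hp).append (Top.corCell_low100 (by omega))).append fun ell hl => by
    have h : (98 : ℝ) ≤ p := by exact_mod_cast hp
    exact Top.corCell_high100 (by omega) ell
      ⟨le_trans (by rw [div_le_iff₀ (by positivity)]; linarith) hl.1, hl.2⟩

/-- In orders from 98 only the values below `3 / (p + 2)` are left. -/
theorem corBounds_of_lower (hp : 98 ≤ p) (h : CorCell p 0 (3 / ((p : ℝ) + 2))) : CorBounds p :=
  corBounds_of_cell ((h.append (corCell_mid36 hp)).append (corCell_upper_one hp)) (Low.pointwiseR_one (by omega))

/-- In every order from four on only the values below the threshold of the large regime are left. -/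
theorem corBounds_of_middle (hp : 4 ≤ p) (h : CorCell p 0 (largeFrom p)) : CorBounds p :=
  corBounds_of_cell h (pointwiseR_from_four hp)

end Vale.Agent.P237.Petty.Cor
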