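import Vale.Agent.P237.Petty.Cor.CutQuad
import Vale.Agent.P237.Petty.Cor.Huge.Moments

/-!
# P237: from a pointwise remainder to a cell

With `ψ = ell (wS - M) - R` the mean is affine in `ell`: the mean of the weight is known exactly
and the functions `M`, `R` of the abscissa of the circle only enter through their integrals, which
reduce to even moments of the powers of the half circle.
-/

namespace Vale.Agent.P237.Petty.Cor

open MeasureTheory Set intervalIntegral
open Ident (half rate)
open Huge (moment)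

variable {p : ℕ}

theorem arc_pow_mul_wS (p : ℕ) (s : ℝ) :
    arc s ^ (p + 1) * wS p (arc s) =
      sqCoef p * (arc s - Ident.b0 p) ^ 2 * (arc s + 2 * Ident.b0 p) * arc s ^ p := by
  rw [wS, pow_succ]
  rcases eq_or_ne (arc s) 0 with h | h
  · rcases eq_or_ne p 0 with rfl | hp
    · simp [sqCoef]
    · simp [h, hp]
  · field_simp

theorem continuous_arc_pow_wS (p : ℕ) : Continuous fun s => arc s ^ (p + 1) * wS p (arc s) := by
  have := continuous_arc
  simp only [arc_pow_mul_wS]
  fun_prop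

/-- The mean of the weight. -/
theorem integral_wS (hp : 1 ≤ p) :
    ∫ s in (0 : ℝ)..1, arc s ^ (p + 1) * wS p (arc s) =
      half (p + 1) * Ident.muMin p / ((p : ℝ) + 2) := by
  have hm : (0 : ℝ) < (p : ℝ) + 1 := by positivity
  have e : ∀ s : ℝ, Lift.obsWeight p s = ((p : ℝ) + 1) * (arc s ^ (p + 1) * wS p (arc s)) := by
    intro s
    obtain ⟨i, rfl⟩ : ∃ i, p = i + 1 := ⟨p - 1, by omega⟩
    rw [arc_pow_mul_wS, Lift.obsWeight, Ident.weight, sqCoef, Nat.add_sub_cancel,
      show √(1 - s ^ 2) = arc s from rfl]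
    have := (Ident.b0_pos (i + 1)).ne'
    field_simp
    ring
  have h := Lift.integral_obsWeight hp
  rw [intervalIntegral.integral_congr fun s _ => e s, intervalIntegral.integral_const_mul] at h
  have h2 : ((p : ℝ) + 2) ≠ 0 := by positivity
  field_simp at h ⊢
  linarith

/-- A remainder of small mean below the cancelled cell gives the bounds of an interval of
values. -/
theorem corCell_of_bridge (hp : 1 ≤ p) {lo hi gam nu g : ℝ} (hgam : 0 < gam) (hnu : 0 ≤ nu)
    {k k' β β' B M R : ℝ → ℝ}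
    (hk : ∀ s ∈ Ioo (0 : ℝ) 1, HasDerivAt k (k' s) s)
    (hβ : ∀ s ∈ Ioo (0 : ℝ) 1, HasDerivAt β (β' s) s)
    (hkc : ContinuousOn (fun s => arc s ^ (p + 1) * k s) (Icc 0 1))
    (hBc : ContinuousOn B (Icc 0 1))
    (hB : ∀ s ∈ Ioo (0 : ℝ) 1, arc s ^ (p + 1) * β s * s = B s)
    (hMc : ContinuousOn (fun s => arc s ^ (p + 1) * M s) (Icc 0 1))
    (hRc : ContinuousOn (fun s => arc s ^ (p + 1) * R s) (Icc 0 1))
    (hM : ∫ s in (0 : ℝ)..1, arc s ^ (p + 1) * M s ≤ half (p + 1) * Ident.muMin p / ((p : ℝ) + 2))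
    (hR : ∫ s in (0 : ℝ)..1, arc s ^ (p + 1) * R s ≤ lo *
      (half (p + 1) * Ident.muMin p / ((p : ℝ) + 2) - ∫ s in (0 : ℝ)..1, arc s ^ (p + 1) * M s))
    (hpos : ∀ ell ∈ Icc lo hi, ∀ s t a r q : ℝ, FlatState p ell s t a r q →
      ell * (wS p (arc s) - M s) - R s ≤
        cancelExpr p gam nu ell (fun s t => s + g * (s - t)) (fun _ _ => 1 + g) (fun _ _ => -g)
          (quadPot k β) (quadPotS k k' β β') (quadPotT k β) s t a r) :
    CorCell p lo hi := fun ell hl => by
  have hu : uIcc (0 : ℝ) 1 = Icc 0 1 := uIcc_of_le zero_le_one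
  have hW := (continuous_arc_pow_wS p).continuousOn (s := Icc (0 : ℝ) 1)
  have e : (fun s => arc s ^ (p + 1) * (ell * (wS p (arc s) - M s) - R s)) = fun s =>
      ell * (arc s ^ (p + 1) * wS p (arc s)) - ell * (arc s ^ (p + 1) * M s) -
        arc s ^ (p + 1) * R s := by
    funext s
    ring
  have iW := ContinuousOn.intervalIntegrable (u := fun s => arc s ^ (p + 1) * wS p (arc s))
    (μ := volume) (hu ▸ hW)
  have iM := ContinuousOn.intervalIntegrable (u := fun s => arc s ^ (p + 1) * M s)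
    (μ := volume) (hu ▸ hMc)
  have iR := ContinuousOn.intervalIntegrable (u := fun s => arc s ^ (p + 1) * R s)
    (μ := volume) (hu ▸ hRc)
  refine ⟨gam, nu, _, ell, hgam, hnu, Lift.muMin_pos hp, le_rfl,
    corBound_of_flat hnu le_rfl (flatField_of_cancel hp (axTest_affine g)
      (nullField_quadPot hk hβ hkc hBc hB) (ψ := fun s => ell * (wS p (arc s) - M s) - R s) ?_ ?_
      fun s t a r q h => hpos ell hl s t a r q h)⟩
  · rw [e]
    exact ((continuousOn_const.mul hW).sub (continuousOn_const.mul hMc)).sub hRc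
  · rw [e, intervalIntegral.integral_sub ((iW.const_mul ell).sub (iM.const_mul ell)) iR,
      intervalIntegral.integral_sub (iW.const_mul ell) (iM.const_mul ell),
      intervalIntegral.integral_const_mul, intervalIntegral.integral_const_mul, integral_wS hp]
    have := mul_le_mul_of_nonneg_right hl.1 (sub_nonneg.2 hM)
    linarith

/-- The even moments through the half circle. -/
theorem moment_eq (k : ℕ) : ∀ j : ℕ,
    (∏ i ∈ Finset.range j, ((k : ℝ) + 2 * i + 3)) * moment k j =
      (∏ i ∈ Finset.range j, (2 * (i : ℝ) + 1)) * half k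
  | 0 => by simp [Huge.moment_zero]
  | j + 1 => by
    rw [Finset.prod_range_succ, Finset.prod_range_succ, mul_assoc, Huge.moment_step]
    linear_combination (2 * (j : ℝ) + 1) * moment_eq k j

theorem moment_nonneg (k j : ℕ) : 0 ≤ moment k j :=
  intervalIntegral.integral_nonneg zero_le_one fun s hs =>
    mul_nonneg (pow_nonneg (Real.sqrt_nonneg _) _) (pow_nonneg hs.1 _)

/-- The even moments from above. -/
theorem moment_le (k : ℕ) : ∀ j : ℕ,
    ((k : ℝ) + 3) ^ j * moment k j ≤ (∏ i ∈ Finset.range j, (2 * (i : ℝ) + 1)) * half k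
  | 0 => by simp [Huge.moment_zero]
  | j + 1 => by
    have h := mul_le_mul_of_nonneg_left (moment_le k j) (show 0 ≤ 2 * (j : ℝ) + 1 by positivity)
    have h1 : 0 ≤ (2 * (j : ℝ)) * (((k : ℝ) + 3) ^ j * moment k (j + 1)) :=
      mul_nonneg (by positivity) (mul_nonneg (by positivity) (moment_nonneg _ _))
    have h2 : ((k : ℝ) + 3) ^ j * (((k : ℝ) + 2 * (j : ℝ) + 3) * moment k (j + 1)) =
        ((k : ℝ) + 3) ^ j * ((2 * (j : ℝ) + 1) * moment k j) := by rw [Huge.moment_step]
    rw [Finset.prod_range_succ, pow_succ]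
    nlinarith [h, h1, h2]

/-- An integral of an even polynomial against a power of the half circle. -/
theorem integral_evenPoly (k N : ℕ) (c : ℕ → ℝ) :
    ∫ s in (0 : ℝ)..1, arc s ^ k * ∑ j ∈ Finset.range N, c j * s ^ (2 * j) =
      ∑ j ∈ Finset.range N, c j * moment k j := by
  rw [intervalIntegral.integral_congr
    (g := fun s => ∑ j ∈ Finset.range N, c j * (arc s ^ k * s ^ (2 * j))) fun s _ => by
      simp only [Finset.mul_sum]
      exact Finset.sum_congr rfl fun j _ => by ring]
  rw [intervalIntegral.integral_finset_sum fun j _ =>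
    (Huge.integrable_moment k j _ _).const_mul _]
  exact Finset.sum_congr rfl fun j _ => intervalIntegral.integral_const_mul _ _

/-- Two powers lower, the half circle grows by at most a known factor. -/
theorem half_le_shift (k : ℕ) : half k ≤ ((k : ℝ) + 3) / ((k : ℝ) + 2) * half (k + 2) := by
  rw [div_mul_eq_mul_div, Ident.half_step, le_div_iff₀ (by positivity)]
  linarith

/-- The square of the ratio of the half circles. -/
theorem b0_sq_bounds (p : ℕ) :
    (2 * (p : ℝ) + 3) / (2 * (p : ℝ) + 5) ≤ Ident.b0 p ^ 2 ∧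
      Ident.b0 p ^ 2 ≤ ((p : ℝ) + 2) / ((p : ℝ) + 3) := by
  rw [← Centre.ratSq_eq]
  exact ⟨LargeN.low_le_ratSq p, LargeN.ratSq_le_crude p⟩

theorem b0_le_one (p : ℕ) : Ident.b0 p ≤ 1 := by
  refine (pow_le_one_iff_of_nonneg (Ident.b0_pos p).le two_ne_zero).1 ((b0_sq_bounds p).2.trans ?_)
  rw [div_le_one (by positivity)]
  linarith

theorem nuS_eq (p : ℕ) : nuS p = LargeN.nuMin p := by
  rw [nuS, LargeN.nuMin, LargeN.bigL, Centre.muMin_eq, Centre.ratSq_eq]

/-- The stationary multiplier is near one eighth. -/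
theorem nuS_bounds (hp : 1 ≤ p) :
    1 / 8 - 2 / ((p : ℝ) + 1) ≤ nuS p ∧ nuS p ≤ 1 / 8 + 3 / 2 / ((p : ℝ) + 1) := by
  rw [nuS_eq]
  exact LargeN.nuMin_bounds p hp

end Vale.Agent.P237.Petty.Cor
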