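import Vale.Agent.P237.Petty.Cor.Hazard

/-!
# P237: upper bounds of the reciprocal of the speed of the transport

Before the abscissa of the circle the cut bounds `1 / r` by `exp ell`; beyond it the hazard bound
does, at the abscissa itself and at any base below it.
-/

namespace Vale.Agent.P237.Petty.Cor

open MeasureTheory Set intervalIntegral
open Ident (half rate)
open Lift (circLow circHigh)

variable {p : ℕ}

/-- Before the abscissa of the circle. -/
theorem FlatState.inv_rate_le_exp {ell s t a r q : ℝ} (h : FlatState p ell s t a r q) (hts : t ≤ s) :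
    1 / r ≤ Real.exp ell := by
  have hc := pow_pos h.state.arc_pos' (p + 1)
  have h1 : arc s ^ (p + 1) ≤ arc t ^ (p + 1) :=
    pow_le_pow_left₀ (Real.sqrt_nonneg _)
      (Real.sqrt_le_sqrt (by nlinarith [h.state.t_mem.1])) _
  rw [div_le_iff₀ h.state.rate_pos]
  refine le_of_mul_le_mul_right ?_ hc
  linarith [h.cut_rate]

theorem circHigh_pos (p : ℕ) {s : ℝ} (hs : s ∈ Ico (0 : ℝ) 1) : 0 < circHigh p s :=
  lt_of_lt_of_le (div_pos (pow_pos (arc_pos ⟨by linarith [hs.1], hs.2⟩) _) (millsDen_pos hs.1))
    (circHigh_ge ⟨hs.1, hs.2.le⟩)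

/-- The bound from any base below both abscissae. -/
theorem FlatState.inv_rate_le_base {ell s t a r q : ℝ} (h : FlatState p ell s t a r q) {u : ℝ}
    (hu : u ∈ Ico (0 : ℝ) t) :
    1 / r ≤ Real.exp ell * arc s ^ (p + 1) *
      (circHigh p u + (1 - Real.exp (-ell)) * circLow p u) /
        (arc u ^ (p + 1) * circHigh p s) := by
  have hT := circHigh_pos p ⟨h.state.s_mem.1.le, h.state.s_mem.2⟩
  have hcu : 0 < arc u ^ (p + 1) :=
    pow_pos (arc_pos ⟨by linarith [hu.1], hu.2.trans h.state.t_mem.2⟩) _
  have e : a ^ (p + 1) = r * arc s ^ (p + 1) := by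
    rw [h.state.rate_eq, div_mul_cancel₀ _ (pow_pos h.state.arc_pos' _).ne']
  have h1 := mul_le_mul_of_nonneg_left (h.hazard hu) (Real.exp_pos ell).le
  rw [show Real.exp ell * (Real.exp (-ell) * arc u ^ (p + 1) * circHigh p s) =
    (Real.exp ell * Real.exp (-ell)) * (arc u ^ (p + 1) * circHigh p s) by ring, ← Real.exp_add,
    add_neg_cancel, Real.exp_zero, one_mul, e] at h1
  rw [div_le_div_iff₀ h.state.rate_pos (by positivity)]
  linarith

/-- The bound of `1 / r` on every state. -/
theorem FlatState.inv_rate_le_max {ell s t a r q : ℝ} (h : FlatState p ell s t a r q)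
    (h0 : 0 ≤ ell) :
    1 / r ≤ Real.exp ell * (1 + (1 - Real.exp (-ell)) * circLow p s / circHigh p s) := by
  have hs := h.state.s_mem
  have hT := circHigh_pos p ⟨hs.1.le, hs.2⟩
  have hP : 0 ≤ (1 - Real.exp (-ell)) * circLow p s :=
    mul_nonneg (sub_nonneg.2 (Real.exp_le_one_iff.2 (neg_nonpos.2 h0)))
      (intervalIntegral.integral_nonneg hs.1.le fun v _ => pow_nonneg (Real.sqrt_nonneg _) _)
  rcases le_or_gt t s with hts | hts
  · refine (h.inv_rate_le_exp hts).trans (le_mul_of_one_le_right (Real.exp_pos ell).le ?_)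
    exact le_add_of_nonneg_right (div_nonneg hP hT.le)
  · refine (h.inv_rate_le_base ⟨hs.1.le, hts⟩).trans (le_of_eq ?_)
    have := pow_pos h.state.arc_pos' (p + 1)
    field_simp

/-- The two bounds at a base below the abscissa of the circle. -/
theorem FlatState.inv_rate_le_base_max {ell s t a r q : ℝ} (h : FlatState p ell s t a r q) {u : ℝ}
    (hu : u ∈ Icc (0 : ℝ) s) :
    1 / r ≤ max (Real.exp ell) (Real.exp ell * arc s ^ (p + 1) *
      (circHigh p u + (1 - Real.exp (-ell)) * circLow p u) /
        (arc u ^ (p + 1) * circHigh p s)) := by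
  rcases le_or_gt t s with hts | hts
  · exact (h.inv_rate_le_exp hts).trans (le_max_left _ _)
  · exact (h.inv_rate_le_base ⟨hu.1, hu.2.trans_lt hts⟩).trans (le_max_right _ _)

/-- The bound of `1 / r` without integrals. -/
theorem FlatState.inv_rate_le_elem {ell s t a r q : ℝ} (h : FlatState p ell s t a r q)
    (h0 : 0 ≤ ell) :
    1 / r ≤ Real.exp ell * (1 + ell * s * millsDen p s / arc s ^ (p + 3)) := by
  have hs := h.state.s_mem
  have hc := pow_pos h.state.arc_pos' (p + 3)
  have hq := millsDen_pos (p := p) hs.1.le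
  refine (h.inv_rate_le_max h0).trans (mul_le_mul_of_nonneg_left ?_ (Real.exp_pos ell).le)
  have h1 : (1 - Real.exp (-ell)) * circLow p s ≤ ell * s :=
    mul_le_mul (by linarith [Real.add_one_le_exp (-ell)]) (circLow_le (Ioo_subset_Icc_self hs))
      (intervalIntegral.integral_nonneg hs.1.le fun v _ => pow_nonneg (Real.sqrt_nonneg _) _) h0
  refine add_le_add le_rfl
    ((div_le_div_of_nonneg_right h1 (circHigh_pos p ⟨hs.1.le, hs.2⟩).le).trans ?_)
  refine (div_le_div_of_nonneg_left (mul_nonneg h0 hs.1.le) (div_pos hc hq)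
    (circHigh_ge (Ioo_subset_Icc_self hs))).trans (le_of_eq ?_)
  field_simp

/-- The pinned box, below. -/
theorem FlatState.disp_ge {ell s t a r q : ℝ} (h : FlatState p ell s t a r q) (h0 : 0 ≤ ell) :
    (s - t) * arc s ^ (p + 1) ≤ (Real.exp ell - 1) * circHigh p s := by
  have hs := h.state.s_mem
  rcases le_or_gt t s with hts | hts
  · have hi : ∀ a b : ℝ, IntervalIntegrable (fun v => arc v ^ (p + 1)) volume a b :=
      fun a b => (continuous_arc.pow _).intervalIntegrable _ _
    have h1 : (s - t) * arc s ^ (p + 1) ≤ ∫ v in t..s, arc v ^ (p + 1) := by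
      rw [← smul_eq_mul, ← intervalIntegral.integral_const]
      exact intervalIntegral.integral_mono_on hts intervalIntegrable_const (hi _ _) fun v hv =>
        pow_le_pow_left₀ (Real.sqrt_nonneg _)
          (Real.sqrt_le_sqrt (by nlinarith [h.state.t_mem.1, hv.1, hv.2])) _
    have h2 : (∫ v in t..s, arc v ^ (p + 1)) + circHigh p s = circHigh p t :=
      intervalIntegral.integral_add_adjacent_intervals (hi _ _) (hi _ _)
    linarith [h.high]
  · exact (mul_nonpos_of_nonpos_of_nonneg (by linarith) (pow_nonneg h.state.arc_pos'.le _)).trans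
      (mul_nonneg (sub_nonneg.2 (Real.one_le_exp h0))
        (circHigh_pos p ⟨hs.1.le, hs.2⟩).le)

/-- The pinned box, above. -/
theorem FlatState.disp_le {ell s t a r q : ℝ} (h : FlatState p ell s t a r q) (h0 : 0 ≤ ell) :
    (t - s) * arc t ^ (p + 1) ≤ (Real.exp ell - 1) * circLow p s := by
  have hs := h.state.s_mem
  rcases le_or_gt s t with hts | hts
  · have hi : ∀ a b : ℝ, IntervalIntegrable (fun v => arc v ^ (p + 1)) volume a b :=
      fun a b => (continuous_arc.pow _).intervalIntegrable _ _
    have h1 : (t - s) * arc t ^ (p + 1) ≤ ∫ v in s..t, arc v ^ (p + 1) := by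
      rw [← smul_eq_mul, ← intervalIntegral.integral_const]
      exact intervalIntegral.integral_mono_on hts intervalIntegrable_const (hi _ _) fun v hv =>
        pow_le_pow_left₀ (Real.sqrt_nonneg _)
          (Real.sqrt_le_sqrt (by nlinarith [hs.1, hv.1, hv.2])) _
    have h2 : circLow p s + (∫ v in s..t, arc v ^ (p + 1)) = circLow p t :=
      intervalIntegral.integral_add_adjacent_intervals (hi _ _) (hi _ _)
    linarith [h.low]
  · exact (mul_nonpos_of_nonpos_of_nonneg (by linarith) (pow_nonneg (Real.sqrt_nonneg _) _)).trans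
      (mul_nonneg (sub_nonneg.2 (Real.one_le_exp h0))
        (intervalIntegral.integral_nonneg hs.1.le fun v _ => pow_nonneg (Real.sqrt_nonneg _) _))

end Vale.Agent.P237.Petty.Cor
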