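import Vale.Agent.P237.Petty.Cor.Assemble
import Vale.Agent.P237.Petty.Cor.TinyMid.Main
import Vale.Agent.P237.Petty.Cor.Mid32.Main
import Vale.Agent.P237.Petty.Cor.Mid50.Main
import Vale.Agent.P237.Petty.Cor.Band20.N33.Main
import Vale.Agent.P237.Petty.Cor.Band20.N41.Main
import Vale.Agent.P237.Petty.Cor.Band20.N50.Main
import Vale.Agent.P237.Petty.Cor.Band20.N70.Main

/-!
# P237: orders 18 to 97

The tiny cell, a low window and the upper cells joined.
-/

namespace Vale.Agent.P237.Petty.Cor

open Set

variable {p : ℕ}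

/-- A cell may be shrunk. -/
theorem CorCell.shrink {lo hi lo' hi' : ℝ} (h : CorCell p lo hi) (hlo : lo ≤ lo')
    (hhi : hi' ≤ hi) : CorCell p lo' hi' := fun ell hl =>
  h ell ⟨le_trans hlo hl.1, le_trans hl.2 hhi⟩

/-- Orders 31 to 97, from `119 / 50 / (p + 2)` to `6 / (p + 2)`. -/
theorem corCell_band6 (h1 : 31 ≤ p) (h2 : p ≤ 97) :
    CorCell p ((119 / 50) / ((p : ℝ) + 2)) (6 / ((p : ℝ) + 2)) := by
  rcases le_total p 38 with h | h
  · exact Band20.N33.corCell (by omega) (by omega)
  rcases le_total p 47 with h' | h'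
  · rcases h.eq_or_lt with h'' | h''
    · exact Band20.N33.corCell (by omega) (by omega)
    · exact Band20.N41.corCell (by omega) (by omega)
  rcases le_total p 67 with h'' | h''
  · rcases h'.eq_or_lt with h3 | h3
    · exact Band20.N41.corCell (by omega) (by omega)
    · exact Band20.N50.corCell (by omega) (by omega)
  rcases h''.eq_or_lt with h3 | h3
  · exact Band20.N50.corCell (by omega) (by omega)
  · exact Band20.N70.corCell (by omega) (by omega)

/-- Orders 31 to 97, from `119 / 50 / (p + 2)` to one. -/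
theorem corCell_upper31 (h1 : 31 ≤ p) (h2 : p ≤ 97) :
    CorCell p ((119 / 50) / ((p : ℝ) + 2)) 1 := by
  refine (corCell_band6 h1 h2).append ?_
  rcases le_total p 47 with h | h
  · exact corCell_mid32 h1 h
  · rcases h.eq_or_lt with h' | h'
    · exact corCell_mid32 h1 h'.ge
    · exact corCell_mid50 h' h2

/-- In orders 18 to 97 a low window and the upper cell are left. -/
theorem corBounds_of_window (h1 : 18 ≤ p) (h2 : p ≤ 97)
    (hA : CorCell p (1 / 4 / ((p : ℝ) + 2)) (12 / 5 / ((p : ℝ) + 2)))
    (hB : CorCell p (12 / 5 / ((p : ℝ) + 2)) 1) : CorBounds p :=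
  corBounds_of_middle (by omega) <| by
    have hf : largeFrom p = 1 := by
      unfold largeFrom
      rw [if_neg (by omega), if_neg (by omega), if_neg (by omega)]
    rw [hf]
    exact ((TinyMid.corCell_tinyMid h1 h2).append hA).append hB

/-- In orders 31 to 97 only the low window is left. -/
theorem corBounds_of_low_window (h1 : 31 ≤ p) (h2 : p ≤ 97)
    (hA : CorCell p (1 / 4 / ((p : ℝ) + 2)) (12 / 5 / ((p : ℝ) + 2))) : CorBounds p :=
  corBounds_of_window (by omega) h2 hA
    ((corCell_upper31 h1 h2).shrink (div_le_div_of_nonneg_right (by norm_num) (by positivity)) le_rfl)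

end Vale.Agent.P237.Petty.Cor
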