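import Vale.Agent.P237.Petty.Cor.AssembleHigh
import Vale.Agent.P237.Petty.Cor.AssembleMid
import Vale.Agent.P237.Petty.Cor.Band.Main
import Vale.Agent.P237.Petty.Cor.Low20.H3a.Main
import Vale.Agent.P237.Petty.Cor.Low20.H3b.Main
import Vale.Agent.P237.Petty.Cor.Low20.H3c.Main

/-!
# P237: orders from 43 on
-/

namespace Vale.Agent.P237.Petty.Cor

variable {p : ℕ}

/-- The low window in orders 43 to 97. -/
theorem corCell_low45 (h1 : 43 ≤ p) (h2 : p ≤ 97) :
    CorCell p (1 / 4 / ((p : ℝ) + 2)) (12 / 5 / ((p : ℝ) + 2)) :=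
  ((Low20.H3a.corCell (by omega) (by omega)).append
    (Low20.H3b.corCell (by omega) (by omega))).append (Low20.H3c.corCell (by omega) (by omega))

/-- The bounds in every order from 43 on. -/
theorem corBounds_large (hp : 43 ≤ p) : CorBounds p := by
  rcases le_or_gt p 97 with h | h
  · exact corBounds_of_low_window (by omega) h (corCell_low45 hp h)
  · exact corBounds_of_band (by omega) (Band.corCell_band (by omega))

end Vale.Agent.P237.Petty.Cor
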