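import Vale.Agent.P237.Petty.Cor.AssembleMid
import Vale.Agent.P237.Petty.Cor.Band20.All
import Vale.Agent.P237.Petty.Cor.Band20.Upper25
import Vale.Agent.P237.Petty.Cor.Band20.Upper20

/-!
# P237: orders 18 to 97 above the low window

The upper cells of the orders 18 to 30 joined with those of the orders 31 to 97.
-/

namespace Vale.Agent.P237.Petty.Cor

open Set

variable {p : ℕ}

/-- Orders 18 to 97, from `12 / 5 / (p + 2)` to one. -/
theorem corCell_upper18 (h1 : 18 ≤ p) (h2 : p ≤ 97) :
    CorCell p (12 / 5 / ((p : ℝ) + 2)) 1 := by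
  have hs : (119 / 50) / ((p : ℝ) + 2) ≤ 12 / 5 / ((p : ℝ) + 2) :=
    div_le_div_of_nonneg_right (by norm_num) (by positivity)
  rcases le_or_gt 31 p with h | h
  · exact (corCell_upper31 h h2).shrink hs le_rfl
  refine ((Band20.corCell_band20 h1 (by omega)).append ?_).shrink hs le_rfl
  rcases le_or_gt (p + 2) 24 with h' | h'
  · exact corCell_upper20 (by omega) h'
  · exact corCell_upper25 (by omega) (by omega)

/-- In orders 18 to 97 only the low window is left. -/
theorem corBounds_of_low_window18 (h1 : 18 ≤ p) (h2 : p ≤ 97)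
    (hA : CorCell p (1 / 4 / ((p : ℝ) + 2)) (12 / 5 / ((p : ℝ) + 2))) : CorBounds p :=
  corBounds_of_window h1 h2 hA (corCell_upper18 h1 h2)

end Vale.Agent.P237.Petty.Cor
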