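import Vale.Agent.P237.Petty.Cor.AssembleFew
import Vale.Agent.P237.Petty.Cor.AssembleLow
import Vale.Agent.P237.Petty.Cor.AssembleLarge
import Vale.Agent.P237.Petty.Cor.Low20.All

/-!
# P237: the bounds in every order from four on
-/

namespace Vale.Agent.P237.Petty.Cor

/-- The bounds in every order from four on. -/
theorem corBounds_all (p : ℕ) (hp : 4 ≤ p) : CorBounds p := by
  rcases le_or_gt p 17 with h | h
  · exact corBounds_few hp h
  rcases le_or_gt p 42 with h' | h'
  · exact corBounds_of_low_window18 (by omega) (by omega) (Low20.corCell_low18 (by omega) (by omega))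
  · exact corBounds_large h'

end Vale.Agent.P237.Petty.Cor
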