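import Vale.Agent.P237.Petty.Cor.Assemble
import Vale.Agent.P237.Petty.Cor.Grid.Tiny.N6.Main
import Vale.Agent.P237.Petty.Cor.Grid.N6.Main
import Vale.Agent.P237.Petty.Cor.Grid.Tiny.N7.Main
import Vale.Agent.P237.Petty.Cor.Grid.N7.Main
import Vale.Agent.P237.Petty.Cor.Grid.Tiny.N8.Main
import Vale.Agent.P237.Petty.Cor.Grid.N8.Main
import Vale.Agent.P237.Petty.Cor.Grid.Tiny.N9.Main
import Vale.Agent.P237.Petty.Cor.Grid.N9.Main
import Vale.Agent.P237.Petty.Cor.Grid.Tiny.N10.Main
import Vale.Agent.P237.Petty.Cor.Grid.N10.Main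
import Vale.Agent.P237.Petty.Cor.Grid.Tiny.N11.Main
import Vale.Agent.P237.Petty.Cor.Grid.N11.Main
import Vale.Agent.P237.Petty.Cor.Grid.Tiny.N12.Main
import Vale.Agent.P237.Petty.Cor.Grid.N12.Main
import Vale.Agent.P237.Petty.Cor.Grid.Tiny.N13.Main
import Vale.Agent.P237.Petty.Cor.Grid.N13.Main
import Vale.Agent.P237.Petty.Cor.Grid.Tiny.N14.Main
import Vale.Agent.P237.Petty.Cor.Grid.N14.Main
import Vale.Agent.P237.Petty.Cor.Grid.Tiny.N15.Main
import Vale.Agent.P237.Petty.Cor.Grid.N15.Main
import Vale.Agent.P237.Petty.Cor.Grid.Tiny.N16.Main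
import Vale.Agent.P237.Petty.Cor.Grid.N16.Main
import Vale.Agent.P237.Petty.Cor.Grid.Tiny.N17.Main
import Vale.Agent.P237.Petty.Cor.Grid.N17.Main
import Vale.Agent.P237.Petty.Cor.Grid.Tiny.N18.Main
import Vale.Agent.P237.Petty.Cor.Grid.N18.Main
import Vale.Agent.P237.Petty.Cor.Grid.Tiny.N19.Main
import Vale.Agent.P237.Petty.Cor.Grid.N19.Main

/-!
# P237: orders from 4 to 17

In these dimensions (6 to 19) a cell down to zero and the cells of the middle regime reach the
threshold of the large regime.
-/

namespace Vale.Agent.P237.Petty.Cor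

/-- A cell from zero up to the threshold of the large regime gives the bounds. -/
theorem corBounds_of_ends {p : ℕ} {hi : ℝ} (h : CorCell p 0 hi) (hp : 4 ≤ p)
    (hh : largeFrom p ≤ hi) : CorBounds p :=
  corBounds_of_middle hp fun ell hl => h ell ⟨hl.1, hl.2.trans hh⟩

/-- The bounds in the orders from 4 to 17. -/
theorem corBounds_few {p : ℕ} (h1 : 4 ≤ p) (h2 : p ≤ 17) : CorBounds p := by
  interval_cases p
  · exact corBounds_of_ends (Grid.Tiny.N6.corCell.append Grid.N6.corCell) (by norm_num) (by norm_num [largeFrom])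
  · exact corBounds_of_ends (Grid.Tiny.N7.corCell.append Grid.N7.corCell) (by norm_num) (by norm_num [largeFrom])
  · exact corBounds_of_ends (Grid.Tiny.N8.corCell.append Grid.N8.corCell) (by norm_num) (by norm_num [largeFrom])
  · exact corBounds_of_ends (Grid.Tiny.N9.corCell.append Grid.N9.corCell) (by norm_num) (by norm_num [largeFrom])
  · exact corBounds_of_ends (Grid.Tiny.N10.corCell.append Grid.N10.corCell) (by norm_num) (by norm_num [largeFrom])
  · exact corBounds_of_ends (Grid.Tiny.N11.corCell.append Grid.N11.corCell) (by norm_num) (by norm_num [largeFrom])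
  · exact corBounds_of_ends (Grid.Tiny.N12.corCell.append Grid.N12.corCell) (by norm_num) (by norm_num [largeFrom])
  · exact corBounds_of_ends (Grid.Tiny.N13.corCell.append Grid.N13.corCell) (by norm_num) (by norm_num [largeFrom])
  · exact corBounds_of_ends (Grid.Tiny.N14.corCell.append Grid.N14.corCell) (by norm_num) (by norm_num [largeFrom])
  · exact corBounds_of_ends (Grid.Tiny.N15.corCell.append Grid.N15.corCell) (by norm_num) (by norm_num [largeFrom])
  · exact corBounds_of_ends (Grid.Tiny.N16.corCell.append Grid.N16.corCell) (by norm_num) (by norm_num [largeFrom])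
  · exact corBounds_of_ends (Grid.Tiny.N17.corCell.append Grid.N17.corCell) (by norm_num) (by norm_num [largeFrom])
  · exact corBounds_of_ends (Grid.Tiny.N18.corCell.append Grid.N18.corCell) (by norm_num) (by norm_num [largeFrom])
  · exact corBounds_of_ends (Grid.Tiny.N19.corCell.append Grid.N19.corCell) (by norm_num) (by norm_num [largeFrom])

end Vale.Agent.P237.Petty.Cor
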