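import Vale.Agent.P237.Petty.Cor.Assemble
import Vale.Agent.P237.Petty.Cor.Tiny.Main
import Vale.Agent.P237.Petty.Cor.Tiny100.MainA

/-!
# P237: orders from 98 on

Only the values between `3 / 20 / (p + 2)` and `3 / (p + 2)` are left.
-/

namespace Vale.Agent.P237.Petty.Cor

variable {p : ℕ}

/-- Near zero, in every order from 98 on. -/
theorem corCell_zero_98 (hp : 98 ≤ p) : CorCell p 0 (3 / 20 / ((p : ℝ) + 2)) := by
  rcases le_total p 198 with h | h
  · exact Tiny100.corCell_tiny_98 hp h
  · exact Tiny.corCell_tiny h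

/-- From order 98 on one band is left. -/
theorem corBounds_of_band (hp : 98 ≤ p)
    (h : CorCell p (3 / 20 / ((p : ℝ) + 2)) (3 / ((p : ℝ) + 2))) : CorBounds p :=
  corBounds_of_lower hp ((corCell_zero_98 hp).append h)

end Vale.Agent.P237.Petty.Cor
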