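import Vale.Agent.P237.Petty.Cor.RateBound

/-!
# P237: the mass of the circle above an abscissa, from both sides by rational functions

With `q = (p + 3) u ^ 2` the quotient of the mass above `u` by `arc u ^ (p + 3)` lies between
`u / (q + 1)` and `(1 - (1 - u ^ 2) / (q + 3)) / ((p + 3) u)`. With the mass below bounded by a
polynomial, the bounds of `1 / r` lose their integrals.
-/

namespace Vale.Agent.P237.Petty.Cor

open MeasureTheory Set intervalIntegral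
open Ident (half rate)
open Lift (circLow circHigh)

variable {p : ℕ}

/-- The mass above `s` is at least `arc s ^ (p + 3) * s / ((p + 3) s ^ 2 + 1)`. -/
theorem circHigh_ge_sq {s : ℝ} (hs : s ∈ Icc (0 : ℝ) 1) :
    arc s ^ (p + 3) * (s / (((p : ℝ) + 3) * s ^ 2 + 1)) ≤ circHigh p s := by
  have hc : Continuous fun u => arc u ^ (p + 1) := continuous_arc.pow _
  have hF : ContinuousOn
      (fun u => -(arc u ^ (p + 3) * (u / (((p : ℝ) + 3) * u ^ 2 + 1)))) (Icc s 1) :=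
    (((continuous_arc.pow _).mul (continuous_id.div (by fun_prop) fun u => by positivity)).neg
      ).continuousOn
  have h := sub_le_integral_of_hasDeriv_right_of_le
    (g' := fun u => arc u ^ (p + 1) * (((p : ℝ) + 3) * u * (u / (((p : ℝ) + 3) * u ^ 2 + 1)) -
      (1 - u ^ 2) * ((1 - ((p : ℝ) + 3) * u ^ 2) / (((p : ℝ) + 3) * u ^ 2 + 1) ^ 2)))
    (φ := fun u => arc u ^ (p + 1)) hs.2 hF
    (fun u hu => ?_) (hc.integrableOn_Icc) fun u hu => ?_
  · simp only [circHigh, neg_sub_neg] at h ⊢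
    simpa [arc] using h
  · have hu0 : 0 < 1 - u ^ 2 := by nlinarith [hu.1, hu.2, hs.1]
    have h2 : arc u ^ 2 = 1 - u ^ 2 := Real.sq_sqrt hu0.le
    have hd : HasDerivAt (fun x => x / (((p : ℝ) + 3) * x ^ 2 + 1))
        ((1 - ((p : ℝ) + 3) * u ^ 2) / (((p : ℝ) + 3) * u ^ 2 + 1) ^ 2) u := by
      refine ((hasDerivAt_id u).div (((hasDerivAt_pow 2 u).const_mul ((p : ℝ) + 3)).add_const 1)
        (by positivity)).congr_deriv ?_
      simp only [id]
      push_cast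
      ring
    refine (((hasDerivAt_arc_pow (p + 2) (s := u) ⟨by linarith [hu.1, hs.1], hu.2⟩).mul hd
      ).neg.congr_deriv ?_).hasDerivWithinAt
    rw [show arc u ^ (p + 2 + 1) = arc u ^ (p + 1) * (1 - u ^ 2) by rw [← h2]; ring]
    push_cast
    field_simp
    ring
  · refine mul_le_of_le_one_right (pow_nonneg (Real.sqrt_nonneg _) _) ?_
    have hu2 : u ^ 2 ≤ 1 := by nlinarith [hu.1, hu.2, hs.1]
    obtain ⟨q, hq0, hq⟩ : ∃ q, 0 ≤ q ∧ ((p : ℝ) + 3) * u ^ 2 = q := ⟨_, by positivity, rfl⟩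
    rw [hq, show ((p : ℝ) + 3) * u * (u / (q + 1)) = q / (q + 1) by rw [← hq]; ring, sub_le_iff_le_add,
      ← mul_div_assoc, ← sub_le_iff_le_add', le_div_iff₀ (by positivity)]
    have e : (q / (q + 1) - 1) * (q + 1) ^ 2 = -(q + 1) := by field_simp; ring
    rw [e]
    rcases le_total q 1 with h1 | h1
    · nlinarith [mul_nonneg (sub_nonneg.2 hu2) (sub_nonneg.2 h1)]
    · nlinarith [mul_nonneg (sq_nonneg u) (sub_nonneg.2 h1)]

/-- The mass above `u` is at most the first term of the expansion, corrected once. -/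
theorem circHigh_le {s : ℝ} (hs : s ∈ Ioc (0 : ℝ) 1) :
    circHigh p s ≤ arc s ^ (p + 3) *
      ((((p : ℝ) + 4) * s ^ 2 + 2) / (((p : ℝ) + 3) * s * (((p : ℝ) + 3) * s ^ 2 + 3))) := by
  have hc : Continuous fun u => arc u ^ (p + 1) := continuous_arc.pow _
  set F : ℝ → ℝ := fun u => -(arc u ^ (p + 3) *
    ((((p : ℝ) + 4) * u ^ 2 + 2) / (((p : ℝ) + 3) * u * (((p : ℝ) + 3) * u ^ 2 + 3)))) with hFdef
  have hF : ContinuousOn F (Icc s 1) := by
    refine ((continuous_arc.pow _).continuousOn.mul (ContinuousOn.div (by fun_prop) (by fun_prop)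
      fun u hu => ?_)).neg
    have : 0 < u := hs.1.trans_le hu.1
    positivity
  have h := integral_le_sub_of_hasDeriv_right_of_le (g := F)
    (g' := fun u => arc u ^ (p + 1) * (((p : ℝ) + 3) * u *
        ((((p : ℝ) + 4) * u ^ 2 + 2) / (((p : ℝ) + 3) * u * (((p : ℝ) + 3) * u ^ 2 + 3))) +
      (1 - u ^ 2) * ((((p : ℝ) + 3) ^ 2 * ((p : ℝ) + 4) * u ^ 4 +
        (3 * ((p : ℝ) + 3) ^ 2 - 3 * ((p : ℝ) + 3)) * u ^ 2 + 6 * ((p : ℝ) + 3)) /
          (((p : ℝ) + 3) * u * (((p : ℝ) + 3) * u ^ 2 + 3)) ^ 2)))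
    (φ := fun u => arc u ^ (p + 1)) hs.2 hF
    (fun u hu => ?_) (hc.integrableOn_Icc) fun u hu => ?_
  · have e1 : F 1 = 0 := by simp [hFdef, arc]
    rw [e1, zero_sub] at h
    simp only [hFdef, neg_neg] at h
    exact h
  · have hu0 : 0 < 1 - u ^ 2 := by nlinarith [hu.1, hu.2, hs.1]
    have hup : 0 < u := hs.1.trans hu.1
    have h2 : arc u ^ 2 = 1 - u ^ 2 := Real.sq_sqrt hu0.le
    have hd : HasDerivAt (fun x => (((p : ℝ) + 4) * x ^ 2 + 2) /
          (((p : ℝ) + 3) * x * (((p : ℝ) + 3) * x ^ 2 + 3)))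
        (-((((p : ℝ) + 3) ^ 2 * ((p : ℝ) + 4) * u ^ 4 +
          (3 * ((p : ℝ) + 3) ^ 2 - 3 * ((p : ℝ) + 3)) * u ^ 2 + 6 * ((p : ℝ) + 3)) /
            (((p : ℝ) + 3) * u * (((p : ℝ) + 3) * u ^ 2 + 3)) ^ 2)) u := by
      refine ((((hasDerivAt_pow 2 u).const_mul ((p : ℝ) + 4)).add_const 2).div
        (((hasDerivAt_id u).const_mul ((p : ℝ) + 3)).mul
          (((hasDerivAt_pow 2 u).const_mul ((p : ℝ) + 3)).add_const 3))
        (by simp only [id, Pi.mul_apply]; positivity)).congr_deriv ?_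
      simp only [id, Pi.mul_apply]
      push_cast
      ring
    refine (((hasDerivAt_arc_pow (p + 2) (s := u) ⟨by linarith [hu.1, hs.1], hu.2⟩).mul hd
      ).neg.congr_deriv ?_).hasDerivWithinAt
    rw [show arc u ^ (p + 2 + 1) = arc u ^ (p + 1) * (1 - u ^ 2) by rw [← h2]; ring]
    push_cast
    field_simp
    ring
  · refine le_mul_of_one_le_right (pow_nonneg (Real.sqrt_nonneg _) _) ?_
    have hup : 0 < u := hs.1.trans hu.1
    have hu2 : 0 ≤ 1 - u ^ 2 := by nlinarith [hu.1, hu.2, hs.1]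
    obtain ⟨M, hM, hMe⟩ : ∃ M, 3 ≤ M ∧ (p : ℝ) + 3 = M := ⟨_, by simp, rfl⟩
    rw [show (p : ℝ) + 4 = M + 1 by linarith, hMe]
    have hMu : 0 < M * u := mul_pos (by linarith) hup
    obtain ⟨q, hq, hq0⟩ : ∃ q, M * u ^ 2 = q ∧ 0 ≤ q := ⟨_, rfl, by positivity⟩
    have e1 : M * u * (((M + 1) * u ^ 2 + 2) / (M * u * (q + 3))) = 1 - (1 - u ^ 2) / (q + 3) := by
      rw [← hq]
      field_simp
      ring
    rw [hq, e1]
    have key : 1 / (q + 3) ≤ (M ^ 2 * (M + 1) * u ^ 4 + (3 * M ^ 2 - 3 * M) * u ^ 2 + 6 * M) /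
        (M * u * (q + 3)) ^ 2 := by
      rw [div_le_div_iff₀ (by positivity) (by positivity), one_mul]
      have : M ^ 2 * (M + 1) * u ^ 4 + (3 * M ^ 2 - 3 * M) * u ^ 2 + 6 * M -
          M * u ^ 2 * M * (q + 3) = q ^ 2 - 3 * q + 6 * M := by rw [← hq]; ring
      have h0 : 0 ≤ q ^ 2 - 3 * q + 6 * M := by nlinarith [sq_nonneg (q - 3 / 2)]
      have := mul_le_mul_of_nonneg_right (a := q + 3) (sub_nonneg.1 (this ▸ h0))
        (by positivity : (0 : ℝ) ≤ q + 3)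
      linarith
    have := mul_le_mul_of_nonneg_left key hu2
    rw [mul_one_div] at this
    linarith

/-- The exponential below its fourth Taylor polynomial, at negative arguments. -/
theorem exp_neg_le_quartic {x : ℝ} (hx : 0 ≤ x) :
    Real.exp (-x) ≤ 1 - x + x ^ 2 / 2 - x ^ 3 / 6 + x ^ 4 / 24 := by
  have h1 : 1 + x + x ^ 2 / 2 + x ^ 3 / 6 + x ^ 4 / 24 ≤ Real.exp x := by
    have := Real.sum_le_exp_of_nonneg hx 5
    simpa [Finset.sum_range_succ, Nat.factorial] using this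
  have h0 : 0 ≤ 1 - x + x ^ 2 / 2 - x ^ 3 / 6 + x ^ 4 / 24 := by
    nlinarith [sq_nonneg (x ^ 2 - 2 * x), sq_nonneg (x - 2), sq_nonneg (x ^ 2 - 2 * x + 2),
      sq_nonneg x, sq_nonneg (x - 1)]
  have h2 := mul_le_mul_of_nonneg_left h1 h0
  rw [Real.exp_neg, inv_le_iff_one_le_mul₀ (Real.exp_pos x)]
  nlinarith [pow_nonneg hx 6, pow_nonneg hx 8]

/-- The mass below `s` from above by a polynomial. -/
theorem circLow_le_poly {s : ℝ} (hs : s ∈ Icc (0 : ℝ) 1) :
    circLow p s ≤ s * (1 - ((p : ℝ) + 1) * s ^ 2 / 6 + (((p : ℝ) + 1) * s ^ 2) ^ 2 / 40 -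
      (((p : ℝ) + 1) * s ^ 2) ^ 3 / 336 + (((p : ℝ) + 1) * s ^ 2) ^ 4 / 3456) := by
  set m := (p : ℝ) + 1 with hm
  have hm0 : 0 ≤ m := by positivity
  have hi : ∀ u ∈ Icc (0 : ℝ) s, arc u ^ (p + 1) ≤ 1 - m / 2 * u ^ 2 + (m / 2) ^ 2 / 2 * u ^ 4 -
      (m / 2) ^ 3 / 6 * u ^ 6 + (m / 2) ^ 4 / 24 * u ^ 8 := by
    intro u hu
    have hu1 : 0 ≤ 1 - u ^ 2 := by nlinarith [hu.1, hu.2, hs.2]
    have h1 : arc u ≤ Real.exp (-(u ^ 2 / 2)) := by
      rw [show Real.exp (-(u ^ 2 / 2)) = √(Real.exp (-u ^ 2)) by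
        rw [← Real.exp_half]; ring_nf]
      exact Real.sqrt_le_sqrt (by linarith [Real.add_one_le_exp (-u ^ 2)])
    refine (pow_le_pow_left₀ (Real.sqrt_nonneg _) h1 _).trans ?_
    rw [← Real.exp_nat_mul]
    push_cast
    refine le_trans (le_of_eq ?_) ((exp_neg_le_quartic (x := m / 2 * u ^ 2) (by positivity)).trans
      (le_of_eq (by ring)))
    rw [hm]
    ring_nf
  refine (intervalIntegral.integral_mono_on hs.1
    ((continuous_arc.pow _).intervalIntegrable _ _)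
    (Continuous.intervalIntegrable (by fun_prop) _ _) hi).trans (le_of_eq ?_)
  rw [intervalIntegral.integral_eq_sub_of_hasDerivAt
    (f := fun u => u - m / 6 * u ^ 3 + m ^ 2 / 40 * u ^ 5 - m ^ 3 / 336 * u ^ 7 +
      m ^ 4 / 3456 * u ^ 9)
    (fun u _ => ((((hasDerivAt_id' u).sub ((hasDerivAt_pow 3 u).const_mul (m / 6))).add
      ((hasDerivAt_pow 5 u).const_mul (m ^ 2 / 40))).sub
      ((hasDerivAt_pow 7 u).const_mul (m ^ 3 / 336))).add
      ((hasDerivAt_pow 9 u).const_mul (m ^ 4 / 3456)) |>.congr_deriv (by push_cast; ring))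
    (Continuous.intervalIntegrable (by fun_prop) _ _)]
  ring

/-- The reciprocal of the power of the circle. -/
theorem inv_arc_pow_le {s : ℝ} (hs : s ∈ Ioo (-1 : ℝ) 1) :
    1 / arc s ^ (p + 1) ≤ Real.exp (((p : ℝ) + 1) * s ^ 2 / (2 * (1 - s ^ 2))) := by
  have h0 : 0 < 1 - s ^ 2 := by nlinarith [hs.1, hs.2]
  have hc := arc_pos hs
  have h1 : 1 / (1 - s ^ 2) ≤ Real.exp (s ^ 2 / (1 - s ^ 2)) := by
    refine le_trans (le_of_eq ?_) (Real.add_one_le_exp _)
    field_simp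
    ring
  have h2 : 1 / arc s ≤ Real.exp (s ^ 2 / (1 - s ^ 2) / 2) := by
    rw [Real.exp_half, arc, one_div, ← Real.sqrt_inv, ← one_div]
    exact Real.sqrt_le_sqrt h1
  rw [← one_div_pow]
  refine (pow_le_pow_left₀ (by positivity) h2 _).trans (le_of_eq ?_)
  rw [← Real.exp_nat_mul]
  push_cast
  congr 1
  field_simp

/-- At the abscissa of the circle: `1 / r` without integrals. -/
theorem FlatState.inv_rate_le_pow {ell s t a r q : ℝ} (h : FlatState p ell s t a r q) (h0 : 0 ≤ ell)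
    {E L C : ℝ} (hE : Real.exp ell ≤ E) (hL : circLow p s ≤ L)
    (hC : 1 / arc s ^ (p + 1) ≤ C) :
    1 / r ≤ E * (1 + ell * L * C * ((((p : ℝ) + 3) * s ^ 2 + 1) / (s * (1 - s ^ 2)))) := by
  have hs := h.state.s_mem
  have hc := h.state.arc_pos'
  have hs2 : arc s ^ 2 = 1 - s ^ 2 := Real.sq_sqrt (by nlinarith [hs.1, hs.2])
  have h1 : 0 < 1 - s ^ 2 := hs2 ▸ pow_pos hc 2
  have hP : 0 ≤ circLow p s :=
    intervalIntegral.integral_nonneg hs.1.le fun v _ => pow_nonneg (Real.sqrt_nonneg _) _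
  have hT := circHigh_ge_sq (p := p) (Ioo_subset_Icc_self hs)
  have hT0 : 0 < arc s ^ (p + 3) * (s / (((p : ℝ) + 3) * s ^ 2 + 1)) :=
    mul_pos (pow_pos hc _) (div_pos hs.1 (by positivity))
  have hL0 : 0 ≤ L := hP.trans hL
  refine (h.inv_rate_le_max h0).trans (mul_le_mul hE ?_ (add_nonneg zero_le_one (div_nonneg
    (mul_nonneg (sub_nonneg.2 (Real.exp_le_one_iff.2 (neg_nonpos.2 h0))) hP) (hT0.le.trans hT)))
    ((Real.exp_pos ell).le.trans hE))
  refine add_le_add le_rfl ?_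
  have h2 : (1 - Real.exp (-ell)) * circLow p s ≤ ell * L :=
    mul_le_mul (by linarith [Real.add_one_le_exp (-ell)]) hL hP h0
  refine (div_le_div₀ (mul_nonneg h0 hL0) h2 hT0 hT).trans ?_
  rw [show arc s ^ (p + 3) = arc s ^ (p + 1) * (1 - s ^ 2) by rw [← hs2]; ring,
    show ell * L / (arc s ^ (p + 1) * (1 - s ^ 2) * (s / (((p : ℝ) + 3) * s ^ 2 + 1))) =
      ell * L * (1 / arc s ^ (p + 1)) * ((((p : ℝ) + 3) * s ^ 2 + 1) / (s * (1 - s ^ 2))) by
      field_simp]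
  have hs' := hs.1
  gcongr

/-- The hazard bound at a base `u` below `s`, without integrals. -/
theorem FlatState.inv_rate_le_hazard {ell s t a r q : ℝ} (h : FlatState p ell s t a r q)
    (h0 : 0 ≤ ell) {u E L C : ℝ} (hu : u ∈ Ioc (0 : ℝ) s) (hE : Real.exp ell ≤ E)
    (hL : circLow p u ≤ L) (hC : 1 / arc u ^ (p + 1) ≤ C) :
    1 / r ≤ E * max 1 ((((p : ℝ) + 3) * s ^ 2 + 1) / (s * (1 - s ^ 2)) *
      ((1 - u ^ 2) * ((((p : ℝ) + 4) * u ^ 2 + 2) /
        (((p : ℝ) + 3) * u * (((p : ℝ) + 3) * u ^ 2 + 3))) + ell * L * C)) := by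
  have hE0 : 0 ≤ E := (Real.exp_pos ell).le.trans hE
  rw [mul_max_of_nonneg _ _ hE0, mul_one]
  refine (h.inv_rate_le_base_max ⟨hu.1.le, hu.2⟩).trans (max_le_max hE ?_)
  have hs := h.state.s_mem
  have hu1 : u < 1 := hu.2.trans_lt hs.2
  have hc := h.state.arc_pos'
  have hcu : 0 < arc u := arc_pos ⟨by linarith [hu.1], hu1⟩
  have hs2 : arc s ^ 2 = 1 - s ^ 2 := Real.sq_sqrt (by nlinarith [hs.1, hs.2])
  have hu2 : arc u ^ 2 = 1 - u ^ 2 := Real.sq_sqrt (by nlinarith [hu.1, hu1])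
  have h1 : 0 < 1 - s ^ 2 := hs2 ▸ pow_pos hc 2
  have hT := circHigh_ge_sq (p := p) (Ioo_subset_Icc_self hs)
  have hU := circHigh_le (p := p) (s := u) ⟨hu.1, hu1.le⟩
  have hP : 0 ≤ circLow p u :=
    intervalIntegral.integral_nonneg hu.1.le fun v _ => pow_nonneg (Real.sqrt_nonneg _) _
  have hsum : (circHigh p u + (1 - Real.exp (-ell)) * circLow p u) / arc u ^ (p + 1) ≤
      (1 - u ^ 2) * ((((p : ℝ) + 4) * u ^ 2 + 2) /
        (((p : ℝ) + 3) * u * (((p : ℝ) + 3) * u ^ 2 + 3))) + ell * L * C := by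
    rw [add_div]
    refine add_le_add ?_ ?_
    · rw [div_le_iff₀ (pow_pos hcu _)]
      refine hU.trans (le_of_eq ?_)
      rw [← hu2]
      ring
    · rw [div_eq_mul_one_div]
      exact mul_le_mul (mul_le_mul (by linarith [Real.add_one_le_exp (-ell)]) hL hP h0) hC
        (by positivity) (mul_nonneg h0 (hP.trans hL))
  have hq : arc s ^ (p + 1) / circHigh p s ≤
      (((p : ℝ) + 3) * s ^ 2 + 1) / (s * (1 - s ^ 2)) := by
    have hs' := hs.1
    refine (div_le_div_of_nonneg_left (pow_pos hc _).le (mul_pos (pow_pos hc _)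
      (div_pos hs.1 (by positivity))) hT).trans (le_of_eq ?_)
    rw [show arc s ^ (p + 3) = arc s ^ (p + 1) * (1 - s ^ 2) by rw [← hs2]; ring]
    field_simp
  have hsum0 : 0 ≤ (circHigh p u + (1 - Real.exp (-ell)) * circLow p u) / arc u ^ (p + 1) :=
    div_nonneg (add_nonneg (intervalIntegral.integral_nonneg hu1.le fun v _ =>
      pow_nonneg (Real.sqrt_nonneg _) _)
      (mul_nonneg (sub_nonneg.2 (Real.exp_le_one_iff.2 (neg_nonpos.2 h0))) hP)) (by positivity)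
  have key := mul_le_mul hE (mul_le_mul hq hsum hsum0
    (le_trans (div_nonneg (pow_pos hc _).le ((mul_pos (pow_pos hc _)
      (div_pos hs.1 (by positivity))).le.trans hT)) hq))
    (mul_nonneg (div_nonneg (pow_pos hc _).le ((mul_pos (pow_pos hc _)
      (div_pos hs.1 (by positivity))).le.trans hT)) hsum0) hE0
  refine le_trans (le_of_eq ?_) key
  have := (circHigh_pos p ⟨hs.1.le, hs.2⟩).ne'
  field_simp

end Vale.Agent.P237.Petty.Cor
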