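import Vale.Agent.P237.Petty.Cor.Cancel

/-!
# P237: the cancelled quadratic with the cut

The cut is a quadratic inequality in the two abscissae, linear in the rate. With a multiplier
`mu (s)` it joins the cancelled quadratic; completing the square in `d = t - s` leaves a quadratic
in `u = v - 1`, whose coefficient decreases in `v = 1 / r`.
-/

namespace Vale.Agent.P237.Petty.Cor

open Set
open Ident (half rate)

variable {p : ℕ}

/-- The cut, linear in the rate and quadratic in `t - s`. -/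
theorem FlatState.cut_quad (hp : 1 ≤ p) {ell s t a r q : ℝ} (h : FlatState p ell s t a r q) :
    Real.exp (2 * ell / ((p : ℝ) + 1)) * (1 - r) -
        ((p : ℝ) + 1) / 2 * (Real.exp (2 * ell / ((p : ℝ) + 1)) - 1) ≤
      potRate p s * (t - s) + ((p : ℝ) + 1) / (2 * (1 - s ^ 2)) * (t - s) ^ 2 := by
  have hp1 : (1 : ℝ) ≤ p := by exact_mod_cast hp
  have hm : (0 : ℝ) < (p : ℝ) + 1 := by positivity
  have ha := h.state.pos
  have hc := h.state.arc_pos'
  have hr := h.state.rate_pos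
  have hct : 0 < arc t := arc_pos ⟨by linarith [h.state.t_mem.1], h.state.t_mem.2⟩
  have hs2 : arc s ^ 2 = 1 - s ^ 2 := Real.sq_sqrt (by nlinarith [h.state.s_mem.1, h.state.s_mem.2])
  have ht2 : arc t ^ 2 = 1 - t ^ 2 := Real.sq_sqrt (by nlinarith [h.state.t_mem.1, h.state.t_mem.2])
  set E := Real.exp (2 * ell / ((p : ℝ) + 1)) with hE
  have hEp : E ^ (p + 1) = Real.exp ell ^ 2 := by
    rw [hE, ← Real.exp_nat_mul, ← Real.exp_nat_mul]
    congr 1
    push_cast
    field_simp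
  have h1 : arc t ^ 2 ≤ E * a ^ 2 := by
    refine (pow_le_pow_iff_left₀ (sq_nonneg _) (by positivity) (Nat.succ_ne_zero p)).1 ?_
    rw [mul_pow, hEp, ← pow_mul, ← pow_mul, mul_comm 2 (p + 1), pow_mul, pow_mul, ← mul_pow]
    exact pow_le_pow_left₀ (pow_nonneg hct.le _) h.cut 2
  have hz : 0 < a / arc s := div_pos ha hc
  have h2 : (a / arc s) ^ 2 ≤ 1 + 2 / ((p : ℝ) + 1) * (r - 1) := by
    have h3 := rpow_one_add_le_one_add_mul_self (s := r - 1) (p := 2 / ((p : ℝ) + 1))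
      (by linarith) (by positivity) ((div_le_one hm).2 (by linarith))
    rw [add_sub_cancel] at h3
    refine le_trans (le_of_eq ?_) h3
    rw [h.state.rate_eq, ← div_pow, ← Real.rpow_natCast (a / arc s) (p + 1), ← Real.rpow_mul hz.le]
    push_cast
    rw [mul_div_cancel₀ _ hm.ne', show (2 : ℝ) = ((2 : ℕ) : ℝ) by norm_num, Real.rpow_natCast]
  rw [div_pow, div_le_iff₀ (pow_pos hc 2)] at h2
  have h4 := h1.trans (mul_le_mul_of_nonneg_left h2 (Real.exp_pos _).le)
  rw [ht2, hs2] at h4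
  have hs0 : 0 < 1 - s ^ 2 := hs2 ▸ pow_pos hc 2
  have e : potRate p s * (t - s) + ((p : ℝ) + 1) / (2 * (1 - s ^ 2)) * (t - s) ^ 2 =
      ((p : ℝ) + 1) * (t ^ 2 - s ^ 2) / (2 * (1 - s ^ 2)) := by
    rw [potRate]
    field_simp
    ring
  rw [e, le_div_iff₀ (by linarith)]
  have h5 := mul_le_mul_of_nonneg_left h4 hm.le
  have e2 : ((p : ℝ) + 1) * (E * ((1 + 2 / ((p : ℝ) + 1) * (r - 1)) * (1 - s ^ 2))) =
      E * (((p : ℝ) + 1) + 2 * (r - 1)) * (1 - s ^ 2) := by
    field_simp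
  rw [e2] at h5
  linarith

/-- Completing the square in `d`, the part in `1 / v` on its own. -/
theorem square_split {B K v D α Y u d : ℝ} (hB : 0 < B) (hK : 0 < K) (hv : 0 < v) :
    -(D + α * u) ^ 2 / (4 * B) - Y ^ 2 / (4 * K) * (u ^ 2 / v) ≤
      D * d + (α - Y / v) * (u * d) + (B + K / v) * d ^ 2 := by
  have e : D * d + (α - Y / v) * (u * d) + (B + K / v) * d ^ 2 -
      (-(D + α * u) ^ 2 / (4 * B) - Y ^ 2 / (4 * K) * (u ^ 2 / v)) =
      (2 * B * d + (D + α * u)) ^ 2 / (4 * B) + (2 * K * d - Y * u) ^ 2 / (4 * K * v) := by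
    field_simp
    ring
  have : 0 ≤ (2 * B * d + (D + α * u)) ^ 2 / (4 * B) + (2 * K * d - Y * u) ^ 2 / (4 * K * v) := by
    positivity
  linarith

/-- The linear coefficient in `d` with the cut. -/
noncomputable def cutD (p : ℕ) (nu : ℝ) (k k' mu : ℝ → ℝ) (s : ℝ) : ℝ :=
  cancelD p nu k k' s - mu s * potRate p s

/-- The coefficient of `d ^ 2` without its part in `1 / v`, with the cut. -/
noncomputable def cutDD (p : ℕ) (nu g : ℝ) (β β' mu : ℝ → ℝ) (s : ℝ) : ℝ :=
  β' s - potRate p s * β s - nu * ((p : ℝ) + 4) * g ^ 2 -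
    mu s * (((p : ℝ) + 1) / (2 * (1 - s ^ 2)))

/-- The constant left by the cut and the square in `d`. -/
noncomputable def cutBase (p : ℕ) (nu g ell : ℝ) (k k' β β' mu : ℝ → ℝ) (s : ℝ) : ℝ :=
  ell * wS p (arc s) -
    mu s * (((p : ℝ) + 1) / 2 * (Real.exp (2 * ell / ((p : ℝ) + 1)) - 1)) -
    cutD p nu k k' mu s ^ 2 / (4 * cutDD p nu g β β' mu s)

/-- The coefficient of `u` left by the cut and the square in `d`. -/
noncomputable def cutU (p : ℕ) (gam nu g ell : ℝ) (k k' β β' mu : ℝ → ℝ) (s : ℝ) : ℝ :=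
  cancelU p gam k s + mu s * Real.exp (2 * ell / ((p : ℝ) + 1)) -
    cutD p nu k k' mu s * β s / cutDD p nu g β β' mu s

/-- The coefficient of `u ^ 2 / v` left by the cut and the square in `d`. -/
noncomputable def cutUU (p : ℕ) (gam nu g ell : ℝ) (mu : ℝ → ℝ) (s v : ℝ) : ℝ :=
  cancelUU p gam nu g s v - mu s * Real.exp (2 * ell / ((p : ℝ) + 1)) -
    (2 * nu * s * (g ^ 2 - 1)) ^ 2 / (4 * (2 * nu * g * (1 + g)))

/-- With the cut the cancelled quadratic is above a function of `s` and `v` only. -/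
theorem cutQuad_le (hp : 1 ≤ p) {gam nu g ell : ℝ} (hnu : 0 < nu) (hg : 0 < g)
    {k k' β β' mu : ℝ → ℝ} {s t a r q : ℝ} (h : FlatState p ell s t a r q) (hmu : 0 ≤ mu s)
    (hB : 0 < cutDD p nu g β β' mu s) :
    cutBase p nu g ell k k' β β' mu s + cutU p gam nu g ell k k' β β' mu s * (1 / r - 1) +
        (cutUU p gam nu g ell mu s (1 / r) / (1 / r) - β s ^ 2 / cutDD p nu g β β' mu s) *
          (1 / r - 1) ^ 2 ≤
      ell * wS p (arc s) + cancelU p gam k s * (1 / r - 1) + cancelD p nu k k' s * (t - s) +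
        cancelUU p gam nu g s (1 / r) * ((1 / r - 1) ^ 2 / (1 / r)) +
        cancelDD p nu g β β' s (1 / r) * (t - s) ^ 2 +
        cancelUD nu g β s (1 / r) * ((1 / r - 1) * (t - s)) := by
  have hr := h.state.rate_pos
  obtain ⟨v, hv, hrv⟩ : ∃ v, 0 < v ∧ r = 1 / v := ⟨1 / r, by positivity, by rw [one_div_one_div]⟩
  have hK : 0 < 2 * nu * g * (1 + g) := by positivity
  have hc := mul_le_mul_of_nonneg_left (h.cut_quad hp) hmu
  have hq := square_split (D := cutD p nu k k' mu s) (α := 2 * β s)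
    (Y := 2 * nu * s * (g ^ 2 - 1)) (u := v - 1) (d := t - s) hB hK hv
  subst hrv
  simp only [one_div_one_div]
  set B := cutDD p nu g β β' mu s with hBdef
  set D := cutD p nu k k' mu s with hDdef
  set E := Real.exp (2 * ell / ((p : ℝ) + 1)) with hE
  have e1 : cutBase p nu g ell k k' β β' mu s + cutU p gam nu g ell k k' β β' mu s * (v - 1) +
      (cutUU p gam nu g ell mu s v / v - β s ^ 2 / B) * (v - 1) ^ 2 =
      -(D + 2 * β s * (v - 1)) ^ 2 / (4 * B) -
        (2 * nu * s * (g ^ 2 - 1)) ^ 2 / (4 * (2 * nu * g * (1 + g))) * ((v - 1) ^ 2 / v) +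
      (ell * wS p (arc s) - mu s * (((p : ℝ) + 1) / 2 * (E - 1)) + cancelU p gam k s * (v - 1) +
        cancelUU p gam nu g s v * ((v - 1) ^ 2 / v) + mu s * E * (1 - 1 / v)) := by
    simp only [cutBase, cutU, cutUU, ← hBdef, ← hDdef, ← hE]
    generalize (2 * nu * s * (g ^ 2 - 1)) ^ 2 / (4 * (2 * nu * g * (1 + g))) = Z
    field_simp
    ring
  have e2 : D * (t - s) + (2 * β s - 2 * nu * s * (g ^ 2 - 1) / v) * ((v - 1) * (t - s)) +
      (B + 2 * nu * g * (1 + g) / v) * (t - s) ^ 2 =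
      cancelD p nu k k' s * (t - s) + cancelUD nu g β s v * ((v - 1) * (t - s)) +
        cancelDD p nu g β β' s v * (t - s) ^ 2 -
        mu s * (potRate p s * (t - s) + ((p : ℝ) + 1) / (2 * (1 - s ^ 2)) * (t - s) ^ 2) := by
    simp only [hDdef, hBdef, cutD, cutDD, cancelUD, cancelDD]
    ring
  linarith

/-- The coefficient of `u ^ 2 / v` decreases in `v`. -/
theorem cutUU_anti {gam nu g ell : ℝ} {mu : ℝ → ℝ} {s v vh : ℝ} (hgam : 0 ≤ gam)
    (hs : s ∈ Ioo (-1 : ℝ) 1) (hv : 0 < v) (hvh : v ≤ vh) :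
    cutUU p gam nu g ell mu s vh ≤ cutUU p gam nu g ell mu s v := by
  have hc : 0 < arc s := arc_pos hs
  have hb := Ident.b0_pos p
  have h1 : (2 * v + 1) / (2 * (v + 2)) ≤ (2 * vh + 1) / (2 * (vh + 2)) := by
    rw [div_le_div_iff₀ (by linarith) (by linarith)]
    nlinarith
  have h2 := mul_le_mul_of_nonneg_left h1
    (show 0 ≤ gam * Ident.b0 p / ((p : ℝ) + 1) / arc s by positivity)
  simp only [cutUU, cancelUU]
  linarith

/-- Below `vh` the coefficient of `u ^ 2` is at least its value at `vh`. -/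
theorem cutUU_div_ge {gam nu g ell : ℝ} {mu : ℝ → ℝ} {s v vh A : ℝ} (hgam : 0 ≤ gam)
    (hs : s ∈ Ioo (-1 : ℝ) 1) (hv : 0 < v) (hvh : v ≤ vh) (hA0 : 0 ≤ A)
    (hA : A ≤ cutUU p gam nu g ell mu s vh) :
    A / vh ≤ cutUU p gam nu g ell mu s v / v := by
  refine (div_le_div_of_nonneg_left hA0 hv hvh).trans ?_
  exact div_le_div_of_nonneg_right (hA.trans (cutUU_anti hgam hs hv hvh)) hv.le

/-- A quadratic with positive leading coefficient is above its vertex. -/
theorem quad_vertex_le {l c u : ℝ} (hc : 0 < c) : -l ^ 2 / (4 * c) ≤ l * u + c * u ^ 2 := by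
  have e : l * u + c * u ^ 2 - -l ^ 2 / (4 * c) = (2 * c * u + l) ^ 2 / (4 * c) := by
    field_simp
    ring
  have : 0 ≤ (2 * c * u + l) ^ 2 / (4 * c) := by positivity
  linarith

/-- On an interval a quadratic is above the smaller of its end values, if it is concave. -/
theorem quad_ends_le {l c u lo hi : ℝ} (hc : c ≤ 0) (hlo : lo ≤ u) (hhi : u ≤ hi) :
    min (l * lo + c * lo ^ 2) (l * hi + c * hi ^ 2) ≤ l * u + c * u ^ 2 := by
  rcases hlo.eq_or_lt with rfl | hlt
  · exact min_le_left _ _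
  have h2 : 0 < hi - lo := by linarith
  refine le_of_mul_le_mul_left ?_ h2
  have a1 := mul_le_mul_of_nonneg_left (min_le_left (l * lo + c * lo ^ 2) (l * hi + c * hi ^ 2))
    (show 0 ≤ hi - u by linarith)
  have a2 := mul_le_mul_of_nonneg_left (min_le_right (l * lo + c * lo ^ 2) (l * hi + c * hi ^ 2))
    (show 0 ≤ u - lo by linarith)
  nlinarith [mul_nonneg (mul_nonneg (mul_nonneg (neg_nonneg.2 hc) h2.le) (sub_nonneg.2 hhi))
    (sub_nonneg.2 hlo)]

/-- With a bound of `v` and a vertex, the cancelled quadratic is above a function of `s`. -/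
theorem cutQuad_vertex (hp : 1 ≤ p) {gam nu g ell : ℝ} (hgam : 0 ≤ gam) (hnu : 0 < nu) (hg : 0 < g)
    {k k' β β' mu : ℝ → ℝ} {s t a r q vh A c : ℝ} (h : FlatState p ell s t a r q)
    (hmu : 0 ≤ mu s) (hB : 0 < cutDD p nu g β β' mu s) (hv : 1 / r ≤ vh) (hA0 : 0 ≤ A)
    (hA : A ≤ cutUU p gam nu g ell mu s vh) (hc : 0 < c)
    (hcA : c ≤ A / vh - β s ^ 2 / cutDD p nu g β β' mu s) :
    cutBase p nu g ell k k' β β' mu s - cutU p gam nu g ell k k' β β' mu s ^ 2 / (4 * c) ≤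
      ell * wS p (arc s) + cancelU p gam k s * (1 / r - 1) + cancelD p nu k k' s * (t - s) +
        cancelUU p gam nu g s (1 / r) * ((1 / r - 1) ^ 2 / (1 / r)) +
        cancelDD p nu g β β' s (1 / r) * (t - s) ^ 2 +
        cancelUD nu g β s (1 / r) * ((1 / r - 1) * (t - s)) := by
  refine le_trans ?_ (cutQuad_le hp hnu hg h hmu hB)
  have hr := h.state.rate_pos
  have h1 := cutUU_div_ge (p := p) (nu := nu) (g := g) (ell := ell) (mu := mu) hgam
    ⟨by linarith [h.state.s_mem.1], h.state.s_mem.2⟩ (by positivity) hv hA0 hA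
  have h2 : c ≤ cutUU p gam nu g ell mu s (1 / r) / (1 / r) -
      β s ^ 2 / cutDD p nu g β β' mu s := by linarith
  have h3 := mul_le_mul_of_nonneg_right h2 (sq_nonneg (1 / r - 1))
  have h4 := quad_vertex_le (l := cutU p gam nu g ell k k' β β' mu s) (u := 1 / r - 1) hc
  have e : -cutU p gam nu g ell k k' β β' mu s ^ 2 / (4 * c) =
      -(cutU p gam nu g ell k k' β β' mu s ^ 2 / (4 * c)) := neg_div _ _
  linarith

end Vale.Agent.P237.Petty.Cor
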