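import Vale.Agent.P237.Petty.Cor.Point
import Vale.Agent.P237.Petty.Lift.Curvature

/-!
# P237: elementary bounds on the states without slope

The shadow term is at least its tangent in the logarithm of the speed, the cut is linear in
logarithms, the masses of the circle lie between elementary bounds, so the pinned states are
semialgebraic, and `log x` has rational bounds of third order at `1`.
-/

namespace Vale.Agent.P237.Petty.Cor

open MeasureTheory Set
open Ident (half rate)
open Lift (circLow circHigh)

variable {p : ℕ}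

/-- The logarithm of the speed, from the value. -/
theorem FlatState.log_rate {ell s t a r q : ℝ} (h : FlatState p ell s t a r q) :
    Real.log r = ((p : ℝ) + 1) * (Real.log a - Real.log (arc s)) := by
  rw [h.state.rate_eq, Real.log_div (pow_pos h.state.pos _).ne' (pow_pos h.state.arc_pos' _).ne',
    Real.log_pow, Real.log_pow]
  push_cast
  ring

/-- The shadow term is above its tangent in the logarithm of the speed. -/
theorem FlatState.inv_excess {ell s t a r q : ℝ} (h : FlatState p ell s t a r q) :
    -Real.log r / (((p : ℝ) + 1) * arc s) ≤ 1 / a - 1 / arc s := by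
  have ha := h.state.pos
  have hc := h.state.arc_pos'
  have hl := Real.log_le_sub_one_of_pos (div_pos hc ha)
  rw [Real.log_div hc.ne' ha.ne'] at hl
  rw [h.log_rate]
  calc -(((p : ℝ) + 1) * (Real.log a - Real.log (arc s))) / (((p : ℝ) + 1) * arc s)
      = (Real.log (arc s) - Real.log a) / arc s := by
        field_simp
        ring
    _ ≤ (arc s / a - 1) / arc s := div_le_div_of_nonneg_right hl hc.le
    _ = 1 / a - 1 / arc s := by field_simp

/-- The shadow part of the integrand is above the logarithm of the speed. -/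
theorem FlatState.shadow_ge {ell s t a r q gam : ℝ} (h : FlatState p ell s t a r q)
    (hgam : 0 ≤ gam) :
    gam / ((p : ℝ) + 1) * Ident.b0 p / arc s * -Real.log r ≤
      gam * Ident.b0 p * (1 / a - 1 / arc s) := by
  refine le_trans (le_of_eq ?_)
    (mul_le_mul_of_nonneg_left h.inv_excess (mul_nonneg hgam (Ident.b0_pos p).le))
  field_simp

/-- The cut, in logarithms. -/
theorem FlatState.cut_log {ell s t a r q : ℝ} (h : FlatState p ell s t a r q)
    (ht : t ∈ Ioo (0 : ℝ) 1) :
    ((p : ℝ) + 1) * (Real.log (arc t) - Real.log (arc s)) - Real.log r ≤ ell := by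
  have hct : 0 < arc t := arc_pos ⟨by linarith [ht.1], ht.2⟩
  have h1 := Real.log_le_log (pow_pos hct _) h.cut
  rw [Real.log_mul (Real.exp_pos _).ne' (pow_pos h.state.pos _).ne', Real.log_exp, Real.log_pow,
    Real.log_pow] at h1
  push_cast at h1
  rw [h.log_rate]
  linarith

/-- The mass below `s` is at most `s`. -/
theorem circLow_le {s : ℝ} (hs : s ∈ Icc (0 : ℝ) 1) : circLow p s ≤ s := by
  calc circLow p s ≤ ∫ _ in (0 : ℝ)..s, (1 : ℝ) :=
        intervalIntegral.integral_mono_on hs.1 ((continuous_arc.pow _).intervalIntegrable _ _)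
          intervalIntegrable_const fun u hu => pow_le_one₀ (Real.sqrt_nonneg _)
            (Real.sqrt_le_one.2 (by nlinarith [hu.1]))
    _ = s := by simp

/-- The mass below `s` is at least the rectangle. -/
theorem le_circLow {s : ℝ} (hs : s ∈ Icc (0 : ℝ) 1) : s * arc s ^ (p + 1) ≤ circLow p s := by
  calc s * arc s ^ (p + 1) = ∫ _ in (0 : ℝ)..s, arc s ^ (p + 1) := by simp
    _ ≤ _ := intervalIntegral.integral_mono_on hs.1 intervalIntegrable_const
        ((continuous_arc.pow _).intervalIntegrable _ _) fun u hu =>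
          pow_le_pow_left₀ (Real.sqrt_nonneg _) (Real.sqrt_le_sqrt (by nlinarith [hu.1, hu.2])) _

/-- The first moment above `s`. -/
theorem integral_high_moment {s : ℝ} (hs : s ∈ Icc (0 : ℝ) 1) :
    ((p : ℝ) + 3) * ∫ u in s..(1 : ℝ), u * arc u ^ (p + 1) = arc s ^ (p + 3) := by
  have h := intervalIntegral.integral_eq_sub_of_hasDerivAt_of_le hs.2
    (f := fun u : ℝ => √(1 - u ^ 2) ^ (p + 1 + 2))
    (f' := fun u => -((((p + 1 : ℕ) : ℝ) + 2) * u * √(1 - u ^ 2) ^ (p + 1))) (by fun_prop)
    (fun u hu => hasDerivAt_half_circle (p + 1) ⟨by linarith [hs.1, hu.1], hu.2⟩)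
    (Continuous.intervalIntegrable (by fun_prop) _ _)
  rw [intervalIntegral.integral_neg, show (1 : ℝ) - 1 ^ 2 = 0 by norm_num, Real.sqrt_zero,
    zero_pow (by omega)] at h
  rw [← intervalIntegral.integral_const_mul]
  push_cast at h
  have e : ∫ u in s..(1 : ℝ), ((p : ℝ) + 3) * (u * arc u ^ (p + 1)) =
      ∫ u in s..(1 : ℝ), ((p : ℝ) + 1 + 2) * u * √(1 - u ^ 2) ^ (p + 1) :=
    intervalIntegral.integral_congr fun u _ => by simp only [arc]; ring
  rw [e, show p + 3 = p + 1 + 2 from rfl]
  simp only [arc]
  linarith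

/-- The mass above `s` is between the first moment and its quotient by `s`. -/
theorem circHigh_bounds {s : ℝ} (hs : s ∈ Icc (0 : ℝ) 1) :
    arc s ^ (p + 3) ≤ ((p : ℝ) + 3) * circHigh p s ∧
      s * (((p : ℝ) + 3) * circHigh p s) ≤ arc s ^ (p + 3) := by
  have hm := integral_high_moment (p := p) hs
  have hc : ∀ u : ℝ, 0 ≤ arc u ^ (p + 1) := fun u => pow_nonneg (Real.sqrt_nonneg _) _
  have hi : IntervalIntegrable (fun u => arc u ^ (p + 1)) volume s 1 :=
    (continuous_arc.pow _).intervalIntegrable _ _
  have hj : IntervalIntegrable (fun u => u * arc u ^ (p + 1)) volume s 1 :=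
    (continuous_id.mul (continuous_arc.pow _)).intervalIntegrable _ _
  have hp : (0 : ℝ) ≤ (p : ℝ) + 3 := by positivity
  constructor
  · rw [← hm]
    refine mul_le_mul_of_nonneg_left (intervalIntegral.integral_mono_on hs.2 hj hi fun u hu => ?_) hp
    exact mul_le_of_le_one_left (hc u) hu.2
  · rw [← hm, mul_left_comm, circHigh, ← intervalIntegral.integral_const_mul]
    refine mul_le_mul_of_nonneg_left (intervalIntegral.integral_mono_on hs.2 (hi.const_mul s) hj
      fun u hu => ?_) hp
    exact mul_le_mul_of_nonneg_right hu.1 (hc u)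

/-- The pinned states satisfy two semialgebraic inequalities. -/
theorem FlatState.pinned {ell s t a r q : ℝ} (h : FlatState p ell s t a r q)
    (ht : t ∈ Icc (0 : ℝ) 1) (hs : s ∈ Icc (0 : ℝ) 1) :
    t * arc t ^ (p + 1) ≤ Real.exp ell * s ∧
      s * arc t ^ (p + 3) ≤ Real.exp ell * arc s ^ (p + 3) := by
  have he := (Real.exp_pos ell).le
  refine ⟨((le_circLow ht).trans h.low).trans (mul_le_mul_of_nonneg_left (circLow_le hs) he), ?_⟩
  have h1 := mul_le_mul_of_nonneg_left (circHigh_bounds (p := p) ht).1 hs.1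
  have h2 := mul_le_mul_of_nonneg_left h.high
    (mul_nonneg hs.1 (show (0 : ℝ) ≤ (p : ℝ) + 3 by positivity))
  have h3 := mul_le_mul_of_nonneg_left (circHigh_bounds (p := p) hs).2 he
  linarith

/-- The rational upper bound of the logarithm holds on the whole half line. -/
theorem log_le_pade {x : ℝ} (hx : 0 < x) :
    Real.log x ≤ (x - 1) * (5 + x) / (2 + 4 * x) := by
  rcases le_total 1 x with h1 | h1
  · have h := Lift.log_one_add_le (sub_nonneg.2 h1)
    rw [add_sub_cancel] at h
    convert h using 2 <;> ring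
  have hanti : AntitoneOn (fun y : ℝ => (y - 1) * (5 + y) / (2 + 4 * y) - Real.log y) (Ioc 0 1) := by
    refine antitoneOn_of_hasDerivWithinAt_nonpos (convex_Ioc 0 1)
      (f' := fun y => 4 * (y - 1) ^ 3 / ((2 + 4 * y) ^ 2 * y)) ?_ (fun y hy => ?_) fun y hy => ?_
    · intro y hy
      have h2 : (2 : ℝ) + 4 * y ≠ 0 := by linarith [hy.1]
      have h3 : y ≠ 0 := hy.1.ne'
      exact ContinuousAt.continuousWithinAt (by fun_prop (disch := assumption))
    all_goals rw [interior_Ioc] at hy
    · have h2 : (2 : ℝ) + 4 * y ≠ 0 := by linarith [hy.1]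
      have h3 : y ≠ 0 := hy.1.ne'
      refine HasDerivAt.hasDerivWithinAt ?_
      refine (((((hasDerivAt_id y).sub_const 1).mul ((hasDerivAt_id y).const_add 5)).div
        (((hasDerivAt_id y).const_mul 4).const_add 2) h2).sub (Real.hasDerivAt_log h3)).congr_deriv
          ?_
      simp only [id, Pi.mul_apply]
      rw [← one_div, div_sub_div _ _ (pow_ne_zero 2 h2) h3]
      congr 1
      ring
    · exact div_nonpos_of_nonpos_of_nonneg
        (mul_nonpos_of_nonneg_of_nonpos (by norm_num) (Odd.pow_nonpos (by decide) (by linarith [hy.2])))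
        (mul_nonneg (sq_nonneg _) hy.1.le)
  have h := hanti ⟨hx, h1⟩ ⟨one_pos, le_rfl⟩ h1
  simp only [sub_self, zero_mul, zero_div, Real.log_one] at h
  linarith

/-- The rational lower bound of the logarithm on the whole half line. -/
theorem pade_le_log {x : ℝ} (hx : 0 < x) :
    (x - 1) * (1 + 5 * x) / (x * (4 + 2 * x)) ≤ Real.log x := by
  have h := log_le_pade (inv_pos.2 hx)
  rw [Real.log_inv] at h
  have e : (x⁻¹ - 1) * (5 + x⁻¹) / (2 + 4 * x⁻¹) =
      -((x - 1) * (1 + 5 * x) / (x * (4 + 2 * x))) := by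
    have h2 : (2 : ℝ) * x + 4 ≠ 0 := by positivity
    field_simp
    ring
  rw [e] at h
  linarith

end Vale.Agent.P237.Petty.Cor
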