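import Vale.Agent.P237.Petty.Cor.SmallS

/-!
# P237: the obstacle part below the scaled circle is at most a square

For `X ≤ 0` the loss `b0 / c * psiS p X` is paid by `wS p c * phiS X` up to `X ^ 2 / 2`, whatever
the height `c` of the circle.
-/

namespace Vale.Agent.P237.Petty.Cor

variable {p : ℕ}

/-- `p * phiS` dominates `psiS` below zero. -/
theorem psiS_le_mul_phiS (p : ℕ) (x : ℝ) : psiS p x ≤ (p : ℝ) * phiS x := by
  have hm : (0 : ℝ) < (p : ℝ) + 1 := by positivity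
  have h := mul_le_mul_of_nonneg_left (Real.add_one_le_exp (x / ((p : ℝ) + 1) - x))
    (mul_nonneg hm.le (Real.exp_pos x).le)
  rw [mul_assoc ((p : ℝ) + 1) (Real.exp x) (Real.exp _), ← Real.exp_add, add_sub_cancel] at h
  have e : ((p : ℝ) + 1) * Real.exp x * (x / ((p : ℝ) + 1) - x + 1) =
      Real.exp x * x - ((p : ℝ) + 1) * Real.exp x * x + ((p : ℝ) + 1) * Real.exp x := by
    field_simp
  rw [e] at h
  rw [psiS, phiS]
  linarith

/-- `psiS` is at most `p / (p + 1)` times the exponential remainder below zero. -/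
theorem psiS_le_frac (p : ℕ) {x : ℝ} (hx : x ≤ 0) :
    ((p : ℝ) + 1) * psiS p x ≤ (p : ℝ) * (Real.exp x - 1 - x) := by
  have hm : (0 : ℝ) < (p : ℝ) + 1 := by positivity
  have hd : ∀ u : ℝ, HasDerivAt
      (fun u => (p : ℝ) * (Real.exp u - 1 - u) - ((p : ℝ) + 1) * psiS p u)
      (-Real.exp u - (p : ℝ) + ((p : ℝ) + 1) * Real.exp (u / ((p : ℝ) + 1))) u := fun u => by
    refine (((((Real.hasDerivAt_exp u).sub_const 1).sub (hasDerivAt_id u)).const_mul (p : ℝ)).sub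
      ((((Real.hasDerivAt_exp u).sub_const 1).sub
        ((((hasDerivAt_id u).div_const ((p : ℝ) + 1)).exp.sub_const 1).const_mul
          ((p : ℝ) + 1))).const_mul ((p : ℝ) + 1))).congr_deriv ?_
    simp only [id]
    field_simp
    ring
  have ha : Antitone fun u => (p : ℝ) * (Real.exp u - 1 - u) - ((p : ℝ) + 1) * psiS p u := by
    refine antitone_of_hasDerivAt_nonpos hd fun u => ?_
    have h := psiS_nonneg p u
    rw [psiS] at h
    show -Real.exp u - (p : ℝ) + ((p : ℝ) + 1) * Real.exp (u / ((p : ℝ) + 1)) ≤ 0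
    linarith
  have h := ha hx
  simp only [psiS, Real.exp_zero, zero_div, sub_self, mul_zero] at h ⊢
  linarith

/-- The largest value of the obstacle part over the height. -/
theorem obstacle_max (hp : 1 ≤ p) {c : ℝ} (hc : 0 < c) {x : ℝ} (hφ0 : 0 < phiS x) :
    2 * (p : ℝ) * phiS x * (Ident.b0 p / c * psiS p x - wS p c * phiS x) ≤
      2 * (p : ℝ) * phiS x * psiS p x + psiS p x ^ 2 := by
  obtain ⟨b, hb, hbdef⟩ : ∃ b, 0 < b ∧ Ident.b0 p = b := ⟨_, Ident.b0_pos p, rfl⟩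
  have hp1 : (1 : ℝ) ≤ p := by exact_mod_cast hp
  have hΨ1 := psiS_le_mul_phiS p x
  obtain ⟨u, hu, rfl⟩ : ∃ u, 0 < u ∧ c = b * u :=
    ⟨c / b, div_pos hc hb, by field_simp⟩
  have key : 0 ≤ u * psiS p x ^ 2 + 2 * ((p : ℝ) * phiS x) * (u - 1) * psiS p x +
      ((p : ℝ) * phiS x) ^ 2 * ((u - 1) ^ 2 * (u + 2)) := by
    have hA : 0 ≤ (p : ℝ) * phiS x := by positivity
    rcases le_total 1 (u ^ 2 + 2 * u) with hu2 | hu2
    · refine le_of_mul_le_mul_left ?_ hu
      nlinarith [sq_nonneg (u * psiS p x + (p : ℝ) * phiS x * (u - 1)),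
        mul_nonneg (sq_nonneg ((p : ℝ) * phiS x * (u - 1))) (sub_nonneg.2 hu2)]
    · have hu1 : 0 ≤ 2 - 3 * u := by nlinarith
      nlinarith [mul_nonneg (sub_nonneg.2 hΨ1) (mul_nonneg hA hu1),
        mul_nonneg (mul_nonneg hu.le (sub_nonneg.2 hΨ1)) (sub_nonneg.2 hΨ1),
        mul_nonneg (pow_nonneg hu.le 3) (sq_nonneg ((p : ℝ) * phiS x))]
  rw [wS, sqCoef, hbdef]
  refine le_of_mul_le_mul_left (a := u) ?_ hu
  have e : u * (2 * (p : ℝ) * phiS x * (b / (b * u) * psiS p x -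
      (p : ℝ) / (2 * b ^ 2) * (b * u - b) ^ 2 * (b * u + 2 * b) / (b * u) * phiS x)) =
      2 * (p : ℝ) * phiS x * psiS p x - ((p : ℝ) * phiS x) ^ 2 * ((u - 1) ^ 2 * (u + 2)) := by
    field_simp
  rw [e]
  linarith

/-- The obstacle part at `X ≤ 0` is at most `X ^ 2 / 2`, uniformly in the height. -/
theorem obstacle_le_sq (hp : 1 ≤ p) {c : ℝ} (hc : 0 < c) {x : ℝ} (hx : x ≤ 0) :
    Ident.b0 p / c * psiS p x - wS p c * phiS x ≤ x ^ 2 / 2 := by
  rcases hx.eq_or_lt with rfl | hx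
  · simp [psiS, phiS]
  have hp1 : (1 : ℝ) ≤ p := by exact_mod_cast hp
  have hm : (0 : ℝ) < (p : ℝ) + 1 := by positivity
  set s := -x with hs
  have hs0 : 0 < s := by linarith
  have hD : 0 < 2 + 2 * s + s ^ 2 := by positivity
  have hE : Real.exp x * (2 + 2 * s + s ^ 2) ≤ 2 := by
    have h := mul_le_mul_of_nonneg_left (Real.quadratic_le_exp_of_nonneg hs0.le) (Real.exp_pos x).le
    rw [← Real.exp_add, show x + s = 0 by rw [hs]; ring, Real.exp_zero] at h
    linarith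
  set G := Real.exp x - 1 - x with hG
  set φ := phiS x with hφ
  have hG0 : 0 ≤ G := by linarith [Real.add_one_le_exp x]
  have hG1 : G * (2 + 2 * s + s ^ 2) ≤ s ^ 2 * (1 + s) := by
    rw [hG, show Real.exp x - 1 - x = Real.exp x - 1 + s by rw [hs]; ring]
    linarith
  have hφ1 : s ^ 2 ≤ φ * (2 + 2 * s + s ^ 2) := by
    rw [hφ, phiS, show x * Real.exp x - Real.exp x + 1 = 1 - (1 + s) * Real.exp x by rw [hs]; ring]
    linarith [mul_le_mul_of_nonneg_left hE (show (0 : ℝ) ≤ 1 + s by linarith)]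
  have hφ0 : 0 < φ := pos_of_mul_pos_left ((pow_pos hs0 2).trans_le hφ1) hD.le
  have hG2 : G ≤ s ^ 2 / 2 := by nlinarith [sq_nonneg s, mul_pos hs0 hs0]
  have hG3 : G ^ 2 ≤ 2 * φ * (s ^ 2 - G) := by
    refine le_of_mul_le_mul_right ?_ (pow_pos hD 2)
    have a1 := pow_le_pow_left₀ (mul_nonneg hG0 hD.le) hG1 2
    have a2 := mul_le_mul hφ1 (show s ^ 2 * (1 + s + s ^ 2) ≤ (s ^ 2 - G) * (2 + 2 * s + s ^ 2) by
        linarith) (by positivity) (by positivity)
    nlinarith [mul_nonneg (pow_nonneg (sq_nonneg s) 2) (show (0 : ℝ) ≤ 1 + s ^ 2 by positivity)]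
  set Ψ := psiS p x with hΨ
  have hΨ0 : 0 ≤ Ψ := psiS_nonneg p x
  have hΨ1 : Ψ ≤ (p : ℝ) * φ := psiS_le_mul_phiS p x
  have hΨ2 : ((p : ℝ) + 1) * Ψ ≤ (p : ℝ) * G := psiS_le_frac p hx.le
  -- the largest value over the height
  have hK := obstacle_max hp hc hφ0
  -- its size
  have h2 : 2 * (p : ℝ) * φ * Ψ + Ψ ^ 2 ≤ 2 * (p : ℝ) * φ * (s ^ 2 / 2) := by
    refine le_of_mul_le_mul_left ?_ (pow_pos hm 2)
    have b1 := mul_le_mul_of_nonneg_left hΨ2 (by positivity : (0 : ℝ) ≤ 2 * p * φ * ((p : ℝ) + 1))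
    have b2 := pow_le_pow_left₀ (mul_nonneg hm.le hΨ0) hΨ2 2
    have b3 := mul_le_mul_of_nonneg_left hG3 (sq_nonneg (p : ℝ))
    have b4 := mul_le_mul_of_nonneg_left hG2 (by positivity : (0 : ℝ) ≤ 2 * (p : ℝ) ^ 2 * φ * p)
    nlinarith [mul_nonneg (mul_nonneg hφ0.le (sq_nonneg s)) (show (0 : ℝ) ≤ p by positivity)]
  have h3 := le_of_mul_le_mul_left (hK.trans h2) (by positivity : (0 : ℝ) < 2 * p * φ)
  linarith [show s ^ 2 = x ^ 2 by rw [hs]; ring]

/-- The exponential remainder is at most `phiS` and at most `x ^ 2 / 2 * exp x` above zero. -/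
theorem expRem_le {x : ℝ} (hx : 0 ≤ x) :
    Real.exp x - 1 - x ≤ phiS x ∧ Real.exp x - 1 - x ≤ x ^ 2 / 2 * Real.exp x := by
  have hd : ∀ u : ℝ, HasDerivAt (fun u => phiS u - (Real.exp u - 1 - u))
      ((u - 1) * Real.exp u + 1) u := fun u => by
    simp only [phiS]
    refine ((((hasDerivAt_id u).mul (Real.hasDerivAt_exp u)).sub (Real.hasDerivAt_exp u)).add_const
      (1 : ℝ) |>.sub (((Real.hasDerivAt_exp u).sub_const 1).sub (hasDerivAt_id u))).congr_deriv ?_
    simp only [id]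
    ring
  have h1 : Monotone fun u => phiS u - (Real.exp u - 1 - u) :=
    monotone_of_hasDerivAt_nonneg hd fun u => by
      have h := phiS_nonneg u
      rw [phiS] at h
      show 0 ≤ (u - 1) * Real.exp u + 1
      linarith
  have h1 := h1 hx
  simp only [phiS, Real.exp_zero] at h1
  refine ⟨by rw [phiS]; linarith, ?_⟩
  have h2 := Real.quadratic_le_exp_of_nonneg hx
  have hd2 : ∀ u : ℝ, HasDerivAt (fun u => u ^ 2 / 2 * Real.exp u - (Real.exp u - 1 - u))
      ((u ^ 2 / 2 + u - 1) * Real.exp u + 1) u := fun u => by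
    refine ((((hasDerivAt_pow 2 u).div_const 2).mul (Real.hasDerivAt_exp u)).sub
      (((Real.hasDerivAt_exp u).sub_const 1).sub (hasDerivAt_id u))).congr_deriv ?_
    push_cast
    ring
  have h3 : Monotone fun u => u ^ 2 / 2 * Real.exp u - (Real.exp u - 1 - u) :=
    monotone_of_hasDerivAt_nonneg hd2 fun u => by
      have h := phiS_nonneg u
      rw [phiS] at h
      have := mul_nonneg (sq_nonneg u) (Real.exp_pos u).le
      show 0 ≤ (u ^ 2 / 2 + u - 1) * Real.exp u + 1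
      linarith
  have h3 := h3 hx
  simp only [Real.exp_zero] at h3
  linarith

/-- The obstacle part up to `ell` is at most `exp ell * x ^ 2 / 2` if `exp ell ≤ 2 p / (p + 1)`. -/
theorem obstacle_le_sq_exp (hp : 1 ≤ p) {c ell : ℝ} (hc : 0 < c) {x : ℝ} (hx : x ≤ ell)
    (h0 : 0 ≤ ell) (hell : Real.exp ell * ((p : ℝ) + 1) ≤ 2 * p) :
    Ident.b0 p / c * psiS p x - wS p c * phiS x ≤ Real.exp ell * (x ^ 2 / 2) := by
  have he := Real.one_le_exp h0
  rcases le_or_gt x 0 with hx0 | hx0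
  · exact (obstacle_le_sq hp hc hx0).trans (le_mul_of_one_le_left (by positivity) he)
  have hp1 : (1 : ℝ) ≤ p := by exact_mod_cast hp
  have hm : (0 : ℝ) < (p : ℝ) + 1 := by positivity
  obtain ⟨hG, hG2⟩ := expRem_le hx0.le
  have hq := Real.quadratic_le_exp_of_nonneg hx0.le
  have hφ0 : 0 < phiS x := lt_of_lt_of_le (by nlinarith [mul_pos hx0 hx0]) hG
  have hΨ := psiS_nonneg p x
  -- `psiS` is below the remainder less `x ^ 2 / (2 (p + 1))`
  have hΨ1 : psiS p x ≤ Real.exp x - 1 - x - x ^ 2 / (2 * ((p : ℝ) + 1)) := by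
    have h := mul_le_mul_of_nonneg_left
      (Real.quadratic_le_exp_of_nonneg (div_nonneg hx0.le hm.le)) hm.le
    have e : ((p : ℝ) + 1) * (1 + x / ((p : ℝ) + 1) + (x / ((p : ℝ) + 1)) ^ 2 / 2) =
        ((p : ℝ) + 1) + x + x ^ 2 / (2 * ((p : ℝ) + 1)) := by
      field_simp
    rw [e] at h
    rw [psiS]
    linarith
  have h2 : psiS p x ^ 2 ≤ phiS x * (Real.exp x - 1 - x) := by
    rw [sq]
    exact mul_le_mul ((psiS_le p x).trans hG) (psiS_le p x) hΨ hφ0.le
  have h3 := le_of_mul_le_mul_left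
    (a := 2 * (p : ℝ) * phiS x) (c := psiS p x + (Real.exp x - 1 - x) / (2 * (p : ℝ)))
    ((obstacle_max hp hc hφ0).trans (by
      have : 2 * (p : ℝ) * phiS x * (psiS p x + (Real.exp x - 1 - x) / (2 * (p : ℝ))) =
          2 * (p : ℝ) * phiS x * psiS p x + phiS x * (Real.exp x - 1 - x) := by
        field_simp
      rw [this]
      linarith)) (by positivity)
  have hex : Real.exp x ≤ Real.exp ell := Real.exp_le_exp.2 hx
  have h4 : (x ^ 2 / 2 * Real.exp ell) / (2 * (p : ℝ)) ≤ x ^ 2 / (2 * ((p : ℝ) + 1)) := by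
    rw [div_le_div_iff₀ (by positivity) (by positivity)]
    nlinarith [mul_le_mul_of_nonneg_left hell (sq_nonneg x)]
  have h5 := mul_le_mul_of_nonneg_left hex (by positivity : (0 : ℝ) ≤ x ^ 2 / 2)
  have h6 : (Real.exp x - 1 - x) / (2 * (p : ℝ)) ≤ (x ^ 2 / 2 * Real.exp ell) / (2 * (p : ℝ)) :=
    div_le_div_of_nonneg_right (hG2.trans h5) (by positivity)
  linarith

/-- On a state the logarithm of the circle over the profile is at most `ell`. -/
theorem FlatState.excS_le {ell s t a r q : ℝ} (h : FlatState p ell s t a r q) :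
    excS p t a ≤ ell := by
  have ha := pow_pos h.state.pos (p + 1)
  have hc : 0 < arc t := arc_pos ⟨by linarith [h.state.t_mem.1], h.state.t_mem.2⟩
  refine (Real.log_le_iff_le_exp (div_pos (pow_pos hc _) ha)).2 ?_
  rw [div_le_iff₀ ha]
  exact h.cut

end Vale.Agent.P237.Petty.Cor
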