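import Vale.Agent.P237.Petty.Cor.Cell
import Vale.Agent.P237.Petty.Cor.Bounds
import Vale.Agent.P237.Petty.Cor.PsiTrick

/-!
# P237: the cell in the two small variables

For the test `s + g (s - t)` and the potential `k (s) d + β (s) d ^ 2`, with `d = t - s` and
`u = r - 1`, the cell is a quadratic in `(u, d)`, the terms `d ^ 2 u` and `d u ^ 2 / r`, the shadow
and the obstacle.
-/

namespace Vale.Agent.P237.Petty.Cor

open MeasureTheory Set intervalIntegral
open Ident (half rate)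

variable {p : ℕ}

/-- The potential `k (s) d + β (s) d ^ 2`. -/
noncomputable def quadPot (k β : ℝ → ℝ) (s t : ℝ) : ℝ := k s * (t - s) + β s * (t - s) ^ 2

/-- Its derivative in the first abscissa. -/
noncomputable def quadPotS (k k' β β' : ℝ → ℝ) (s t : ℝ) : ℝ :=
  k' s * (t - s) - k s + (β' s * (t - s) ^ 2 - 2 * β s * (t - s))

/-- Its derivative in the second abscissa. -/
noncomputable def quadPotT (k β : ℝ → ℝ) (s t : ℝ) : ℝ := k s + 2 * β s * (t - s)

/-- The weight `s (p + 1) / (1 - s ^ 2)` of the null fields. -/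
noncomputable def potRate (p : ℕ) (s : ℝ) : ℝ := ((p : ℝ) + 1) * s / (1 - s ^ 2)

/-- The coefficient of `u ^ 2 / r`. -/
def coefUU (nu g : ℝ) (k : ℝ → ℝ) (s : ℝ) : ℝ := 2 * nu * (1 + g) * (1 - s ^ 2) + k s

/-- The coefficient of `d`. -/
noncomputable def coefD (p : ℕ) (nu : ℝ) (k k' : ℝ → ℝ) (s : ℝ) : ℝ :=
  k' s - potRate p s * k s - 2 * ((p : ℝ) + 4) * (nu - nuS p) * s

/-- The coefficient of `d u`. -/
def coefDU (nu g : ℝ) (β : ℝ → ℝ) (s : ℝ) : ℝ := 2 * nu * s * (g ^ 2 - 1) - 2 * β s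

/-- The coefficient of `d ^ 2`. -/
noncomputable def coefDD (p : ℕ) (nu g : ℝ) (β β' : ℝ → ℝ) (s : ℝ) : ℝ :=
  sqCoef p + nu * (2 * g - ((p : ℝ) + 2) * g ^ 2) + (β' s - potRate p s * β s)

/-- The exact cell in `u = r - 1` and `d = t - s`. -/
theorem cellExpr_affine_quad (gam nu ell g : ℝ) (k k' β β' : ℝ → ℝ) (s t a : ℝ) {r : ℝ}
    (hr : r ≠ 0) :
    cellExpr p gam nu ell (fun s t => s + g * (s - t)) (fun _ _ => 1 + g) (fun _ _ => -g)
        (quadPot k β) (quadPotS k k' β β') (quadPotT k β) s t a r =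
      coefUU nu g k s * ((r - 1) ^ 2 / r) + coefDU nu g β s * ((t - s) * (r - 1)) +
        coefDD p nu g β β' s * (t - s) ^ 2 - k s * (r - 1) + coefD p nu k k' s * (t - s) +
        2 * nu * g * (1 + g) * ((t - s) ^ 2 * (r - 1)) + 2 * β s * ((t - s) * ((r - 1) ^ 2 / r)) +
        (gam - ((p : ℝ) + 1)) * Ident.b0 p * (1 / a - 1 / arc s) -
        (Ident.b0 p / arc t * psiS p (excS p t a) - wS p (arc t) * phiS (excS p t a)) +
        wS p (arc t) * (Real.exp (excS p t a) * (ell - excS p t a)) := by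
  simp only [cellExpr, testGen_affine g s t hr, testDef, nullPart, quadPot, quadPotS, quadPotT,
    coefUU, coefD, coefDU, coefDD, potRate]
  field_simp
  ring

/-- The shadow coefficient of `-u`. -/
noncomputable def coefShadow (p : ℕ) (gam s : ℝ) : ℝ :=
  (gam - ((p : ℝ) + 1)) / ((p : ℝ) + 1) * Ident.b0 p / arc s

/-- Below the cut `ell` the cell is at least a quadratic in `(u, d)` with the square of `X`. -/
theorem cellExpr_bulk_ge (hp : 1 ≤ p) {gam nu ell g : ℝ} (hgam : (p : ℝ) + 1 ≤ gam)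
    (h0 : 0 ≤ ell) (hell : Real.exp ell * ((p : ℝ) + 1) ≤ 2 * p) (k k' β β' : ℝ → ℝ)
    {s t a r q : ℝ} (h : FlatState p ell s t a r q) :
    coefUU nu g k s * ((r - 1) ^ 2 / r) + coefDU nu g β s * ((t - s) * (r - 1)) +
        coefDD p nu g β β' s * (t - s) ^ 2 - (k s + coefShadow p gam s) * (r - 1) +
        coefD p nu k k' s * (t - s) +
        2 * nu * g * (1 + g) * ((t - s) ^ 2 * (r - 1)) + 2 * β s * ((t - s) * ((r - 1) ^ 2 / r)) -
        Real.exp ell * (excS p t a ^ 2 / 2) +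
        wS p (arc t) * (Real.exp (excS p t a) * (ell - excS p t a)) ≤
      cellExpr p gam nu ell (fun s t => s + g * (s - t)) (fun _ _ => 1 + g) (fun _ _ => -g)
        (quadPot k β) (quadPotS k k' β β') (quadPotT k β) s t a r := by
  have hm : (0 : ℝ) < (p : ℝ) + 1 := by positivity
  have hc := h.state.arc_pos'
  have hct : 0 < arc t := arc_pos ⟨by linarith [h.state.t_mem.1], h.state.t_mem.2⟩
  rw [cellExpr_affine_quad gam nu ell g k k' β β' s t a h.state.rate_pos.ne']
  have hob := obstacle_le_sq_exp hp hct h.excS_le h0 hell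
  have hg0 : 0 ≤ (gam - ((p : ℝ) + 1)) * Ident.b0 p :=
    mul_nonneg (sub_nonneg.2 hgam) (Ident.b0_pos p).le
  have h1 : -(r - 1) / (((p : ℝ) + 1) * arc s) ≤ 1 / a - 1 / arc s :=
    (div_le_div_of_nonneg_right (neg_le_neg (Real.log_le_sub_one_of_pos h.state.rate_pos))
      (mul_pos hm hc).le).trans h.inv_excess
  have h2 := mul_le_mul_of_nonneg_left h1 hg0
  have e : (gam - ((p : ℝ) + 1)) * Ident.b0 p * (-(r - 1) / (((p : ℝ) + 1) * arc s)) =
      -(coefShadow p gam s * (r - 1)) := by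
    rw [coefShadow]
    field_simp
  rw [e] at h2
  linarith

end Vale.Agent.P237.Petty.Cor
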