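import Vale.Agent.P237.Petty.Cor.SingPot

/-!
# P237: the cell without obstacle

The primitive `arc t ^ p * (b0 + sqCoef (arc t - b0) ^ 2 (arc t + 2 b0) (1 - ell))` cancels every
term of the cell in the ratio of the circle to the profile. What is left is the deficit of the
test, the excess of the shadow, the gain at the abscissa of the circle, a linear term and the null
part of the potential: the height of the circle at `t` no longer occurs.
-/

namespace Vale.Agent.P237.Petty.Cor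

open MeasureTheory Set intervalIntegral
open Ident (half rate)

variable {p : ℕ}

/-- The primitive that cancels the obstacle. -/
noncomputable def cancelPrim (p : ℕ) (ell u : ℝ) : ℝ :=
  arc u ^ p *
    (Ident.b0 p + sqCoef p * (arc u - Ident.b0 p) ^ 2 * (arc u + 2 * Ident.b0 p) * (1 - ell))

theorem continuous_cancelPrim (p : ℕ) (ell : ℝ) : Continuous (cancelPrim p ell) := by
  have := continuous_arc
  unfold cancelPrim
  fun_prop

/-- The cell after the cancellation, per unit of mass. -/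
noncomputable def cancelExpr (p : ℕ) (gam nu ell : ℝ) (F Fs Ft Q Qs Qt : ℝ → ℝ → ℝ)
    (s t a r : ℝ) : ℝ :=
  nu * testGen p F Fs Ft s t r + gam * Ident.b0 p * (1 / a - 1 / arc s) + ell * wS p (arc s) -
    2 * (sqCoef p + ((p : ℝ) + 4) * (nu - nuS p)) * (s * (t - s)) + nullPart p Q Qs Qt s t r

/-- The cell and the null part of the primitive are the cancelled form. -/
theorem cellExpr_add_cancel (gam nu ell : ℝ) (F Fs Ft Q Qs Qt : ℝ → ℝ → ℝ) {s t a r q : ℝ}
    (h : Lift.LiftState p s t a r q) :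
    a ^ (p + 1) * cellExpr p gam nu ell F Fs Ft Q Qs Qt s t a r +
        (cancelPrim p ell t - cancelPrim p ell s * r) =
      a ^ (p + 1) * cancelExpr p gam nu ell F Fs Ft Q Qs Qt s t a r := by
  have ha := h.pos
  have hcs := h.arc_pos'
  have hct : 0 < arc t := arc_pos ⟨by linarith [h.t_mem.1], h.t_mem.2⟩
  have hb := Ident.b0_pos p
  have hm : (0 : ℝ) < (p : ℝ) + 1 := by positivity
  have hs2 : arc s ^ 2 = 1 - s ^ 2 := Real.sq_sqrt (by nlinarith [h.s_mem.1, h.s_mem.2])
  have ht2 : arc t ^ 2 = 1 - t ^ 2 := Real.sq_sqrt (by nlinarith [h.t_mem.1, h.t_mem.2])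
  set X := excS p t a with hX
  have hE : Real.exp X = arc t ^ (p + 1) / a ^ (p + 1) := by
    rw [hX, excS, Real.exp_log (by positivity)]
  have hE1 : Real.exp (X / ((p : ℝ) + 1)) = arc t / a := by
    rw [hX, excS, ← div_pow, Real.log_pow]
    push_cast
    rw [mul_div_cancel_left₀ _ hm.ne', Real.exp_log (by positivity)]
  have key : a ^ (p + 1) * (-(Ident.b0 p / arc t * psiS p X) +
      wS p (arc t) * (phiS X + Real.exp X * (ell - X)) -
      ((p : ℝ) + 1) * Ident.b0 p * (1 / a - 1 / arc s) + sqCoef p * (t - s) ^ 2) +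
      (cancelPrim p ell t - cancelPrim p ell s * r) =
      a ^ (p + 1) * (ell * wS p (arc s) - 2 * sqCoef p * (s * (t - s))) := by
    rw [show (t - s) ^ 2 = (t ^ 2 - s ^ 2) - 2 * (s * (t - s)) by ring,
      show t ^ 2 - s ^ 2 = arc s ^ 2 - arc t ^ 2 by rw [hs2, ht2]; ring]
    rw [psiS, phiS, hE, hE1, cancelPrim, cancelPrim, wS, wS, sqCoef,
      show r = a ^ (p + 1) / arc s ^ (p + 1) from h.rate_eq]
    simp only [pow_succ]
    field_simp
    ring
  simp only [cellExpr, cancelExpr, ← hX]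
  linear_combination key

/-- A lower bound of nonnegative mean of the cancelled cell gives a field. -/
theorem flatField_of_cancel (hp : 1 ≤ p) {gam nu ell top : ℝ} {F Fs Ft Q Qs Qt : ℝ → ℝ → ℝ}
    {ψ : ℝ → ℝ} (hF : AxTest F Fs Ft)
    (hN : Lift.NullField p fun s t _ r _ =>
      arc s ^ (p + 1) * (Qs s t - ((p : ℝ) + 1) * s / (1 - s ^ 2) * Q s t) * r +
        arc s ^ (p + 1) * Qt s t)
    (hψ : ContinuousOn (fun s => arc s ^ (p + 1) * ψ s) (Icc 0 1))
    (hmean : 0 ≤ ∫ s in (0 : ℝ)..1, arc s ^ (p + 1) * ψ s)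
    (hpos : ∀ s t a r q : ℝ, FlatState p top s t a r q →
      ψ s ≤ cancelExpr p gam nu ell F Fs Ft Q Qs Qt s t a r) :
    FlatField p gam nu (Ident.muMin p) ell top := by
  obtain ⟨ω, D, hω, hwt, hD, hD0⟩ :=
    flatField_of_cell_parts (gam := gam) (nu := nu) (ell := ell) (top := top) hp hF hN
  refine flatField_of_mean hF hω hwt (hD.add (nullField_primitives p (continuous_cancelPrim p ell)
    (continuous_cancelPrim p ell) rfl)) hψ hmean fun s t a r q h => ?_
  have h1 := hD0 s t a r q h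
  have h2 := cellExpr_add_cancel gam nu ell F Fs Ft Q Qs Qt h.state
  have h3 := mul_le_mul_of_nonneg_left (hpos s t a r q h) (pow_nonneg h.state.pos.le (p + 1))
  linarith

/-- The pole potential `-e (1 - s ^ 2) / s` has a constant null coefficient. -/
theorem polePot_null (p : ℕ) (e : ℝ) {s : ℝ} (hs : s ∈ Ioo (0 : ℝ) 1) :
    HasDerivAt (fun s => -e * (1 - s ^ 2) / s) (e * (1 + 1 / s ^ 2)) s ∧
      e * (1 + 1 / s ^ 2) - potRate p s * (-e * (1 - s ^ 2) / s) =
        e * ((p : ℝ) + 2 + 1 / s ^ 2) := by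
  have h0 := hs.1.ne'
  constructor
  · refine ((((hasDerivAt_pow 2 s).const_sub 1).const_mul (-e)).div (hasDerivAt_id s)
      h0).congr_deriv ?_
    simp only [id]
    field_simp
    push_cast
    ring
  · have h1 : 1 - s ^ 2 ≠ 0 := by nlinarith [hs.1, hs.2]
    rw [potRate]
    field_simp
    ring

/-- The linear coefficient in `d`. -/
noncomputable def cancelD (p : ℕ) (nu : ℝ) (k k' : ℝ → ℝ) (s : ℝ) : ℝ :=
  k' s - potRate p s * k s - 2 * (sqCoef p + ((p : ℝ) + 4) * (nu - nuS p)) * s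

/-- The linear coefficient in `u = v - 1`. -/
noncomputable def cancelU (p : ℕ) (gam : ℝ) (k : ℝ → ℝ) (s : ℝ) : ℝ :=
  gam * Ident.b0 p / ((p : ℝ) + 1) / arc s + k s

/-- The coefficient of `u ^ 2 / v`. -/
noncomputable def cancelUU (p : ℕ) (gam nu g s v : ℝ) : ℝ :=
  2 * nu * (1 + g) * (1 - s ^ 2) -
    gam * Ident.b0 p / ((p : ℝ) + 1) / arc s * ((2 * v + 1) / (2 * (v + 2)))

/-- The coefficient of `u d`. -/
noncomputable def cancelUD (nu g : ℝ) (β : ℝ → ℝ) (s v : ℝ) : ℝ :=
  2 * β s - 2 * nu * s * (g ^ 2 - 1) / v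

/-- The coefficient of `d ^ 2`. -/
noncomputable def cancelDD (p : ℕ) (nu g : ℝ) (β β' : ℝ → ℝ) (s v : ℝ) : ℝ :=
  β' s - potRate p s * β s + nu * (2 * g * (1 + g) / v - ((p : ℝ) + 4) * g ^ 2)

/-- The excess of the shadow, in `v = 1 / r`. -/
theorem shadow_ge_pade {ell s t a r q gam : ℝ} (h : FlatState p ell s t a r q) (hgam : 0 ≤ gam) :
    gam * Ident.b0 p / ((p : ℝ) + 1) / arc s *
        ((1 / r - 1) - (2 * (1 / r) + 1) / (2 * (1 / r + 2)) * ((1 / r - 1) ^ 2 / (1 / r))) ≤
      gam * Ident.b0 p * (1 / a - 1 / arc s) := by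
  have hr := h.state.rate_pos
  have hc := h.state.arc_pos'
  have hb := Ident.b0_pos p
  have hv : 0 < 1 / r := by positivity
  have hl := pade_le_log hv
  have e : (1 / r - 1) - (2 * (1 / r) + 1) / (2 * (1 / r + 2)) * ((1 / r - 1) ^ 2 / (1 / r)) =
      (1 / r - 1) * (1 + 5 * (1 / r)) / (1 / r * (4 + 2 * (1 / r))) := by
    obtain ⟨v, hv', he⟩ : ∃ v, 0 < v ∧ 1 / r = v := ⟨_, hv, rfl⟩
    rw [he]
    have h2 : v + 2 ≠ 0 := by positivity
    field_simp
    ring
  rw [e]
  rw [one_div r, Real.log_inv, ← one_div] at hl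
  refine le_trans (mul_le_mul_of_nonneg_left hl (by positivity)) ?_
  refine le_trans (le_of_eq ?_) (mul_le_mul_of_nonneg_left h.inv_excess (mul_nonneg hgam hb.le))
  field_simp

/-- The cancelled cell is at least a quadratic in `d = t - s` with coefficients in `v = 1 / r`. -/
theorem cancelExpr_quad_ge {gam nu ell g : ℝ} (hgam : 0 ≤ gam) (k k' β β' : ℝ → ℝ)
    {top s t a r q : ℝ} (h : FlatState p top s t a r q) :
    ell * wS p (arc s) + cancelU p gam k s * (1 / r - 1) + cancelD p nu k k' s * (t - s) +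
        cancelUU p gam nu g s (1 / r) * ((1 / r - 1) ^ 2 / (1 / r)) +
        cancelDD p nu g β β' s (1 / r) * (t - s) ^ 2 +
        cancelUD nu g β s (1 / r) * ((1 / r - 1) * (t - s)) ≤
      cancelExpr p gam nu ell (fun s t => s + g * (s - t)) (fun _ _ => 1 + g) (fun _ _ => -g)
        (quadPot k β) (quadPotS k k' β β') (quadPotT k β) s t a r := by
  have hr := h.state.rate_pos.ne'
  have hsh := shadow_ge_pade h hgam
  have e : nu * testDef p g s t r + nullPart p (quadPot k β) (quadPotS k k' β β') (quadPotT k β) s t r =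
      k s * (1 / r - 1) + (k' s - potRate p s * k s) * (t - s) +
        2 * nu * (1 + g) * (1 - s ^ 2) * ((1 / r - 1) ^ 2 / (1 / r)) +
        cancelDD p nu g β β' s (1 / r) * (t - s) ^ 2 +
        cancelUD nu g β s (1 / r) * ((1 / r - 1) * (t - s)) := by
    simp only [testDef, nullPart, quadPot, quadPotS, quadPotT, cancelDD, cancelUD, potRate]
    field_simp
    ring
  simp only [cancelExpr, testGen_affine g s t hr]
  simp only [cancelU, cancelD, cancelUU]
  linarith

/-- A cell with an affine test and a quadratic potential, from the cancelled quadratic. -/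
theorem corCell_of_cancel (hp : 1 ≤ p) {lo hi gam nu g : ℝ} (hgam : 0 < gam) (hnu : 0 ≤ nu)
    {k k' β β' B : ℝ → ℝ} {ψ : ℝ → ℝ → ℝ}
    (hk : ∀ s ∈ Ioo (0 : ℝ) 1, HasDerivAt k (k' s) s)
    (hβ : ∀ s ∈ Ioo (0 : ℝ) 1, HasDerivAt β (β' s) s)
    (hkc : ContinuousOn (fun s => arc s ^ (p + 1) * k s) (Icc 0 1))
    (hBc : ContinuousOn B (Icc 0 1))
    (hB : ∀ s ∈ Ioo (0 : ℝ) 1, arc s ^ (p + 1) * β s * s = B s)
    (hψ : ∀ ell ∈ Icc lo hi, ContinuousOn (fun s => arc s ^ (p + 1) * ψ ell s) (Icc 0 1))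
    (hmean : ∀ ell ∈ Icc lo hi, 0 ≤ ∫ s in (0 : ℝ)..1, arc s ^ (p + 1) * ψ ell s)
    (hpos : ∀ ell ∈ Icc lo hi, ∀ s t a r q : ℝ, FlatState p ell s t a r q → ψ ell s ≤
      ell * wS p (arc s) + cancelU p gam k s * (1 / r - 1) + cancelD p nu k k' s * (t - s) +
        cancelUU p gam nu g s (1 / r) * ((1 / r - 1) ^ 2 / (1 / r)) +
        cancelDD p nu g β β' s (1 / r) * (t - s) ^ 2 +
        cancelUD nu g β s (1 / r) * ((1 / r - 1) * (t - s))) :
    CorCell p lo hi := fun ell hl =>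
  ⟨gam, nu, _, ell, hgam, hnu, Lift.muMin_pos hp, le_rfl,
    corBound_of_flat hnu le_rfl (flatField_of_cancel hp (axTest_affine g)
      (nullField_quadPot hk hβ hkc hBc hB) (hψ ell hl) (hmean ell hl) fun s t a r q h =>
        (hpos ell hl s t a r q h).trans (cancelExpr_quad_ge hgam.le k k' β β' h))⟩

end Vale.Agent.P237.Petty.Cor
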