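import Vale.Agent.P237.Petty.Cor.Mean

/-!
# P237: cells with fixed multipliers and a general test

Between the stationary multipliers and those of the large regime the integrand is the stationary
exact form with the deficit of the test `F (s, t)`, the excess `gam - (p + 1)` times the shadow
and `2 (p + 4) (nu - nuS p) s (s - t)`, up to null fields. Cells that cover a half line give the
bounds in every order.
-/

namespace Vale.Agent.P237.Petty.Cor

open MeasureTheory Set intervalIntegral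
open Ident (half rate)

variable {p : ℕ}

/-- The test with a tapering coefficient `c₀ + c₁ s`. -/
theorem axTest_taper (c₀ c₁ : ℝ) :
    AxTest (fun s t => s + (c₀ + c₁ * s) * (s - t))
      (fun s t => 1 + c₁ * (s - t) + (c₀ + c₁ * s)) fun s _ => -(c₀ + c₁ * s) where
  deriv s t := by
    refine (hasFDerivAt_fst.add (((hasFDerivAt_fst.const_mul c₁).const_add c₀).mul
      (hasFDerivAt_fst.sub hasFDerivAt_snd))).congr_fderiv ?_
    ext <;> simp <;> ring
  cont_fst := by fun_prop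
  cont_snd := by fun_prop
  origin := by ring

/-- The deficit of a test. -/
noncomputable def testGen (p : ℕ) (F Fs Ft : ℝ → ℝ → ℝ) (s t r : ℝ) : ℝ :=
  2 * (1 - t * F s t) * (Fs s t * r + Ft s t) - 2 * (1 - s ^ 2) * Fs s t +
    2 * (1 - s ^ 2) * (1 - Ft s t) / r - 2 + 2 * s * t - ((p : ℝ) + 2) * (F s t - s) ^ 2 +
    2 * s * (F s t - s)

/-- The affine test has the deficit of the exact form. -/
theorem testGen_affine (c s t : ℝ) {r : ℝ} (hr : r ≠ 0) :
    testGen p (fun s t => s + c * (s - t)) (fun _ _ => 1 + c) (fun _ _ => -c) s t r =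
      testDef p c s t r := by
  simp only [testGen, testDef]
  field_simp
  ring

/-- The integrand of a cell per unit of mass, with `kap = muMin p`. -/
noncomputable def cellExpr (p : ℕ) (gam nu ell : ℝ) (F Fs Ft Q Qs Qt : ℝ → ℝ → ℝ)
    (s t a r : ℝ) : ℝ :=
  nu * testGen p F Fs Ft s t r + sqCoef p * (t - s) ^ 2 +
    2 * ((p : ℝ) + 4) * (nu - nuS p) * (s * (s - t)) +
    (gam - ((p : ℝ) + 1)) * Ident.b0 p * (1 / a - 1 / arc s) -
    Ident.b0 p / arc t * psiS p (excS p t a) +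
    wS p (arc t) * (phiS (excS p t a) + Real.exp (excS p t a) * (ell - excS p t a)) +
    nullPart p Q Qs Qt s t r

/-- With the stationary multipliers and an affine test the cell has the exact form. -/
theorem cellExpr_stationary (c ell s t a : ℝ) {r : ℝ} (hr : r ≠ 0) (Q Qs Qt : ℝ → ℝ → ℝ) :
    cellExpr p ((p : ℝ) + 1) (nuS p) ell (fun s t => s + c * (s - t)) (fun _ _ => 1 + c)
        (fun _ _ => -c) Q Qs Qt s t a r =
      sExpr p c ell (fun _ => 0) (fun _ => 0) s t a r + nullPart p Q Qs Qt s t r := by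
  simp only [cellExpr, sExpr, quadNull, testGen_affine c s t hr]
  ring

/-- The parts of the field of a cell: a weight and a null field with the cell as their sum. -/
theorem flatField_of_cell_parts (hp : 1 ≤ p) {gam nu ell top : ℝ} {F Fs Ft Q Qs Qt : ℝ → ℝ → ℝ}
    (hF : AxTest F Fs Ft)
    (hN : Lift.NullField p fun s t _ r _ =>
      arc s ^ (p + 1) * (Qs s t - ((p : ℝ) + 1) * s / (1 - s ^ 2) * Q s t) * r +
        arc s ^ (p + 1) * Qt s t) :
    ∃ (ω : ℝ → ℝ) (D : ℝ → ℝ → ℝ → ℝ → ℝ → ℝ), Continuous ω ∧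
      (∫ s in (0 : ℝ)..1, arc s ^ (p + 1) * ω s) = half (p + 1) ∧ Lift.NullField p D ∧
      ∀ s t a r q : ℝ, FlatState p top s t a r q →
        a ^ (p + 1) * cellExpr p gam nu ell F Fs Ft Q Qs Qt s t a r ≤
          flatPart p gam nu (Ident.muMin p) ell F Fs Ft ω s t a r + D s t a r q := by
  set k := nu - nuS p with hk
  have hP := (((Pot.height.sub ⟨fun s _ t _ => hF.deriv s t, hF.continuous.continuousOn⟩).smul
    (2 * nu)).sub ((Pot.height.sub Pot.abscissa).smul (2 * nuS p))).sub (Pot.abscissa.smul k)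
  have hP0 := (nullField_pot (p := p) hP.arcSq (by simp [hF.origin])).add hN
  refine ⟨fun _ => 1, _, continuous_const, by simp only [mul_one]; rfl,
    ((nullField_linNull hp 0 ell (β := fun _ => 0) (β' := fun _ => 0)
      (fun s _ => hasDerivAt_const s 0) (by simp only [mul_zero]; exact continuousOn_const)).add
      hP0), fun s t a r q h => ?_⟩
  have hr := h.state.rate_pos.ne'
  have h1 := flatPart_add_null (gam := gam) (nu := nu) (kap := Ident.muMin p) (ell := ell) (F := F)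
    (Fs := Fs) (Ft := Ft) (ω := fun _ => 1)
    (Q := fun s t => (1 - s ^ 2) *
      (2 * nu * (t - F s t) - 2 * nuS p * (t - s) - k * s) + Q s t)
    (Qs := fun s t => -2 * s * (2 * nu * (t - F s t) - 2 * nuS p * (t - s) - k * s) +
      (1 - s ^ 2) * (2 * nu * (0 - Fs s t) - 2 * nuS p * (0 - 1) - k * 1) + Qs s t)
    (Qt := fun s t => (1 - s ^ 2) *
      (2 * nu * (1 - Ft s t) - 2 * nuS p * (1 - 0) - k * 0) + Qt s t) h.state
  have h2 := flatPart_add_null (gam := (p : ℝ) + 1) (nu := nuS p) (kap := Ident.muMin p)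
    (ell := ell) (F := fun s t => s + 0 * (s - t)) (Fs := fun _ _ => 1 + 0) (Ft := fun _ _ => -0)
    (ω := fun _ => 1) (Q := fun _ _ => 0) (Qs := fun _ _ => 0) (Qt := fun _ _ => 0) h.state
  have h3 := flatPart_add_linNull hp 0 ell (fun _ => 0) (fun _ => 0) h.state
  simp only [mul_zero, add_zero, sub_zero, zero_mul] at h2
  have e : cellExpr p gam nu ell F Fs Ft Q Qs Qt s t a r =
      perMass p gam nu (Ident.muMin p) ell F Fs Ft (fun _ => 1)
        (fun s t => (1 - s ^ 2) * (2 * nu * (t - F s t) - 2 * nuS p * (t - s) - k * s) + Q s t)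
        (fun s t => -2 * s * (2 * nu * (t - F s t) - 2 * nuS p * (t - s) - k * s) +
          (1 - s ^ 2) * (2 * nu * (0 - Fs s t) - 2 * nuS p * (0 - 1) - k * 1) + Qs s t)
        (fun s t => (1 - s ^ 2) *
          (2 * nu * (1 - Ft s t) - 2 * nuS p * (1 - 0) - k * 0) + Qt s t) s t a r -
      perMass p ((p : ℝ) + 1) (nuS p) (Ident.muMin p) ell (fun s t => s + 0 * (s - t))
        (fun _ _ => 1 + 0) (fun _ _ => -0) (fun _ => 1) (fun _ _ => 0) (fun _ _ => 0)
        (fun _ _ => 0) s t a r +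
      sExpr p 0 ell (fun _ => 0) (fun _ => 0) s t a r := by
    have hne : 1 - s ^ 2 ≠ 0 := by nlinarith [h.state.s_mem.1, h.state.s_mem.2]
    simp only [cellExpr, sExpr, perMass, nullPart, testGen, testDef, fisherTest, quadNull, hk]
    field_simp
    ring
  have h4 := le_refl (a ^ (p + 1) * cellExpr p gam nu ell F Fs Ft Q Qs Qt s t a r)
  conv_rhs at h4 => rw [e]
  rw [mul_add, mul_sub, ← h1, ← h3] at h4
  simp only [mul_zero, add_zero, sub_zero, zero_mul] at h4 ⊢
  rw [← h2] at h4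
  linarith

/-- A lower bound of nonnegative mean of the cell gives a field, for any potential that gives a
null field. -/
theorem flatField_of_cell_null (hp : 1 ≤ p) {gam nu ell top : ℝ} {F Fs Ft Q Qs Qt : ℝ → ℝ → ℝ}
    {ψ : ℝ → ℝ} (hF : AxTest F Fs Ft)
    (hN : Lift.NullField p fun s t _ r _ =>
      arc s ^ (p + 1) * (Qs s t - ((p : ℝ) + 1) * s / (1 - s ^ 2) * Q s t) * r +
        arc s ^ (p + 1) * Qt s t)
    (hψ : ContinuousOn (fun s => arc s ^ (p + 1) * ψ s) (Icc 0 1))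
    (hmean : 0 ≤ ∫ s in (0 : ℝ)..1, arc s ^ (p + 1) * ψ s)
    (hpos : ∀ s t a r q : ℝ, FlatState p top s t a r q →
      ψ s ≤ cellExpr p gam nu ell F Fs Ft Q Qs Qt s t a r) :
    FlatField p gam nu (Ident.muMin p) ell top := by
  obtain ⟨ω, D, hω, hwt, hD, hD0⟩ :=
    flatField_of_cell_parts (gam := gam) (nu := nu) (ell := ell) (top := top) hp hF hN
  exact flatField_of_mean hF hω hwt hD hψ hmean fun s t a r q h => (mul_le_mul_of_nonneg_left
    (hpos s t a r q h) (pow_nonneg h.state.pos.le (p + 1))).trans (hD0 s t a r q h)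

/-- A lower bound of nonnegative mean of the cell gives a field. -/
theorem flatField_of_cell (hp : 1 ≤ p) {gam nu ell top : ℝ} {F Fs Ft Q Qs Qt : ℝ → ℝ → ℝ}
    {ψ : ℝ → ℝ} (hF : AxTest F Fs Ft) (hQ : Pot Q Qs Qt) (hQ0 : 0 ≤ Q 0 0)
    (hψ : ContinuousOn (fun s => arc s ^ (p + 1) * ψ s) (Icc 0 1))
    (hmean : 0 ≤ ∫ s in (0 : ℝ)..1, arc s ^ (p + 1) * ψ s)
    (hpos : ∀ s t a r q : ℝ, FlatState p top s t a r q →
      ψ s ≤ cellExpr p gam nu ell F Fs Ft Q Qs Qt s t a r) :
    FlatField p gam nu (Ident.muMin p) ell top :=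
  flatField_of_cell_null hp hF (nullField_pot hQ hQ0) hψ hmean hpos

/-- Bounds for every value in an interval. -/
def CorCell (p : ℕ) (lo hi : ℝ) : Prop :=
  ∀ ell ∈ Icc lo hi, ∃ gam nu kap ell₀ : ℝ, 0 < gam ∧ 0 ≤ nu ∧ 0 < kap ∧ ell₀ ≤ ell ∧
    CorBound p gam nu kap ell₀ (obsCut p ell)

theorem corCell_of_small {ell₁ : ℝ} (h : SmallBounds p ell₁) : CorCell p 0 ell₁ := h

theorem CorCell.append {lo mid hi : ℝ} (h₁ : CorCell p lo mid) (h₂ : CorCell p mid hi) :
    CorCell p lo hi := fun ell hl => by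
  rcases le_total ell mid with h | h
  · exact h₁ ell ⟨hl.1, h⟩
  · exact h₂ ell ⟨h, hl.2⟩

theorem corBounds_of_cell {ell₁ : ℝ} (h : CorCell p 0 ell₁) (hR : PointwiseR p ell₁) :
    CorBounds p :=
  corBounds_of_regimes hR h

/-- One inequality on a cell gives its bounds: multipliers and test fixed, the potential and the
lower bound free in the value. -/
theorem corCell_of_cellExpr (hp : 1 ≤ p) {lo hi gam nu : ℝ} (hgam : 0 < gam) (hnu : 0 ≤ nu)
    {F Fs Ft : ℝ → ℝ → ℝ} (hF : AxTest F Fs Ft) {Q Qs Qt : ℝ → ℝ → ℝ → ℝ} {ψ : ℝ → ℝ → ℝ}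
    (hQ : ∀ ell ∈ Icc lo hi, Pot (Q ell) (Qs ell) (Qt ell)) (hQ0 : ∀ ell ∈ Icc lo hi, 0 ≤ Q ell 0 0)
    (hψ : ∀ ell ∈ Icc lo hi, ContinuousOn (fun s => arc s ^ (p + 1) * ψ ell s) (Icc 0 1))
    (hmean : ∀ ell ∈ Icc lo hi, 0 ≤ ∫ s in (0 : ℝ)..1, arc s ^ (p + 1) * ψ ell s)
    (hpos : ∀ ell ∈ Icc lo hi, ∀ s t a r q : ℝ, FlatState p ell s t a r q →
      ψ ell s ≤ cellExpr p gam nu ell F Fs Ft (Q ell) (Qs ell) (Qt ell) s t a r) :
    CorCell p lo hi := fun ell hl =>
  ⟨gam, nu, _, ell, hgam, hnu, Lift.muMin_pos hp, le_rfl, corBound_of_flat hnu le_rfl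
    (flatField_of_cell hp hF (hQ ell hl) (hQ0 ell hl) (hψ ell hl) (hmean ell hl) (hpos ell hl))⟩

end Vale.Agent.P237.Petty.Cor
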