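import Vale.Agent.P237.Petty.Lift.Main

/-!
# P237: two bounds of the masses from the logarithmic concavity of the section

With `h = g ^ (p + 1)`, logarithmically concave and decreasing on the half line, and any lower
bound `l` of `log (h 0)`: the mass beyond `t` times `l - log (h t)` is at most `t * h t`, and when
that difference `d` is positive `d` times the mass before `t` is at least `t * h t * (exp d - 1)`.
Between any `u` and `t` the section is above its chord in logarithms, so the mass before `t` is at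
least that of the scaled circle before `u` plus that of the chord.
-/

namespace Vale.Agent.P237.Petty.Cor

open MeasureTheory Set intervalIntegral Filter Topology
open Ident (half rate)

variable {p : ℕ} {g σ : ℝ → ℝ}

/-- The lower bound of the logarithm of the value at the centre under the cut `ell`. -/
noncomputable def topLog (p : ℕ) (ell : ℝ) : ℝ := max (-ell) (Real.log (half (p + 1)))

theorem topLog_mono (p : ℕ) {ell ell' : ℝ} (h : ell ≤ ell') : topLog p ell' ≤ topLog p ell :=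
  max_le_max (neg_le_neg h) le_rfl

theorem neg_le_topLog (p : ℕ) (ell : ℝ) : -ell ≤ topLog p ell := le_max_left _ _

theorem half_log_le_topLog (p : ℕ) (ell : ℝ) : Real.log (half (p + 1)) ≤ topLog p ell :=
  le_max_right _ _

/-- The centre is above the cut and above the mass. -/
theorem topLog_le (hg : Regular g) (hσ : Transport p g σ) {ell : ℝ}
    (hcut : ∀ u ∈ Ioo (0 : ℝ) 1, arc u ^ (p + 1) ≤ Real.exp ell * g u ^ (p + 1)) :
    topLog p ell ≤ Real.log (g 0 ^ (p + 1)) := by
  have hpos : 0 < g 0 ^ (p + 1) := pow_pos hg.pos _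
  refine max_le ?_ (Real.log_le_log (Ident.half_pos _) (Lift.half_le_top hg hσ))
  have hlim : Tendsto (fun u => arc u ^ (p + 1)) (𝓝[>] (0 : ℝ)) (𝓝 1) := by
    have h : Tendsto (fun u => arc u ^ (p + 1)) (𝓝 (0 : ℝ)) (𝓝 (arc 0 ^ (p + 1))) :=
      (continuous_arc.pow (p + 1)).tendsto 0
    rw [show arc 0 = 1 by simp [arc], one_pow] at h
    exact h.mono_left nhdsWithin_le_nhds
  have hanti := antitoneOn_of_concave_even hg.concave hg.even
  have h1 : 1 ≤ Real.exp ell * g 0 ^ (p + 1) := by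
    refine le_of_tendsto hlim ?_
    filter_upwards [Ioo_mem_nhdsGT zero_lt_one] with u hu
    exact (hcut u hu).trans (mul_le_mul_of_nonneg_left (pow_le_pow_left₀
      (hg.pos_of_lt ⟨hu.1.le, hu.2⟩).le
      (hanti (left_mem_Icc.2 zero_le_one) (Ioo_subset_Icc_self hu) hu.1.le) _)
      (Real.exp_pos ell).le)
  rw [← Real.exp_le_exp, Real.exp_log hpos, Real.exp_neg, inv_le_iff_one_le_mul₀ (Real.exp_pos _)]
  rwa [mul_comm]

/-- The tangent of the logarithm of the section. -/
theorem pow_le_exp_tangent (hg : Regular g) {t u : ℝ} (ht : t ∈ Ioo (0 : ℝ) 1)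
    (hu : u ∈ Icc (-1 : ℝ) 1) :
    g u ^ (p + 1) ≤ g t ^ (p + 1) * Real.exp (((p : ℝ) + 1) * (slopeR g t / g t) * (u - t)) := by
  have hgt : 0 < g t := hg.pos_of_lt ⟨ht.1.le, ht.2⟩
  have h1 := le_tangent hg.concave (⟨by linarith [ht.1], ht.2⟩ : t ∈ Ioo (-1 : ℝ) 1) hu
  have h2 : g u ≤ g t * Real.exp (slopeR g t / g t * (u - t)) := by
    refine h1.trans (le_trans (le_of_eq ?_)
      (mul_le_mul_of_nonneg_left (Real.add_one_le_exp _) hgt.le))
    field_simp
    ring
  refine (pow_le_pow_left₀ (hg.nonneg u hu) h2 _).trans (le_of_eq ?_)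
  rw [mul_pow, ← Real.exp_nat_mul]
  push_cast
  ring_nf

/-- The mass beyond `t`, from a lower bound at any base before it. -/
theorem tail_base (hg : Regular g) (hσ : Transport p g σ) {t u₀ l : ℝ} (ht : t ∈ Ioo (0 : ℝ) 1)
    (hu₀ : u₀ ∈ Icc (0 : ℝ) t) (hl : l ≤ Real.log (g u₀ ^ (p + 1))) :
    (l - Real.log (g t ^ (p + 1))) * Lift.circHigh p (σ t) ≤ (t - u₀) * g t ^ (p + 1) := by
  have hgt : 0 < g t := hg.pos_of_lt ⟨ht.1.le, ht.2⟩
  have hh : 0 < g t ^ (p + 1) := pow_pos hgt _
  set k := ((p : ℝ) + 1) * (slopeR g t / g t) with hk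
  have hk0 : k ≤ 0 := mul_nonpos_of_nonneg_of_nonpos (by positivity)
    (div_nonpos_of_nonpos_of_nonneg (Lift.slope_nonpos hg ht) hgt.le)
  have hd : l - Real.log (g t ^ (p + 1)) ≤ -k * (t - u₀) := by
    have hu : u₀ < 1 := hu₀.2.trans_lt ht.2
    have h := pow_le_exp_tangent (p := p) hg ht
      (show u₀ ∈ Icc (-1 : ℝ) 1 from ⟨by linarith [hu₀.1], hu.le⟩)
    rw [← hk] at h
    have h' := Real.log_le_log (pow_pos (hg.pos_of_lt ⟨hu₀.1, hu⟩) _) h
    rw [Real.log_mul hh.ne' (Real.exp_pos _).ne', Real.log_exp] at h'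
    linarith
  obtain ⟨-, h2⟩ := Lift.mass_split hg hσ (Ioo_subset_Icc_self ht)
  have hC : 0 ≤ Lift.circHigh p (σ t) := h2 ▸ intervalIntegral.integral_nonneg ht.2.le fun u hu =>
    pow_nonneg (hg.nonneg u ⟨by linarith [hu.1, ht.1], hu.2⟩) _
  refine le_trans (mul_le_mul_of_nonneg_right hd hC) ?_
  have hc : ContinuousOn (fun u => g u ^ (p + 1)) (Icc t 1) :=
    ((Lift.continuousOn_profile hg).mono (Icc_subset_Icc ht.1.le le_rfl)).pow _
  have hle : Lift.circHigh p (σ t) ≤
      g t ^ (p + 1) * ∫ u in t..(1 : ℝ), Real.exp (k * (u - t)) := by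
    rw [← h2, ← intervalIntegral.integral_const_mul]
    exact intervalIntegral.integral_mono_on ht.2.le (hc.intervalIntegrable_of_Icc ht.2.le)
      (Continuous.intervalIntegrable (by fun_prop) _ _) fun u hu =>
        pow_le_exp_tangent hg ht ⟨by linarith [hu.1, ht.1], hu.2⟩
  have hval : -k * ∫ u in t..(1 : ℝ), Real.exp (k * (u - t)) ≤ 1 := by
    rw [← intervalIntegral.integral_const_mul,
      intervalIntegral.integral_eq_sub_of_hasDerivAt (f := fun u => -Real.exp (k * (u - t)))
        (fun u _ => ((((hasDerivAt_id u).sub_const t).const_mul k).exp.neg).congr_deriv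
          (by simp only [id]; ring))
        (Continuous.intervalIntegrable (by fun_prop) _ _)]
    simp only [sub_self, mul_zero, Real.exp_zero]
    linarith [Real.exp_pos (k * (1 - t))]
  have hkt : 0 ≤ -k * (t - u₀) := mul_nonneg (neg_nonneg.2 hk0) (sub_nonneg.2 hu₀.2)
  calc -k * (t - u₀) * Lift.circHigh p (σ t)
      ≤ -k * (t - u₀) * (g t ^ (p + 1) * ∫ u in t..(1 : ℝ), Real.exp (k * (u - t))) :=
        mul_le_mul_of_nonneg_left hle hkt
    _ = (t - u₀) * g t ^ (p + 1) * (-k * ∫ u in t..(1 : ℝ), Real.exp (k * (u - t))) := by ring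
    _ ≤ (t - u₀) * g t ^ (p + 1) * 1 := mul_le_mul_of_nonneg_left hval (mul_nonneg (sub_nonneg.2 hu₀.2) hh.le)
    _ = _ := mul_one _

/-- The mass beyond `t`. -/
theorem tail_log (hg : Regular g) (hσ : Transport p g σ) {t l : ℝ} (ht : t ∈ Ioo (0 : ℝ) 1)
    (hl : l ≤ Real.log (g 0 ^ (p + 1))) :
    (l - Real.log (g t ^ (p + 1))) * Lift.circHigh p (σ t) ≤ t * g t ^ (p + 1) := by
  simpa using tail_base hg hσ ht (left_mem_Icc.2 ht.1.le) hl

/-- The scaled circle is a lower bound at every base. -/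
theorem log_circle_le (hg : Regular g) (hσ : Transport p g σ) {ell u : ℝ}
    (hu : u ∈ Ico (0 : ℝ) 1)
    (hcut : ∀ v ∈ Ioo (0 : ℝ) 1, arc v ^ (p + 1) ≤ Real.exp ell * g v ^ (p + 1)) :
    Real.log (arc u ^ (p + 1)) - ell ≤ Real.log (g u ^ (p + 1)) := by
  rcases hu.1.eq_or_lt with rfl | hu0
  · rw [show arc 0 = 1 by simp [arc], one_pow, Real.log_one, zero_sub]
    exact (neg_le_topLog p ell).trans (topLog_le hg hσ hcut)
  · have h1 := Real.log_le_log (pow_pos (arc_pos ⟨by linarith, hu.2⟩) _) (hcut u ⟨hu0, hu.2⟩)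
    rw [Real.log_mul (Real.exp_pos _).ne' (pow_pos (hg.pos_of_lt hu) _).ne', Real.log_exp] at h1
    linarith

/-- The mass before `t`. -/
theorem head_log (hg : Regular g) (hσ : Transport p g σ) {t l : ℝ} (ht : t ∈ Ioo (0 : ℝ) 1)
    (hl : l ≤ Real.log (g 0 ^ (p + 1))) (hd : 0 < l - Real.log (g t ^ (p + 1))) :
    t * g t ^ (p + 1) * (Real.exp (l - Real.log (g t ^ (p + 1))) - 1) ≤
      (l - Real.log (g t ^ (p + 1))) * Lift.circLow p (σ t) := by
  have hgt : 0 < g t := hg.pos_of_lt ⟨ht.1.le, ht.2⟩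
  have hh : 0 < g t ^ (p + 1) := pow_pos hgt _
  set d := l - Real.log (g t ^ (p + 1)) with hdd
  obtain ⟨h1, -⟩ := Lift.mass_split hg hσ (Ioo_subset_Icc_self ht)
  have hpt : ∀ u ∈ Icc (0 : ℝ) t,
      g t ^ (p + 1) * Real.exp (d * (1 - u / t)) ≤ g u ^ (p + 1) := by
    intro u hu
    have hw : 0 ≤ 1 - u / t := sub_nonneg.2 ((div_le_one ht.1).2 hu.2)
    have hw1 : 0 ≤ u / t := div_nonneg hu.1 ht.1.le
    have hc := hg.concave.2 (show (0 : ℝ) ∈ Icc (-1 : ℝ) 1 by norm_num)
      (show t ∈ Icc (-1 : ℝ) 1 from ⟨by linarith [ht.1], ht.2.le⟩) hw hw1 (by ring)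
    simp only [smul_eq_mul, mul_zero, zero_add, div_mul_cancel₀ _ ht.1.ne'] at hc
    have hgm := Real.geom_mean_le_arith_mean2_weighted hw hw1 hg.pos.le hgt.le (by ring)
    have hr : g 0 ^ (1 - u / t) * g t ^ (u / t) =
        Real.exp (Real.log (g t) + (1 - u / t) * (Real.log (g 0) - Real.log (g t))) := by
      rw [Real.rpow_def_of_pos hg.pos, Real.rpow_def_of_pos hgt, ← Real.exp_add]
      ring_nf
    rw [hr] at hgm
    refine le_trans ?_ (pow_le_pow_left₀ (Real.exp_pos _).le (hgm.trans hc) (p + 1))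
    rw [← Real.exp_nat_mul, ← Real.exp_log hh, ← Real.exp_add, Real.exp_le_exp,
      hdd, Real.log_pow]
    rw [Real.log_pow] at hl
    push_cast at hl ⊢
    nlinarith [mul_le_mul_of_nonneg_right hl hw]
  have hc : ContinuousOn (fun u => g u ^ (p + 1)) (Icc 0 t) :=
    ((Lift.continuousOn_profile hg).mono (Icc_subset_Icc le_rfl ht.2.le)).pow _
  have hint : d * ∫ u in (0 : ℝ)..t, Real.exp (d * (1 - u / t)) = t * (Real.exp d - 1) := by
    rw [← intervalIntegral.integral_const_mul,
      intervalIntegral.integral_eq_sub_of_hasDerivAt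
        (f := fun u => -(t * Real.exp (d * (1 - u / t))))
        (fun u _ => (((((hasDerivAt_id u).div_const t).const_sub 1).const_mul d).exp.const_mul
          t).neg.congr_deriv (by simp only [id]; field_simp [ht.1.ne']))
        (Continuous.intervalIntegrable (by fun_prop) _ _)]
    simp [div_self ht.1.ne']
    ring
  rw [← h1]
  calc t * g t ^ (p + 1) * (Real.exp d - 1)
      = d * ∫ u in (0 : ℝ)..t, g t ^ (p + 1) * Real.exp (d * (1 - u / t)) := by
        rw [intervalIntegral.integral_const_mul]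
        linear_combination (-(g t ^ (p + 1))) * hint
    _ ≤ _ := mul_le_mul_of_nonneg_left (intervalIntegral.integral_mono_on ht.1.le
        (Continuous.intervalIntegrable (by fun_prop) _ _)
        (hc.intervalIntegrable_of_Icc ht.1.le) hpt) hd.le

/-- The mean of `exp (θ d)` over `θ` in the unit interval. -/
noncomputable def expMean (d : ℝ) : ℝ := ∫ θ in (0 : ℝ)..1, Real.exp (θ * d)

theorem mul_expMean (d : ℝ) : d * expMean d = Real.exp d - 1 := by
  rw [expMean, ← intervalIntegral.integral_const_mul,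
    intervalIntegral.integral_eq_sub_of_hasDerivAt (f := fun θ => Real.exp (θ * d))
      (fun θ _ => (((hasDerivAt_id θ).mul_const d).exp).congr_deriv (by simp only [id]; ring))
      (Continuous.intervalIntegrable (by fun_prop) _ _)]
  simp

theorem expMean_mono {d e : ℝ} (h : d ≤ e) : expMean d ≤ expMean e :=
  intervalIntegral.integral_mono_on zero_le_one (Continuous.intervalIntegrable (by fun_prop) _ _)
    (Continuous.intervalIntegrable (by fun_prop) _ _) fun θ hθ =>
      Real.exp_le_exp.2 (mul_le_mul_of_nonneg_left h hθ.1)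

theorem exp_half_le_expMean (d : ℝ) : Real.exp (d / 2) ≤ expMean d := by
  have e : ∫ θ in (0 : ℝ)..1, Real.exp (d / 2) * (1 + d * (θ - 1 / 2)) = Real.exp (d / 2) := by
    rw [intervalIntegral.integral_eq_sub_of_hasDerivAt
      (f := fun θ => Real.exp (d / 2) * (θ + d * (θ ^ 2 / 2 - θ / 2)))
      (fun θ _ => (((hasDerivAt_id θ).add ((((hasDerivAt_pow 2 θ).div_const 2).sub
        ((hasDerivAt_id θ).div_const 2)).const_mul d)).const_mul _).congr_deriv
          (by push_cast; ring))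
      (Continuous.intervalIntegrable (by fun_prop) _ _)]
    ring_nf
  rw [← e]
  refine intervalIntegral.integral_mono_on zero_le_one
    (Continuous.intervalIntegrable (by fun_prop) _ _)
    (Continuous.intervalIntegrable (by fun_prop) _ _) fun θ _ => ?_
  refine (mul_le_mul_of_nonneg_left (Real.add_one_le_exp (d * (θ - 1 / 2)) |>.trans' (le_of_eq
    (add_comm _ _))) (Real.exp_pos _).le).trans (le_of_eq ?_)
  rw [← Real.exp_add]
  ring_nf

/-- The chord in logarithms from the scaled circle at `u` to the profile at `t`. -/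
theorem chord_log (hg : Regular g) (hσ : Transport p g σ) {ell t u : ℝ} (ht : t ∈ Ioo (0 : ℝ) 1)
    (hu : u ∈ Ico (0 : ℝ) t)
    (hcut : ∀ v ∈ Ioo (0 : ℝ) 1, arc v ^ (p + 1) ≤ Real.exp ell * g v ^ (p + 1)) :
    (t - u) * g t ^ (p + 1) *
        expMean (Real.log (arc u ^ (p + 1)) - ell - Real.log (g t ^ (p + 1))) ≤
      Lift.circLow p (σ t) - Real.exp (-ell) * Lift.circLow p u := by
  have hu1 : u < 1 := hu.2.trans ht.2
  have hgt : 0 < g t := hg.pos_of_lt ⟨ht.1.le, ht.2⟩
  have hgu : 0 < g u := hg.pos_of_lt ⟨hu.1, hu1⟩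
  have hh : 0 < g t ^ (p + 1) := pow_pos hgt _
  have htu : 0 < t - u := sub_pos.2 hu.2
  set d := Real.log (arc u ^ (p + 1)) - ell - Real.log (g t ^ (p + 1)) with hd
  have hdD : d ≤ Real.log (g u ^ (p + 1)) - Real.log (g t ^ (p + 1)) := by
    have h := log_circle_le hg hσ ⟨hu.1, hu1⟩ hcut
    linarith
  have hcont : ContinuousOn (fun v => g v ^ (p + 1)) (Icc 0 t) :=
    ((Lift.continuousOn_profile hg).mono (Icc_subset_Icc le_rfl ht.2.le)).pow _
  have hG : ∀ a b : ℝ, IntervalIntegrable (fun v => Real.exp ((t - v) / (t - u) * d)) volume a b :=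
    fun a b => Continuous.intervalIntegrable (by fun_prop) _ _
  have hpt : ∀ v ∈ Icc u t,
      g t ^ (p + 1) * Real.exp ((t - v) / (t - u) * d) ≤ g v ^ (p + 1) := by
    intro v hv
    have hw : 0 ≤ (t - v) / (t - u) := div_nonneg (sub_nonneg.2 hv.2) htu.le
    have hw1 : 0 ≤ (v - u) / (t - u) := div_nonneg (sub_nonneg.2 hv.1) htu.le
    have hsum : (t - v) / (t - u) + (v - u) / (t - u) = 1 := by
      field_simp
      ring
    have hc := hg.concave.2 (show u ∈ Icc (-1 : ℝ) 1 from ⟨by linarith [hu.1], hu1.le⟩)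
      (show t ∈ Icc (-1 : ℝ) 1 from ⟨by linarith [ht.1], ht.2.le⟩) hw hw1 hsum
    simp only [smul_eq_mul] at hc
    rw [show (t - v) / (t - u) * u + (v - u) / (t - u) * t = v by field_simp; ring] at hc
    have hgm := Real.geom_mean_le_arith_mean2_weighted hw hw1 hgu.le hgt.le hsum
    have hr : g u ^ ((t - v) / (t - u)) * g t ^ ((v - u) / (t - u)) =
        Real.exp (Real.log (g t) + (t - v) / (t - u) * (Real.log (g u) - Real.log (g t))) := by
      rw [Real.rpow_def_of_pos hgu, Real.rpow_def_of_pos hgt, ← Real.exp_add,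
        show (v - u) / (t - u) = 1 - (t - v) / (t - u) by linarith]
      ring_nf
    rw [hr] at hgm
    refine le_trans ?_ (pow_le_pow_left₀ (Real.exp_pos _).le (hgm.trans hc) (p + 1))
    rw [← Real.exp_nat_mul, ← Real.exp_log hh, ← Real.exp_add, Real.exp_le_exp, Real.log_pow]
    rw [Real.log_pow, Real.log_pow] at hdD
    push_cast at hdD ⊢
    nlinarith [mul_le_mul_of_nonneg_left hdD hw]
  have hval : ∫ v in u..t, Real.exp ((t - v) / (t - u) * d) = (t - u) * expMean d := by
    have h := intervalIntegral.integral_comp_sub_mul (a := (0 : ℝ)) (b := 1)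
      (fun v => Real.exp ((t - v) / (t - u) * d)) htu.ne' t
    rw [mul_one, mul_zero, sub_sub_cancel, sub_zero, smul_eq_mul] at h
    have e : (fun x => Real.exp ((t - (t - (t - u) * x)) / (t - u) * d)) =
        fun x => Real.exp (x * d) := by
      funext x
      rw [sub_sub_cancel, mul_div_cancel_left₀ _ htu.ne']
    rw [e] at h
    rw [expMean, h, mul_inv_cancel_left₀ htu.ne']
  have h1 : ∫ v in u..t, g t ^ (p + 1) * Real.exp ((t - v) / (t - u) * d) ≤
      ∫ v in u..t, g v ^ (p + 1) :=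
    intervalIntegral.integral_mono_on hu.2.le ((hG _ _).const_mul _)
      ((hcont.mono (Icc_subset_Icc hu.1 le_rfl)).intervalIntegrable_of_Icc hu.2.le) hpt
  rw [intervalIntegral.integral_const_mul, hval] at h1
  have h2 : Real.exp (-ell) * Lift.circLow p u ≤ ∫ v in (0 : ℝ)..u, g v ^ (p + 1) := by
    rw [Lift.circLow, ← intervalIntegral.integral_const_mul]
    refine intervalIntegral.integral_mono_on_of_le_Ioo hu.1
      (((continuous_arc.pow _).intervalIntegrable _ _).const_mul _)
      ((hcont.mono (Icc_subset_Icc le_rfl hu.2.le)).intervalIntegrable_of_Icc hu.1) fun v hv => ?_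
    have h := mul_le_mul_of_nonneg_left (hcut v ⟨hv.1, hv.2.trans hu1⟩) (Real.exp_pos (-ell)).le
    rwa [← mul_assoc, ← Real.exp_add, neg_add_cancel, Real.exp_zero, one_mul] at h
  have h3 := intervalIntegral.integral_add_adjacent_intervals
    ((hcont.mono (Icc_subset_Icc le_rfl hu.2.le)).intervalIntegrable_of_Icc (μ := volume) hu.1)
    ((hcont.mono (Icc_subset_Icc hu.1 le_rfl)).intervalIntegrable_of_Icc (μ := volume) hu.2.le)
  rw [(Lift.mass_split hg hσ (Ioo_subset_Icc_self ht)).1] at h3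
  linarith

/-- The mean of the powers along the segment from `x` to `y`. -/
noncomputable def linMean (p : ℕ) (x y : ℝ) : ℝ :=
  ∫ θ in (0 : ℝ)..1, ((1 - θ) * x + θ * y) ^ (p + 1)

theorem mul_linMean (p : ℕ) (x y : ℝ) :
    ((p : ℝ) + 2) * (y - x) * linMean p x y = y ^ (p + 2) - x ^ (p + 2) := by
  rw [linMean, ← intervalIntegral.integral_const_mul,
    intervalIntegral.integral_eq_sub_of_hasDerivAt
      (f := fun θ => ((1 - θ) * x + θ * y) ^ (p + 2))
      (fun θ _ => ((((hasDerivAt_id θ).const_sub 1).mul_const x).add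
        ((hasDerivAt_id θ).mul_const y) |>.pow (p + 2)).congr_deriv
          (by simp only [id, Pi.add_apply]; push_cast; ring))
      (Continuous.intervalIntegrable (by fun_prop) _ _)]
  ring

/-- The scaled circle below the profile, before taking powers. -/
theorem circle_le_profile (hg : Regular g) (hσ : Transport p g σ) {ell u : ℝ}
    (hu : u ∈ Icc (0 : ℝ) 1)
    (hcut : ∀ v ∈ Ioo (0 : ℝ) 1, arc v ^ (p + 1) ≤ Real.exp ell * g v ^ (p + 1)) :
    Real.exp (-ell / ((p : ℝ) + 1)) * arc u ≤ g u := by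
  rcases hu.2.eq_or_lt with rfl | hu1
  · rw [show arc 1 = 0 by simp [arc], mul_zero]
    exact hg.nonneg 1 (by norm_num)
  have hgu : 0 < g u := hg.pos_of_lt ⟨hu.1, hu1⟩
  have hcu : 0 < arc u := arc_pos ⟨by linarith [hu.1], hu1⟩
  have h := log_circle_le hg hσ ⟨hu.1, hu1⟩ hcut
  rw [Real.log_pow, Real.log_pow] at h
  push_cast at h
  rw [← Real.log_le_log_iff (by positivity) hgu, Real.log_mul (Real.exp_pos _).ne' hcu.ne',
    Real.log_exp]
  refine le_of_mul_le_mul_left ?_ (show (0 : ℝ) < (p : ℝ) + 1 by positivity)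
  rw [mul_add, mul_div_cancel₀ _ (show ((p : ℝ) + 1) ≠ 0 by positivity)]
  linarith

/-- A segment below the profile bounds the mass between its ends. -/
theorem segment_le_mass (hg : Regular g) {x y lx ly : ℝ} (hx : 0 ≤ x) (hxy : x < y) (hy : y ≤ 1)
    (hlx : 0 ≤ lx) (hly : 0 ≤ ly) (hgx : lx ≤ g x) (hgy : ly ≤ g y) :
    (y - x) * linMean p lx ly ≤ ∫ v in x..y, g v ^ (p + 1) := by
  have hd : 0 < y - x := sub_pos.2 hxy
  have hL : ∫ v in x..y, ((1 - (v - x) / (y - x)) * lx + (v - x) / (y - x) * ly) ^ (p + 1) =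
      (y - x) * linMean p lx ly := by
    have h := intervalIntegral.integral_comp_mul_add (a := (0 : ℝ)) (b := 1)
      (fun v => ((1 - (v - x) / (y - x)) * lx + (v - x) / (y - x) * ly) ^ (p + 1)) hd.ne' x
    rw [mul_zero, zero_add, mul_one, sub_add_cancel, smul_eq_mul] at h
    simp only [add_sub_cancel_right, mul_div_cancel_left₀ _ hd.ne'] at h
    rw [linMean, h, mul_inv_cancel_left₀ hd.ne']
  rw [← hL]
  refine intervalIntegral.integral_mono_on hxy.le (Continuous.intervalIntegrable (by fun_prop) _ _)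
    ((((Lift.continuousOn_profile hg).mono (Icc_subset_Icc hx hy)).pow _).intervalIntegrable_of_Icc
      hxy.le) fun v hv => ?_
  have hw1 : 0 ≤ (v - x) / (y - x) := div_nonneg (sub_nonneg.2 hv.1) hd.le
  have hw : 0 ≤ 1 - (v - x) / (y - x) := sub_nonneg.2 ((div_le_one hd).2 (by linarith [hv.2]))
  refine pow_le_pow_left₀ (by positivity) ?_ _
  have hc := hg.concave.2 (show x ∈ Icc (-1 : ℝ) 1 from ⟨by linarith, by linarith⟩)
    (show y ∈ Icc (-1 : ℝ) 1 from ⟨by linarith, hy⟩) hw hw1 (by ring)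
  simp only [smul_eq_mul] at hc
  rw [show (1 - (v - x) / (y - x)) * x + (v - x) / (y - x) * y = v by field_simp; ring] at hc
  exact (add_le_add (mul_le_mul_of_nonneg_left hgx hw) (mul_le_mul_of_nonneg_left hgy hw1)).trans hc

/-- The hull of the profile at `t` and the scaled circle, beyond `t`. -/
theorem hull_high (hg : Regular g) (hσ : Transport p g σ) {ell t u : ℝ} (ht : t ∈ Ioo (0 : ℝ) 1)
    (hu : u ∈ Ioc t 1)
    (hcut : ∀ v ∈ Ioo (0 : ℝ) 1, arc v ^ (p + 1) ≤ Real.exp ell * g v ^ (p + 1)) :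
    (u - t) * linMean p (g t) (Real.exp (-ell / ((p : ℝ) + 1)) * arc u) +
        Real.exp (-ell) * Lift.circHigh p u ≤ Lift.circHigh p (σ t) := by
  have h1 := segment_le_mass (p := p) hg ht.1.le hu.1 hu.2 (hg.pos_of_lt ⟨ht.1.le, ht.2⟩).le
    (mul_nonneg (Real.exp_pos _).le (Real.sqrt_nonneg _)) le_rfl
    (circle_le_profile hg hσ ⟨ht.1.le.trans hu.1.le, hu.2⟩ hcut)
  have hc : ContinuousOn (fun v => g v ^ (p + 1)) (Icc t 1) :=
    ((Lift.continuousOn_profile hg).mono (Icc_subset_Icc ht.1.le le_rfl)).pow _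
  have h2 : Real.exp (-ell) * Lift.circHigh p u ≤ ∫ v in u..(1 : ℝ), g v ^ (p + 1) := by
    rw [Lift.circHigh, ← intervalIntegral.integral_const_mul]
    refine intervalIntegral.integral_mono_on_of_le_Ioo hu.2
      (((continuous_arc.pow _).intervalIntegrable _ _).const_mul _)
      ((hc.mono (Icc_subset_Icc hu.1.le le_rfl)).intervalIntegrable_of_Icc hu.2) fun v hv => ?_
    have h := mul_le_mul_of_nonneg_left (hcut v ⟨(ht.1.trans hu.1).trans hv.1, hv.2⟩)
      (Real.exp_pos (-ell)).le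
    rwa [← mul_assoc, ← Real.exp_add, neg_add_cancel, Real.exp_zero, one_mul] at h
  have h3 := intervalIntegral.integral_add_adjacent_intervals
    ((hc.mono (Icc_subset_Icc le_rfl hu.2)).intervalIntegrable_of_Icc (μ := volume) hu.1.le)
    ((hc.mono (Icc_subset_Icc hu.1.le le_rfl)).intervalIntegrable_of_Icc (μ := volume) hu.2)
  rw [(Lift.mass_split hg hσ (Ioo_subset_Icc_self ht)).2] at h3
  rw [show √(1 - u ^ 2) = arc u from rfl] at h1
  linarith

/-- The hull of the profile at `t` and the scaled circle, before `t`. -/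
theorem hull_low (hg : Regular g) (hσ : Transport p g σ) {ell t u : ℝ} (ht : t ∈ Ioo (0 : ℝ) 1)
    (hu : u ∈ Ico (0 : ℝ) t)
    (hcut : ∀ v ∈ Ioo (0 : ℝ) 1, arc v ^ (p + 1) ≤ Real.exp ell * g v ^ (p + 1)) :
    (t - u) * linMean p (Real.exp (-ell / ((p : ℝ) + 1)) * arc u) (g t) +
        Real.exp (-ell) * Lift.circLow p u ≤ Lift.circLow p (σ t) := by
  have hu1 : u < 1 := hu.2.trans ht.2
  have h1 := segment_le_mass (p := p) hg hu.1 hu.2 ht.2.le
    (mul_nonneg (Real.exp_pos _).le (Real.sqrt_nonneg _)) (hg.pos_of_lt ⟨ht.1.le, ht.2⟩).le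
    (circle_le_profile hg hσ ⟨hu.1, hu1.le⟩ hcut) le_rfl
  have hc : ContinuousOn (fun v => g v ^ (p + 1)) (Icc 0 t) :=
    ((Lift.continuousOn_profile hg).mono (Icc_subset_Icc le_rfl ht.2.le)).pow _
  have h2 : Real.exp (-ell) * Lift.circLow p u ≤ ∫ v in (0 : ℝ)..u, g v ^ (p + 1) := by
    rw [Lift.circLow, ← intervalIntegral.integral_const_mul]
    refine intervalIntegral.integral_mono_on_of_le_Ioo hu.1
      (((continuous_arc.pow _).intervalIntegrable _ _).const_mul _)
      ((hc.mono (Icc_subset_Icc le_rfl hu.2.le)).intervalIntegrable_of_Icc hu.1) fun v hv => ?_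
    have h := mul_le_mul_of_nonneg_left (hcut v ⟨hv.1, hv.2.trans hu1⟩) (Real.exp_pos (-ell)).le
    rwa [← mul_assoc, ← Real.exp_add, neg_add_cancel, Real.exp_zero, one_mul] at h
  have h3 := intervalIntegral.integral_add_adjacent_intervals
    ((hc.mono (Icc_subset_Icc le_rfl hu.2.le)).intervalIntegrable_of_Icc (μ := volume) hu.1)
    ((hc.mono (Icc_subset_Icc hu.1 le_rfl)).intervalIntegrable_of_Icc (μ := volume) hu.2.le)
  rw [(Lift.mass_split hg hσ (Ioo_subset_Icc_self ht)).1] at h3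
  rw [show √(1 - u ^ 2) = arc u from rfl] at h1
  linarith

end Vale.Agent.P237.Petty.Cor
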