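import Vale.Agent.P237.Petty.Cor.Young
import Vale.Agent.P237.Petty.Lift.Gauss

/-!
# P237: the step from the correlation and Dirichlet terms

`CorBound p gam nu kap ell cut`: on the profiles with the volume of the circle that satisfy `cut`, the
excess `(p + 4) E[σ t] - 1` of the correlation, times `kap`, is at most `gam` times the shadow excess, `nu`
times the axial Fisher excess and the gain `kap * ell / (p + 2)`. Two such bounds, for small and
for large logarithm `ell` of the relative volume, give the step in dimension `p + 2`.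
-/

namespace Vale.Agent.P237.Petty.Cor

open MeasureTheory Set intervalIntegral
open Ident (half rate)
open Lift (aExc jExc)

universe u

variable {p : ℕ} {g σ : ℝ → ℝ}

/-- The excess of the correlation along the transport. -/
noncomputable def corExc (p : ℕ) (g σ : ℝ → ℝ) : ℝ :=
  ((p : ℝ) + 4) * (∫ t in (0 : ℝ)..1, g t ^ (p + 1) * (σ t * t)) / half (p + 1) - 1

/-- The bound of the correlation excess on the profiles that satisfy `cut`. -/
def CorBound (p : ℕ) (gam nu kap ell : ℝ) (cut : ℝ → ℝ → Prop) : Prop :=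
  ∀ g σ : ℝ → ℝ, Regular g → Transport p g σ → (∀ t ∈ Ioo (0 : ℝ) 1, cut t (g t)) →
    kap * corExc p g σ ≤ gam * aExc p g + nu * jExc p g + kap * (ell / ((p : ℝ) + 2))

/-- The profiles above the scaled circle. -/
def obsCut (p : ℕ) (ell t a : ℝ) : Prop := arc t ^ (p + 1) ≤ Real.exp ell * a ^ (p + 1)

/-- No cut. -/
def noCut (_ _ : ℝ) : Prop := True

/-- The integrand at a state: shadow, Fisher term, correlation and the gain. -/
noncomputable def corPart (p : ℕ) (nu kap ell s t a r q : ℝ) : ℝ :=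
  Lift.liftPart p nu kap s t a r q (((p : ℝ) + 4) * (s * t) - 1)
    (kap * (ell / ((p : ℝ) + 2)) * a ^ (p + 1))

/-- The pointwise form: on every state inside the cut the integrand plus a null field is
nonnegative. -/
def CorField (p : ℕ) (nu kap ell : ℝ) (cut : ℝ → ℝ → Prop) : Prop :=
  ∃ D : ℝ → ℝ → ℝ → ℝ → ℝ → ℝ, Lift.NullField p D ∧
    ∀ s t a r q : ℝ, Lift.LiftState p s t a r q → cut t a →
      0 ≤ corPart p nu kap ell s t a r q + D s t a r q

/-- The pointwise form gives the bound. -/
theorem corBound_of_field {nu kap ell : ℝ} (hk : 0 ≤ kap) {cut : ℝ → ℝ → Prop}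
    (h : CorField p nu kap ell cut) : CorBound p ((p : ℝ) + 1) nu kap ell cut := fun g σ hg hσ hcut => by
  obtain ⟨D, hD, hpos⟩ := h
  obtain ⟨ψ, hψc, hends, hψd⟩ := hD g σ hg hσ
  have hgc := Lift.continuousOn_profile hg
  obtain ⟨hI, -⟩ := young_average hg hσ
  have hm : IntervalIntegrable (fun t => g t ^ (p + 1)) volume 0 1 :=
    (hgc.pow _).intervalIntegrable_of_Icc zero_le_one
  have hB := Ident.half_pos (p + 1)
  have he : ∫ t in (0 : ℝ)..1, g t ^ (p + 1) * (((p : ℝ) + 4) * (σ t * t) - 1) =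
      half (p + 1) * corExc p g σ := by
    rw [corExc, mul_sub, mul_div_cancel₀ _ hB.ne', mul_one,
      ← intervalIntegral.integral_const_mul]
    conv_rhs => arg 2; rw [← Lift.integral_mass hσ]
    rw [← intervalIntegral.integral_sub (hI.const_mul _) hm]
    exact intervalIntegral.integral_congr fun t _ => by ring
  have hl := Lift.lifted_of_pointwise hg hσ (nu := nu) hk
    (e := fun t => ((p : ℝ) + 4) * (σ t * t) - 1)
    (v := fun t => kap * (ell / ((p : ℝ) + 2)) * g t ^ (p + 1))
    ((hgc.pow _).mul ((continuousOn_const.mul (hσ.cont.mul continuousOn_id)).sub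
      continuousOn_const) |>.intervalIntegrable_of_Icc zero_le_one)
    (hm.const_mul _) (dH := corExc p g σ) he.ge hψc hψd fun t ht =>
      hpos _ _ _ _ _ (Lift.liftState_profile hg hσ ht) (hcut t ht)
  rw [intervalIntegral.integral_const_mul, Lift.integral_mass hσ, mul_div_cancel_right₀ _ hB.ne']
    at hl
  have h2 : 0 ≤ ((p : ℝ) + 1) * aExc p g + nu * jExc p g + kap * (ell / ((p : ℝ) + 2)) -
      kap * corExc p g σ := nonneg_of_mul_nonneg_right (by linarith) hB
  linarith

/-- For every value of the logarithm of the relative volume a bound with a gain not above it. -/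
def CorBounds (p : ℕ) : Prop :=
  ∀ ell : ℝ, 0 ≤ ell → ∃ gam nu kap ell₀ : ℝ, 0 < gam ∧ 0 ≤ nu ∧ 0 < kap ∧ ell₀ ≤ ell ∧
    CorBound p gam nu kap ell₀ (obsCut p ell)

/-- One field below a threshold, with the cut, and one above it, without. -/
def TwoFields (p : ℕ) : Prop :=
  ∃ ell₁ : ℝ, (∀ ell ∈ Icc (0 : ℝ) ell₁,
      ∃ nu kap : ℝ, 0 ≤ nu ∧ 0 < kap ∧ CorField p nu kap ell (obsCut p ell)) ∧
    ∃ nu kap : ℝ, 0 ≤ nu ∧ 0 < kap ∧ CorField p nu kap ell₁ noCut

theorem corBounds_of_twoFields (h : TwoFields p) : CorBounds p := fun ell hl => by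
  obtain ⟨ell₁, hsmall, nu, kap, hnu, hk, hbig⟩ := h
  rcases le_total ell ell₁ with h' | h'
  · obtain ⟨nu', kap', hnu', hk', hF⟩ := hsmall ell ⟨hl, h'⟩
    exact ⟨_, nu', kap', ell, Nat.cast_add_one_pos p, hnu', hk', le_rfl, corBound_of_field hk'.le hF⟩
  · exact ⟨_, nu, kap, ell₁, Nat.cast_add_one_pos p, hnu, hk, h', fun g σ hg hσ _ =>
      corBound_of_field hk.le hbig g σ hg hσ fun _ _ => trivial⟩

/-- The bounds give the criterion in John position, with the Dirichlet and correlation terms. -/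
theorem criterion_of_corBounds (hB : CorBounds p) : ProfileCriterion p := by
  classical
  choose! gam nu kap ell₀ hgam hnu hk hle hC using hB
  set sel : (ℝ → ℝ) → ℝ → ℝ := fun F b => if 1 ≤ b then F (Real.log b) else 0 with hsel
  have hsel0 : ∀ (F : ℝ → ℝ), (∀ ell, 0 ≤ ell → 0 ≤ F ell) → ∀ b, 0 ≤ sel F b := fun F hF b => by
    simp only [hsel]
    split_ifs with h
    · exact hF _ (Real.log_nonneg h)
    · exact le_rfl
  refine ⟨sel nu, fun b => ((p : ℝ) + 4) * sel kap b, fun _ => 0, fun b =>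
    ⟨hsel0 nu hnu b, mul_nonneg (by positivity) (hsel0 kap (fun l hl => (hk l hl).le) b),
      le_rfl⟩, ?_⟩
  intro f hc he hge _
  obtain ⟨F, hF, hgeF, hin⟩ := exists_regular hc he hge
  have hA : ∫ t in (-1 : ℝ)..1, f t ^ p = ∫ t in (-1 : ℝ)..1, F t ^ p :=
    integral_congr_Ioo fun t ht => by rw [hin t ht]
  have hBe : ∫ t in (-1 : ℝ)..1, f t ^ (p + 1) = ∫ t in (-1 : ℝ)..1, F t ^ (p + 1) :=
    integral_congr_Ioo fun t ht => by rw [hin t ht]
  have hdir : ∀ φ, dirTerm p f φ = dirTerm p F φ := fun φ => by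
    rw [dirTerm, dirTerm, pavg_congr hin]
  have hrel : relVolume p f = relVolume p F := by rw [relVolume, relVolume, hBe]
  have hcor : ∀ ψ χ, corTerm p f ψ χ = corTerm p F ψ χ := fun ψ χ => by
    simp only [corTerm, hrel, pavg_congr hin]
  have hc0 := circ_pos p
  have hc1 := circ_pos (p + 1)
  set B := ∫ t in (-1 : ℝ)..1, F t ^ (p + 1) with hBdef
  have hu : uIcc (-1 : ℝ) 1 = Icc (-1) 1 := uIcc_of_le (by norm_num)
  have hBge : circ (p + 1) ≤ B :=
    intervalIntegral.integral_mono_on (by norm_num)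
      (Continuous.intervalIntegrable (by fun_prop) _ _)
      ((ContinuousOn.pow (by rw [hu]; exact hF.cont) _).intervalIntegrable)
      fun t ht => pow_le_pow_left₀ (Real.sqrt_nonneg _) (hgeF t ht) _
  have hBpos : 0 < B := hc1.trans_le hBge
  set b := relVolume p F with hb
  have hb1 : 1 ≤ b := (one_le_div hc1).2 hBge
  have hb0 : 0 < b := lt_of_lt_of_le one_pos hb1
  set ell := Real.log b with hell
  have hl : 0 ≤ ell := Real.log_nonneg hb1
  rw [hrel, hsel]
  simp only [if_pos hb1]
  rw [← hell]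
  have hnul := hnu ell hl
  have hkl := hk ell hl
  -- scaling
  set s := (circ (p + 1) / B) ^ (((p + 1 : ℕ) : ℝ)⁻¹) with hsdef
  have hs : 0 < s := Real.rpow_pos_of_pos (div_pos hc1 hBpos) _
  have hsm : s ^ (p + 1) = circ (p + 1) / B :=
    Real.rpow_inv_natCast_pow (div_nonneg hc1.le hBpos.le) (Nat.succ_ne_zero p)
  set G := fun t => s * F t with hG
  have hGr : Regular G := hF.smul hs
  have hGB : ∫ t in (-1 : ℝ)..1, G t ^ (p + 1) = circ (p + 1) := by
    simp only [hG, mul_pow]
    rw [intervalIntegral.integral_const_mul, hsm, ← hBdef, div_mul_cancel₀ _ hBpos.ne']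
  have hGA : ∫ t in (-1 : ℝ)..1, G t ^ p = s ^ p * ∫ t in (-1 : ℝ)..1, F t ^ p := by
    simp only [hG, mul_pow]
    rw [intervalIntegral.integral_const_mul]
  have hGJ : jInt p G / circ (p + 1) = jInt p F / B := by
    have : jInt p G = s ^ (p + 1) * jInt p F := by
      rw [jInt, jInt, mul_add]
      refine congrArg₂ (· + ·) ?_ (by simp only [hG, mul_pow]; ring)
      rw [← mul_assoc, mul_comm (s ^ (p + 1)), mul_assoc]
      congr 1
      rw [← intervalIntegral.integral_const_mul]
      refine integral_congr_Ioo fun t ht => ?_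
      have := (hF.icept_pos ht).ne'
      simp only [icept, hG, slopeR_smul hF s ht, mul_pow]
      rw [show s * F t - t * (s * slopeR F t) = s * (F t - t * slopeR F t) by ring]
      unfold icept at this
      field_simp
      ring
    rw [this, hsm]
    field_simp
  have hpav : ∀ h : ℝ → ℝ, pavg (p + 1) G h = pavg (p + 1) F h := fun h => by
    simp only [pavg, hG, mul_pow]
    rw [show (fun t => h t * (s ^ (p + 1) * F t ^ (p + 1))) =
      fun t => s ^ (p + 1) * (h t * F t ^ (p + 1)) from funext fun t => by ring,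
      intervalIntegral.integral_const_mul, intervalIntegral.integral_const_mul,
      mul_div_mul_left _ _ (pow_ne_zero (p + 1) hs.ne')]
  obtain ⟨σ, hσ⟩ := Ident.exists_transport_of_circ hGr p hGB
  -- the bound at the profile
  have hcut : ∀ t ∈ Ioo (0 : ℝ) 1, obsCut p ell t (G t) := fun t ht => by
    rw [obsCut, hell, Real.exp_log hb0, hb, relVolume, hG, mul_pow, hsm, ← hBdef]
    rw [show B / circ (p + 1) * (circ (p + 1) / B * F t ^ (p + 1)) = F t ^ (p + 1) by field_simp]
    exact pow_le_pow_left₀ (Real.sqrt_nonneg _) (hgeF t ⟨by linarith [ht.1], ht.2.le⟩) _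
  have hbd := hC ell hl G σ hGr hσ hcut
  -- the tests
  set C := nu ell * (1 - jInt p F / B) +
    kap ell * (corExc p G σ + 1 - b ^ (((p : ℝ) + 2)⁻¹)) with hCdef
  have hex : ∀ δ : ℝ, 0 < δ → ∃ φ ψ χ d : ℝ → ℝ, Tests φ ψ χ d ∧
      nu ell * dirTerm p f φ + ((p : ℝ) + 4) * kap ell * corTerm p f ψ χ + 0 * entTerm p f d ≤
        C + nu ell * δ := by
    intro δ hδ
    obtain ⟨φ, hφ, hd⟩ := exists_dir hF p hBpos hδ
    have hg := Lift.densityTest_gauss one_pos
    refine ⟨φ, prim σ, conj σ, Lift.gaussDens 1, ⟨hφ, continuous_prim hσ, continuous_conj hσ,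
      fun x hx u _ => mul_le_prim_add_conj hσ hx u, hg.continuous, hg.positive, hg.integrable,
      hg.mass, hg.growth⟩, ?_⟩
    obtain ⟨-, hav⟩ := young_average hGr hσ
    rw [hpav] at hav
    rw [hdir, hcor, zero_mul, add_zero, corTerm, ← hb, hCdef, corExc, hav]
    have h1 : nu ell * dirTerm p F φ ≤ nu ell * (1 - jInt p F / B + δ) :=
      mul_le_mul_of_nonneg_left hd hnul
    have hp4 : ((p : ℝ) + 4) ≠ 0 := by positivity
    have e : ((p : ℝ) + 4) * kap ell *
        ((∫ t in (0 : ℝ)..1, G t ^ (p + 1) * (σ t * t)) / half (p + 1) -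
          b ^ (((p : ℝ) + 2)⁻¹) / ((p : ℝ) + 4)) =
        kap ell * (((p : ℝ) + 4) * (∫ t in (0 : ℝ)..1, G t ^ (p + 1) * (σ t * t)) / half (p + 1) -
          1 + 1 - b ^ (((p : ℝ) + 2)⁻¹)) := by
      field_simp
      ring
    rw [e]
    linarith
  by_cases hneg : C < 0
  · obtain ⟨φ, ψ, χ, d, ht, hle'⟩ := hex (-C / (2 * (nu ell + 1)))
      (div_pos (neg_pos.2 hneg) (by positivity))
    refine ⟨φ, ψ, χ, d, ht, fun h => absurd (h.trans hle') (not_le.2 ?_)⟩
    have e : nu ell * (-C / (2 * (nu ell + 1))) ≤ -C / 2 := by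
      rw [← mul_div_assoc, div_le_div_iff₀ (by positivity) two_pos]
      nlinarith
    linarith
  · obtain ⟨φ, ψ, χ, d, ht, -⟩ := hex 1 one_pos
    refine ⟨φ, ψ, χ, d, ht, fun _ => ?_⟩
    rw [hA, hBe]
    have hC0 : 0 ≤ C := not_lt.1 hneg
    have hn : (0 : ℝ) < (p : ℝ) + 2 := by positivity
    have hexp : b ^ (((p : ℝ) + 2)⁻¹) = Real.exp (ell / ((p : ℝ) + 2)) := by
      rw [Real.rpow_def_of_pos hb0, ← hell, div_eq_mul_inv]
    rw [Lift.jExc, hGJ] at hbd
    rw [hCdef, hexp] at hC0
    have hgain : kap ell * (ell₀ ell / ((p : ℝ) + 2)) ≤ kap ell * (ell / ((p : ℝ) + 2)) :=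
      mul_le_mul_of_nonneg_left (div_le_div_of_nonneg_right (hle ell hl) hn.le) hkl.le
    refine contact_conclusion p (Φ := ((p : ℝ) + 1) / gam ell * (kap ell *
        (Real.exp (ell / ((p : ℝ) + 2)) - 1 - ell / ((p : ℝ) + 2))))
      (C := 0) hc0 hBpos hsm hGA le_rfl
      (mul_nonneg (div_nonneg (by positivity) (hgam ell hl).le)
        (mul_nonneg hkl.le (by linarith [Real.add_one_le_exp (ell / ((p : ℝ) + 2))])))
      ?_ fun h0 => ?_
    · simp only [Lift.aExc] at hbd
      rw [div_mul_eq_mul_div, sub_zero, div_le_iff₀ (hgam ell hl), mul_assoc]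
      refine mul_le_mul_of_nonneg_left ?_ (by positivity)
      nlinarith [mul_comm (gam ell) ((∫ t in (-1 : ℝ)..1, G t ^ p) / circ p - 1)]
    have hz : ell / ((p : ℝ) + 2) = 0 := by
      by_contra hne
      have := Real.add_one_lt_exp hne
      rcases mul_eq_zero.1 ((mul_eq_zero.1 h0).resolve_left
        (div_ne_zero (by positivity) (hgam ell hl).ne')) with h | h
      · linarith
      · linarith
    have hb' : b = 1 := by
      have h1 : ell = 0 := (div_eq_zero_iff.1 hz).resolve_right hn.ne'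
      rw [hell, Real.log_eq_zero] at h1
      rcases h1 with h | h | h
      · linarith
      · exact h
      · linarith
    rw [hb, relVolume, div_eq_one_iff_eq hc1.ne', ← hBdef] at hb'
    have : s ^ (p + 1) = 1 := by rw [hsm, hb', div_self hc1.ne']
    exact (pow_eq_one_iff_of_nonneg hs.le (Nat.succ_ne_zero p)).1 this

/-- The bounds give the step in dimension `p + 2`, with the case of equality. -/
theorem stepHolds_of_corBounds (hB : CorBounds p) : StepHolds.{u} p :=
  stepHolds_of_criterion (criterion_of_corBounds hB)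

/-- Two fields give the step in dimension `p + 2`, with the case of equality. -/
theorem stepHolds_of_twoFields (h : TwoFields p) : StepHolds.{u} p :=
  stepHolds_of_corBounds (corBounds_of_twoFields h)

/-- The bounds in every order from four on give the inequality in every dimension, with its cases
of equality. -/
theorem petty_of_corBounds (hB : ∀ p, 4 ≤ p → CorBounds p) {n : ℕ} (hn : 3 ≤ n) {E : Type}
    [NormedAddCommGroup E] [InnerProductSpace ℝ E] [FiniteDimensional ℝ E] [MeasurableSpace E]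
    [BorelSpace E] (hfin : Module.finrank ℝ E = n) {K : Set E} (hK : Body K) :
    cPetty n * volume.real K ^ (n - 1) ≤ volume.real (projBody K) ∧
      (volume.real (projBody K) = cPetty n * volume.real K ^ (n - 1) ↔
        ∃ (T : E ≃L[ℝ] E) (a : E), K = (fun x => a + x) '' (T '' Metric.closedBall 0 1)) :=
  petty_of_steps hn (fun p hp1 _ => by
    rcases lt_or_ge p 4 with h | h
    · exact Hull.Five.steps_upto_five p hp1 (by omega)
    · exact stepHolds_of_corBounds (hB p h)) hfin hK

end Vale.Agent.P237.Petty.Cor
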