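import Vale.Agent.P237.Petty.Cor.Point

/-!
# P237: tests and potentials that see the value of the profile

A test `φ (t) = F (σ t, t, g t)` and a potential `arc s ^ (p + 1) * Q (s, t, a)`: the integrand is
affine in the slope, so its sign on the slopes `-a / (1 - t) ≤ q ≤ 0` of the profiles follows from
the two ends; with a nonpositive coefficient the end `q = 0` alone.
-/

namespace Vale.Agent.P237.Petty.Cor

open MeasureTheory Set intervalIntegral
open Ident (half rate)

variable {p : ℕ} {g σ : ℝ → ℝ}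

/-- The closed box of the states. -/
def stateBox : Set (ℝ × ℝ × ℝ) := Icc 0 1 ×ˢ Icc 0 1 ×ˢ Ici 0

/-- A test on the curve `(σ t, t, g t)`. -/
structure CurveTest (p : ℕ) (F Fs Ft Fg : ℝ → ℝ → ℝ → ℝ) : Prop where
  deriv : Lift.HasPartials F Fs Ft Fg
  cont : ContinuousOn (fun x : ℝ × ℝ × ℝ => F x.1 x.2.1 x.2.2) stateBox
  cont_fst : ContinuousOn (fun x : ℝ × ℝ × ℝ => Fs x.1 x.2.1 x.2.2) stateBox
  cont_snd : ContinuousOn (fun x : ℝ × ℝ × ℝ => Ft x.1 x.2.1 x.2.2) stateBox
  cont_thd : ContinuousOn (fun x : ℝ × ℝ × ℝ => Fg x.1 x.2.1 x.2.2) stateBox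
  origin : ∀ a : ℝ, 0 < a → half (p + 1) ≤ a ^ (p + 1) → 0 ≤ F 0 0 a

/-- The integrand of the bound with the slope. -/
def fisherCurve (p : ℕ) (F Fs Ft Fg : ℝ → ℝ → ℝ → ℝ) (s t a r q : ℝ) : ℝ :=
  2 * (1 - t * F s t a) * (Fs s t a * r + Ft s t a + Fg s t a * q) -
    ((p : ℝ) + 2) * F s t a ^ 2 - 1

/-- The bound of the Fisher excess by a test on the curve. -/
theorem fisher_ge_curve {F Fs Ft Fg : ℝ → ℝ → ℝ → ℝ} (hF : CurveTest p F Fs Ft Fg) (hg : Regular g)
    (hσ : Transport p g σ) :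
    IntervalIntegrable (fun t => g t ^ (p + 1) * fisherCurve p F Fs Ft Fg (σ t) t (g t) (rate p g σ t) (slopeR g t))
        volume 0 1 ∧
      ∫ t in (0 : ℝ)..1, g t ^ (p + 1) * fisherCurve p F Fs Ft Fg (σ t) t (g t) (rate p g σ t) (slopeR g t) ≤
        half (p + 1) * Lift.jExc p g := by
  have hu : uIcc (0 : ℝ) 1 = Icc 0 1 := uIcc_of_le zero_le_one
  have hsub : uIcc (0 : ℝ) 1 ⊆ uIcc (-1 : ℝ) 1 := by
    rw [hu, uIcc_of_le (by norm_num)]
    exact Icc_subset_Icc (by norm_num) le_rfl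
  have hgc := Lift.continuousOn_profile hg
  have hpair : ContinuousOn (fun t => (σ t, t, g t)) (Icc (0 : ℝ) 1) :=
    hσ.cont.prodMk (continuousOn_id.prodMk hgc)
  have hmaps : MapsTo (fun t => (σ t, t, g t)) (Icc (0 : ℝ) 1) stateBox := fun t ht =>
    ⟨hσ.mem t ht, ht, hg.nonneg t ⟨by linarith [ht.1], ht.2⟩⟩
  set φ := fun t => F (σ t) t (g t) with hφ
  have hφc : ContinuousOn φ (Icc 0 1) := hF.cont.comp hpair hmaps
  have hsc : ContinuousOn (fun t => Fs (σ t) t (g t)) (Icc 0 1) := hF.cont_fst.comp hpair hmaps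
  have htc : ContinuousOn (fun t => Ft (σ t) t (g t)) (Icc 0 1) := hF.cont_snd.comp hpair hmaps
  have hgc' : ContinuousOn (fun t => Fg (σ t) t (g t)) (Icc 0 1) := hF.cont_thd.comp hpair hmaps
  have iq : IntervalIntegrable (slopeR g) volume 0 1 := hg.integrable_slopeR.mono_set hsub
  set T := fun t => g t ^ (p + 1) * fisherCurve p F Fs Ft Fg (σ t) t (g t) (rate p g σ t) (slopeR g t) with hT
  have hTi : IntervalIntegrable T volume 0 1 := by
    have c₁ : ContinuousOn (fun t => g t ^ (p + 1) * (2 * (1 - t * φ t) * Fs (σ t) t (g t)))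
        (uIcc 0 1) := by
      rw [hu]
      exact (hgc.pow _).mul
        ((continuousOn_const.mul (continuousOn_const.sub (continuousOn_id.mul hφc))).mul hsc)
    have c₂ : ContinuousOn (fun t => g t ^ (p + 1) *
        (2 * (1 - t * φ t) * Ft (σ t) t (g t) - ((p : ℝ) + 2) * φ t ^ 2 - 1)) (uIcc 0 1) := by
      rw [hu]
      exact (hgc.pow _).mul
        ((((continuousOn_const.mul (continuousOn_const.sub (continuousOn_id.mul hφc))).mul htc).sub
          (continuousOn_const.mul (hφc.pow 2))).sub continuousOn_const)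
    have c₃ : ContinuousOn (fun t => g t ^ (p + 1) * (2 * (1 - t * φ t) * Fg (σ t) t (g t)))
        (uIcc 0 1) := by
      rw [hu]
      exact (hgc.pow _).mul
        ((continuousOn_const.mul (continuousOn_const.sub (continuousOn_id.mul hφc))).mul hgc')
    refine ((((hσ.integrable_rate hg).continuousOn_mul c₁).add c₂.intervalIntegrable).add
      (iq.continuousOn_mul c₃)).congr ?_
    intro t _
    simp only [hT, fisherCurve, rate, hφ]
    ring
  refine ⟨hTi, ?_⟩
  have iQ : IntervalIntegrable (fun t => g t ^ p * slopeR g t ^ 2 / icept g t) volume 0 1 :=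
    (Ident.integrable_jInt hg p).mono_set hsub
  set Ψ := fun t => g t ^ (p + 1) * (2 * φ t - t * φ t ^ 2) with hΨ
  set Ψ' := fun t => T t + g t ^ (p + 1) * (1 + ((p : ℝ) + 1) * φ t ^ 2) +
    ((p : ℝ) + 1) * g t ^ p * (2 * φ t - t * φ t ^ 2) * slopeR g t with hΨ'
  have hi' : IntervalIntegrable Ψ' volume 0 1 := by
    have c₁ : ContinuousOn (fun t => g t ^ (p + 1) * (1 + ((p : ℝ) + 1) * φ t ^ 2)) (uIcc 0 1) := by
      rw [hu]
      exact (hgc.pow _).mul (continuousOn_const.add (continuousOn_const.mul (hφc.pow 2)))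
    have c₂ : ContinuousOn (fun t => ((p : ℝ) + 1) * g t ^ p * (2 * φ t - t * φ t ^ 2))
        (uIcc 0 1) := by
      rw [hu]
      exact (continuousOn_const.mul (hgc.pow p)).mul
        ((continuousOn_const.mul hφc).sub (continuousOn_id.mul (hφc.pow 2)))
    exact (hTi.add c₁.intervalIntegrable).add (iq.continuousOn_mul c₂)
  have hd : ∀ t ∈ Ioo (0 : ℝ) 1, HasDerivWithinAt Ψ (Ψ' t) (Ioi t) t := fun t ht => by
    have hφd := Lift.hasDeriv_potential hg hσ F Fs Ft Fg hF.deriv ht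
    have hgd := (hasDerivWithinAt_slopeR hg.concave
      (⟨by linarith [ht.1], ht.2⟩ : t ∈ Ioo (-1 : ℝ) 1)).fun_pow (p + 1)
    refine (hgd.mul ((hφd.const_mul 2).sub
      ((hasDerivWithinAt_id t _).mul (hφd.fun_pow 2)))).congr_deriv ?_
    simp only [hΨ', hT, fisherCurve, hφ, id, Pi.mul_apply, Pi.sub_apply, Nat.add_sub_cancel]
    push_cast
    ring
  have hint := intervalIntegral.integral_eq_sub_of_hasDeriv_right_of_le zero_le_one
    (show ContinuousOn Ψ (Icc 0 1) from (hgc.pow _).mul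
      ((continuousOn_const.mul hφc).sub (continuousOn_id.mul (hφc.pow 2)))) hd hi'
  set R := fun t => ((p : ℝ) + 1) * (g t ^ p * slopeR g t ^ 2 / icept g t) - g t ^ (p + 1) + Ψ' t
    with hR
  have hm : IntervalIntegrable (fun t => g t ^ (p + 1)) volume 0 1 :=
    (hgc.pow _).intervalIntegrable_of_Icc zero_le_one
  have hRi : IntervalIntegrable R volume 0 1 := ((iQ.const_mul _).sub hm).add hi'
  have hle : ∫ t in (0 : ℝ)..1, T t ≤ ∫ t in (0 : ℝ)..1, R t := by
    refine intervalIntegral.integral_mono_on_of_le_Ioo zero_le_one hTi hRi fun t ht => ?_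
    have hD : 0 < icept g t := hg.icept_pos ⟨by linarith [ht.1], ht.2⟩
    have hgp := hg.pos_of_lt (t := t) ⟨ht.1.le, ht.2⟩
    have key : 0 ≤ ((p : ℝ) + 1) * g t ^ p *
        ((slopeR g t + φ t * icept g t) ^ 2 / icept g t) := by positivity
    have e : R t - T t = ((p : ℝ) + 1) * g t ^ p *
        ((slopeR g t + φ t * icept g t) ^ 2 / icept g t) := by
      simp only [hR, hΨ']
      field_simp
      rw [icept]
      ring
    linarith
  have hends : Ψ 1 - Ψ 0 ≤ g 1 ^ (p + 1) := by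
    have h0 : 0 ≤ Ψ 0 := by
      have := mul_nonneg (pow_nonneg hg.pos.le (p + 1))
        (hF.origin (g 0) hg.pos (Lift.half_le_top hg hσ))
      simp only [hΨ, hφ, hσ.zero, zero_mul, sub_zero]
      linarith
    have h1 := mul_le_mul_of_nonneg_left
      (show 2 * φ 1 - 1 * φ 1 ^ 2 ≤ 1 by nlinarith [sq_nonneg (φ 1 - 1)])
      (pow_nonneg (hg.nonneg 1 (by norm_num)) (p + 1))
    simp only [hΨ] at h0 ⊢
    linarith
  have hJ : half (p + 1) * Lift.jExc p g =
      (((p : ℝ) + 1) * ∫ t in (0 : ℝ)..1, g t ^ p * slopeR g t ^ 2 / icept g t) +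
        g 1 ^ (p + 1) - half (p + 1) := by
    rw [Lift.jExc_eq hg p]
    field_simp [(Ident.half_pos (p + 1)).ne']
  have hRe : ∫ t in (0 : ℝ)..1, R t =
      (((p : ℝ) + 1) * ∫ t in (0 : ℝ)..1, g t ^ p * slopeR g t ^ 2 / icept g t) -
        half (p + 1) + (Ψ 1 - Ψ 0) := by
    rw [hR, intervalIntegral.integral_add ((iQ.const_mul _).sub hm) hi',
      intervalIntegral.integral_sub (iQ.const_mul _) hm, intervalIntegral.integral_const_mul,
      Lift.integral_mass hσ, hint]
  linarith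

/-- The integrand per unit of mass, affine in the slope. -/
noncomputable def perMassCurve (p : ℕ) (gam nu kap ell : ℝ) (F Fs Ft Fg : ℝ → ℝ → ℝ → ℝ)
    (ω : ℝ → ℝ) (Q Qs Qt Qg : ℝ → ℝ → ℝ → ℝ) (s t a r q : ℝ) : ℝ :=
  gam * Ident.b0 p * (1 / a - 1 / arc s) + nu * fisherCurve p F Fs Ft Fg s t a r q +
    kap * (ell / ((p : ℝ) + 2)) * ω s - kap * (((p : ℝ) + 4) * (s * t) - 1) +
    (Qs s t a - ((p : ℝ) + 1) * s / (1 - s ^ 2) * Q s t a) + (Qt s t a + Qg s t a * q) / r

theorem perMassCurve_nonneg {gam nu kap ell : ℝ} {F Fs Ft Fg : ℝ → ℝ → ℝ → ℝ} {ω : ℝ → ℝ}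
    {Q Qs Qt Qg : ℝ → ℝ → ℝ → ℝ} {s t a r q : ℝ} (h : Lift.LiftState p s t a r q)
    (h0 : 0 ≤ perMassCurve p gam nu kap ell F Fs Ft Fg ω Q Qs Qt Qg s t a r 0)
    (h1 : 2 * nu * (1 - t * F s t a) * Fg s t a + Qg s t a / r ≤ 0 ∨
      0 ≤ perMassCurve p gam nu kap ell F Fs Ft Fg ω Q Qs Qt Qg s t a r (-a / (1 - t))) :
    0 ≤ perMassCurve p gam nu kap ell F Fs Ft Fg ω Q Qs Qt Qg s t a r q := by
  set A := 2 * nu * (1 - t * F s t a) * Fg s t a + Qg s t a / r with hA
  have e : ∀ x : ℝ, perMassCurve p gam nu kap ell F Fs Ft Fg ω Q Qs Qt Qg s t a r x =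
      perMassCurve p gam nu kap ell F Fs Ft Fg ω Q Qs Qt Qg s t a r 0 + A * x := fun x => by
    simp only [perMassCurve, fisherCurve, hA]
    ring
  have hq := h.slope
  have hlo : -a / (1 - t) ≤ q := by
    rw [div_le_iff₀ (by linarith [h.t_mem.2])]
    linarith [h.slope_le]
  rw [e]
  rw [e (-a / (1 - t))] at h1
  rcases le_total A 0 with hA0 | hA0
  · nlinarith [mul_nonneg_of_nonpos_of_nonpos hA0 hq]
  · rcases h1 with h1 | h1
    · have : A = 0 := le_antisymm h1 hA0
      simp [this, h0]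
    · nlinarith [mul_le_mul_of_nonneg_left hlo hA0]

/-- A test, a weight and a potential that see the profile, with the sign per unit of mass, give
the bound below the cut. -/
theorem corBound_of_curve {gam nu kap ell top ell' : ℝ} (hnu : 0 ≤ nu) (htop : ell' ≤ top)
    {F Fs Ft Fg : ℝ → ℝ → ℝ → ℝ} {ω : ℝ → ℝ} {Q Qs Qt Qg : ℝ → ℝ → ℝ → ℝ}
    (hF : CurveTest p F Fs Ft Fg) (hω : Continuous ω)
    (hmean : (∫ s in (0 : ℝ)..1, arc s ^ (p + 1) * ω s) = half (p + 1))
    (hQ : Lift.HasPartials Q Qs Qt Qg)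
    (hQc : ContinuousOn (fun x : ℝ × ℝ × ℝ => Q x.1 x.2.1 x.2.2) stateBox)
    (hQ0 : ∀ a : ℝ, 0 < a → half (p + 1) ≤ a ^ (p + 1) → 0 ≤ Q 0 0 a)
    (hpos : ∀ s t a r q : ℝ, FlatState p top s t a r q →
      0 ≤ perMassCurve p gam nu kap ell F Fs Ft Fg ω Q Qs Qt Qg s t a r q) :
    CorBound p gam nu kap ell (obsCut p ell') := by
  intro g σ hg hσ hcut
  have hu : uIcc (0 : ℝ) 1 = Icc 0 1 := uIcc_of_le zero_le_one
  set ψ := fun t => arc (σ t) ^ (p + 1) * Q (σ t) t (g t) with hψ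
  set ψ' := fun t => g t ^ (p + 1) *
    ((Qs (σ t) t (g t) - ((p : ℝ) + 1) * σ t / (1 - σ t ^ 2) * Q (σ t) t (g t)) +
      (Qt (σ t) t (g t) + Qg (σ t) t (g t) * slopeR g t) / rate p g σ t) with hψ'
  have hψc : ContinuousOn ψ (Icc 0 1) :=
    ((continuous_arc.comp_continuousOn hσ.cont).pow _).mul (hQc.comp
      (hσ.cont.prodMk (continuousOn_id.prodMk (Lift.continuousOn_profile hg))) fun t ht =>
      ⟨hσ.mem t ht, ht, hg.nonneg t ⟨by linarith [ht.1], ht.2⟩⟩)
  have hends : ψ 1 ≤ ψ 0 := by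
    simp only [hψ, hσ.one, hσ.zero, show arc 1 ^ (p + 1) = 0 by simp [arc], zero_mul]
    exact mul_nonneg (pow_nonneg (Real.sqrt_nonneg _) _)
      (hQ0 _ hg.pos (Lift.half_le_top hg hσ))
  have hψd : ∀ t ∈ Ioo (0 : ℝ) 1, HasDerivWithinAt ψ (ψ' t) (Ioi t) t := fun t ht => by
    have S := Lift.liftState_profile hg hσ ht
    have hc := hasDerivAt_arc_pow p (s := σ t) ⟨by linarith [S.s_mem.1], S.s_mem.2⟩
    refine ((hc.comp t (hσ.deriv t ht)).hasDerivWithinAt.mul
      (Lift.hasDeriv_potential hg hσ Q Qs Qt Qg hQ ht)).congr_deriv ?_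
    have hne := (pow_pos S.arc_pos' (p + 1)).ne'
    have hgn := (pow_pos S.pos (p + 1)).ne'
    simp only [hψ', rate, Function.comp_apply]
    field_simp
    ring
  obtain ⟨hFi, hFle⟩ := fisher_ge_curve hF hg hσ
  obtain ⟨hai, ha⟩ := Lift.integral_aPart hg hσ
  obtain ⟨hI, -⟩ := young_average hg hσ
  have hgc := (Lift.continuousOn_profile hg).pow (p + 1)
  have hm : IntervalIntegrable (fun t => g t ^ (p + 1)) volume 0 1 :=
    hgc.intervalIntegrable_of_Icc zero_le_one
  have hwi : IntervalIntegrable (fun t => g t ^ (p + 1) * ω (σ t)) volume 0 1 :=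
    (hgc.mul (hω.comp_continuousOn hσ.cont)).intervalIntegrable_of_Icc zero_le_one
  have hw : ∫ t in (0 : ℝ)..1, g t ^ (p + 1) * ω (σ t) = half (p + 1) := by
    rw [← hmean, ← hσ.integral_rate_mul hg (φ := fun s => arc s ^ (p + 1) * ω s)
      ((continuous_arc.pow _).mul hω)]
    refine intervalIntegral.integral_congr_ae ?_
    filter_upwards [Measure.ae_ne volume (1 : ℝ)] with t h1 ht
    rw [uIoc_of_le zero_le_one] at ht
    have hs := hσ.mem_Ioo t ⟨ht.1, lt_of_le_of_ne ht.2 h1⟩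
    have hc : 0 < arc (σ t) := arc_pos ⟨by linarith [hs.1], hs.2⟩
    field_simp
  have hei : IntervalIntegrable
      (fun t => g t ^ (p + 1) * (((p : ℝ) + 4) * (σ t * t) - 1)) volume 0 1 := by
    refine ((hI.const_mul ((p : ℝ) + 4)).sub hm).congr ?_
    intro t _
    ring
  have hB := Ident.half_pos (p + 1)
  have he : ∫ t in (0 : ℝ)..1, g t ^ (p + 1) * (((p : ℝ) + 4) * (σ t * t) - 1) =
      half (p + 1) * corExc p g σ := by
    rw [corExc, mul_sub, mul_div_cancel₀ _ hB.ne', mul_one,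
      ← intervalIntegral.integral_const_mul]
    conv_rhs => arg 2; rw [← Lift.integral_mass hσ]
    rw [← intervalIntegral.integral_sub (hI.const_mul _) hm]
    exact intervalIntegral.integral_congr fun t _ => by ring
  have hPi := (((hai.const_mul (gam / ((p : ℝ) + 1))).add (hFi.const_mul nu)).add
    (hwi.const_mul (kap * (ell / ((p : ℝ) + 2))))).sub (hei.const_mul kap)
  have hkey := intervalIntegral.sub_le_integral_of_hasDeriv_right_of_le zero_le_one hψc.neg
    (fun t ht => (hψd t ht).neg)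
    ((intervalIntegrable_iff_integrableOn_Icc_of_le zero_le_one).1 hPi) fun t ht => by
      have S := flatState_profile hg hσ (ell := top) (fun u hu =>
        (hcut u hu).trans (mul_le_mul_of_nonneg_right (Real.exp_le_exp.2 htop)
          (pow_nonneg (hg.nonneg u ⟨by linarith [hu.1], hu.2.le⟩) _))) ht
      have hp' := mul_nonneg (pow_nonneg S.state.pos.le (p + 1))
        (hpos _ _ _ _ _ S)
      have hgne := S.state.pos.ne'
      have hA : gam / ((p : ℝ) + 1) * Lift.aPart p (σ t) (g t) =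
          g t ^ (p + 1) * (gam * Ident.b0 p * (1 / g t - 1 / arc (σ t))) := by
        have := S.state.arc_pos'.ne'
        rw [Lift.aPart, pow_succ]
        field_simp
      simp only [perMassCurve] at hp'
      simp only [hψ', Pi.neg_apply] at *
      rw [hA]
      linarith
  rw [intervalIntegral.integral_sub (((hai.const_mul _).add (hFi.const_mul nu)).add
      (hwi.const_mul _)) (hei.const_mul kap),
    intervalIntegral.integral_add ((hai.const_mul _).add (hFi.const_mul nu)) (hwi.const_mul _),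
    intervalIntegral.integral_add (hai.const_mul _) (hFi.const_mul nu),
    intervalIntegral.integral_const_mul, intervalIntegral.integral_const_mul,
    intervalIntegral.integral_const_mul, intervalIntegral.integral_const_mul, ha, hw, he] at hkey
  simp only [Pi.neg_apply] at hkey
  have hFle' := mul_le_mul_of_nonneg_left hFle hnu
  have e : gam / ((p : ℝ) + 1) * (half (p + 1) * (((p : ℝ) + 1) * Lift.aExc p g)) =
      half (p + 1) * (gam * Lift.aExc p g) := by
    field_simp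
  have h2 : 0 ≤ gam * Lift.aExc p g + nu * Lift.jExc p g + kap * (ell / ((p : ℝ) + 2)) -
      kap * corExc p g σ := nonneg_of_mul_nonneg_right (by linarith) hB
  linarith

end Vale.Agent.P237.Petty.Cor
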