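import Vale.Agent.P237.Petty.Cor.SmallS

/-!
# P237: lower bounds in the abscissa of the circle alone

A field only has to be above a function `ψ (s)` of nonnegative mean for the weight of the circle:
`-arc s ^ (p + 1) * ψ (s)` times the speed of the transport is then a null field.
-/

namespace Vale.Agent.P237.Petty.Cor

open MeasureTheory Set intervalIntegral
open Ident (half rate)

variable {p : ℕ}

/-- A function of nonnegative mean gives a null field. -/
theorem nullField_mean {ψ : ℝ → ℝ} (hψ : ContinuousOn (fun s => arc s ^ (p + 1) * ψ s) (Icc 0 1))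
    (hmean : 0 ≤ ∫ s in (0 : ℝ)..1, arc s ^ (p + 1) * ψ s) :
    Lift.NullField p fun s _ _ r _ => -(arc s ^ (p + 1) * ψ s * r) := by
  set f : ℝ → ℝ := IccExtend zero_le_one ((Icc 0 1).domRestrict fun s => arc s ^ (p + 1) * ψ s) with hf
  have hfc : Continuous f := hψ.domRestrict.Icc_extend'
  have he : ∀ s ∈ Icc (0 : ℝ) 1, f s = arc s ^ (p + 1) * ψ s := fun s hs => by
    rw [hf, IccExtend_of_mem _ _ hs, domRestrict_apply]
  have hd : ∀ x, HasDerivAt (fun y => -∫ u in (0 : ℝ)..y, f u) (-f x) x :=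
    fun x => (hfc.integral_hasStrictDerivAt 0 x).hasDerivAt.neg
  have h := nullField_pair (p := p) (Φ := fun s _ => -∫ u in (0 : ℝ)..s, f u)
    (Φs := fun s _ => -f s) (Φt := fun _ _ => 0) (fun s _ t _ => ?_) ?_ ?_
  · exact h.congr fun s t a r q hl => by
      rw [he s (Ioo_subset_Icc_self hl.s_mem)]
      ring
  · refine (HasDerivAt.comp_hasFDerivAt (f := fun x : ℝ × ℝ => x.1) (s, t) (hd s)
      (hasFDerivAt_fst : HasFDerivAt (fun x : ℝ × ℝ => x.1)
        (ContinuousLinearMap.fst ℝ ℝ ℝ) (s, t))).congr_fderiv ?_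
    ext <;> simp
  · have hc : Continuous fun y => -∫ u in (0 : ℝ)..y, f u :=
      continuous_iff_continuousAt.2 fun x => (hd x).continuousAt
    exact (hc.comp continuous_fst).continuousOn
  · simp only [intervalIntegral.integral_same, neg_zero, neg_nonpos]
    rw [intervalIntegral.integral_congr fun u hu => he u (uIcc_of_le (α := ℝ) zero_le_one ▸ hu)]
    exact hmean

/-- A lower bound of nonnegative mean in place of the sign gives a field. -/
theorem flatField_of_mean {gam nu kap ell top : ℝ} {F Fs Ft : ℝ → ℝ → ℝ} {ω ψ : ℝ → ℝ}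
    {D : ℝ → ℝ → ℝ → ℝ → ℝ → ℝ} (hF : AxTest F Fs Ft) (hω : Continuous ω)
    (hwt : (∫ s in (0 : ℝ)..1, arc s ^ (p + 1) * ω s) = half (p + 1)) (hD : Lift.NullField p D)
    (hψ : ContinuousOn (fun s => arc s ^ (p + 1) * ψ s) (Icc 0 1))
    (hmean : 0 ≤ ∫ s in (0 : ℝ)..1, arc s ^ (p + 1) * ψ s)
    (hpos : ∀ s t a r q : ℝ, FlatState p top s t a r q →
      a ^ (p + 1) * ψ s ≤ flatPart p gam nu kap ell F Fs Ft ω s t a r + D s t a r q) :
    FlatField p gam nu kap ell top := by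
  refine ⟨F, Fs, Ft, ω, _, hF, hω, hwt, hD.add (nullField_mean hψ hmean), fun s t a r q h => ?_⟩
  have e : arc s ^ (p + 1) * ψ s * r = a ^ (p + 1) * ψ s := by
    have := pow_ne_zero (p + 1) h.state.arc_pos'.ne'
    rw [h.state.rate_eq]
    field_simp
  linarith [hpos s t a r q h]

/-- The potential `arc s ^ (p + 1) * Q (s, t)` gives a null field. -/
theorem nullField_pot {Q Qs Qt : ℝ → ℝ → ℝ} (hQ : Pot Q Qs Qt) (hQ0 : 0 ≤ Q 0 0) :
    Lift.NullField p fun s t _ r _ =>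
      arc s ^ (p + 1) * (Qs s t - ((p : ℝ) + 1) * s / (1 - s ^ 2) * Q s t) * r +
        arc s ^ (p + 1) * Qt s t := by
  refine nullField_pair (Φ := fun s t => arc s ^ (p + 1) * Q s t) (fun s hs t ht => ?_) ?_ ?_
  · have h1 : HasFDerivAt (fun x : ℝ × ℝ => arc x.1 ^ (p + 1))
        ((-(((p : ℝ) + 1) * s / (1 - s ^ 2)) * arc s ^ (p + 1)) •
          ContinuousLinearMap.fst ℝ ℝ ℝ) (s, t) :=
      HasDerivAt.comp_hasFDerivAt (f := fun x : ℝ × ℝ => x.1) (s, t)
        (hasDerivAt_arc_pow p (s := s) ⟨by linarith [hs.1], hs.2⟩)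
        (hasFDerivAt_fst : HasFDerivAt (fun x : ℝ × ℝ => x.1)
          (ContinuousLinearMap.fst ℝ ℝ ℝ) (s, t))
    refine (h1.mul (hQ.deriv s hs t ht)).congr_fderiv ?_
    ext <;> simp <;> ring
  · exact ((continuous_arc.comp continuous_fst).pow _).continuousOn.mul hQ.cont
  · have : arc 1 ^ (p + 1) = 0 := by simp [arc]
    simp only [this, zero_mul]
    exact mul_nonneg (pow_nonneg (Real.sqrt_nonneg _) _) hQ0

/-- The same per unit of mass, with the potential `arc s ^ (p + 1) * Q (s, t)`. -/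
theorem flatField_of_point_mean {gam nu kap ell top : ℝ} {F Fs Ft : ℝ → ℝ → ℝ} {ω ψ : ℝ → ℝ}
    {Q Qs Qt : ℝ → ℝ → ℝ} (hF : AxTest F Fs Ft) (hω : Continuous ω)
    (hwt : (∫ s in (0 : ℝ)..1, arc s ^ (p + 1) * ω s) = half (p + 1))
    (hQ : Pot Q Qs Qt) (hQ0 : 0 ≤ Q 0 0)
    (hψ : ContinuousOn (fun s => arc s ^ (p + 1) * ψ s) (Icc 0 1))
    (hmean : 0 ≤ ∫ s in (0 : ℝ)..1, arc s ^ (p + 1) * ψ s)
    (hpos : ∀ s t a r q : ℝ, FlatState p top s t a r q →
      ψ s ≤ perMass p gam nu kap ell F Fs Ft ω Q Qs Qt s t a r) :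
    FlatField p gam nu kap ell top := by
  refine flatField_of_mean hF hω hwt (nullField_pot hQ hQ0) hψ hmean fun s t a r q h => ?_
  rw [flatPart_add_null h.state]
  exact mul_le_mul_of_nonneg_left (hpos s t a r q h) (pow_nonneg h.state.pos.le _)

/-- The exact form of the stationary multipliers above a function of nonnegative mean. -/
theorem corBound_of_sExpr_mean (hp : 4 ≤ p) (c : ℝ) {ell : ℝ} {β β' ψ : ℝ → ℝ}
    (hβ : ∀ s ∈ Ioo (0 : ℝ) 1, HasDerivAt β (β' s) s)
    (hc : ContinuousOn (fun s => arc s ^ (p + 1) * β s) (Icc 0 1))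
    (hψ : ContinuousOn (fun s => arc s ^ (p + 1) * ψ s) (Icc 0 1))
    (hmean : 0 ≤ ∫ s in (0 : ℝ)..1, arc s ^ (p + 1) * ψ s)
    (hpos : ∀ s t a r q : ℝ, FlatState p ell s t a r q → ψ s ≤ sExpr p c ell β β' s t a r) :
    CorBound p ((p : ℝ) + 1) (nuS p) (Ident.muMin p) ell (obsCut p ell) := by
  have hp1 : 1 ≤ p := by omega
  refine corBound_of_flat (top := ell) (nuS_nonneg hp) le_rfl
    (flatField_of_mean (ω := fun _ => 1) (axTest_affine c) continuous_const
      (by simp only [mul_one]; rfl)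
      (nullField_linNull hp1 c ell hβ hc) hψ hmean fun s t a r q h => ?_)
  rw [flatPart_add_linNull hp1 c ell β β' h.state]
  exact mul_le_mul_of_nonneg_left (hpos s t a r q h) (pow_nonneg h.state.pos.le _)

/-- The bounds of the small regime from lower bounds of nonnegative mean. -/
theorem smallBounds_of_sExpr_mean (hp : 4 ≤ p) {ell₁ : ℝ}
    (h : ∀ ell ∈ Icc (0 : ℝ) ell₁, ∃ (c : ℝ) (β β' ψ : ℝ → ℝ),
      (∀ s ∈ Ioo (0 : ℝ) 1, HasDerivAt β (β' s) s) ∧
      ContinuousOn (fun s => arc s ^ (p + 1) * β s) (Icc 0 1) ∧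
      ContinuousOn (fun s => arc s ^ (p + 1) * ψ s) (Icc 0 1) ∧
      0 ≤ ∫ s in (0 : ℝ)..1, arc s ^ (p + 1) * ψ s ∧
      ∀ s t a r q : ℝ, FlatState p ell s t a r q → ψ s ≤ sExpr p c ell β β' s t a r) :
    SmallBounds p ell₁ := fun ell hl => by
  obtain ⟨c, β, β', ψ, hβ, hc, hψ, hmean, hpos⟩ := h ell hl
  exact ⟨_, _, _, ell, by positivity, nuS_nonneg hp, Lift.muMin_pos (by omega), le_rfl,
    corBound_of_sExpr_mean hp c hβ hc hψ hmean hpos⟩

end Vale.Agent.P237.Petty.Cor
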