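import Vale.Agent.P237.Petty.Lift.Main

/-!
# P237: a bound of the axial Fisher excess without the slope

For a test `φ (t) = F (σ t, t)` of class `C¹` with `F (0, 0) = 0` the axial Fisher term is at least
the mean of `2 (1 - t φ) φ' - (p + 2) φ ^ 2`: the difference is a square in the slope up to the
derivative of `g ^ (p + 1) * (2 φ - t φ ^ 2)`, whose increase is at most the face.
-/

namespace Vale.Agent.P237.Petty.Cor

open MeasureTheory Set intervalIntegral
open Ident (half rate)

variable {p : ℕ} {g σ : ℝ → ℝ}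

/-- A test on the pair of abscissae. -/
structure AxTest (F Fs Ft : ℝ → ℝ → ℝ) : Prop where
  deriv : ∀ s t : ℝ, HasFDerivAt (fun x : ℝ × ℝ => F x.1 x.2)
    (Fs s t • ContinuousLinearMap.fst ℝ ℝ ℝ + Ft s t • ContinuousLinearMap.snd ℝ ℝ ℝ) (s, t)
  cont_fst : Continuous fun x : ℝ × ℝ => Fs x.1 x.2
  cont_snd : Continuous fun x : ℝ × ℝ => Ft x.1 x.2
  origin : F 0 0 = 0

theorem AxTest.continuous {F Fs Ft : ℝ → ℝ → ℝ} (h : AxTest F Fs Ft) :
    Continuous fun x : ℝ × ℝ => F x.1 x.2 :=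
  continuous_iff_continuousAt.2 fun x => (h.deriv x.1 x.2).continuousAt

/-- The affine test `s + c * (s - t)`. -/
theorem axTest_affine (c : ℝ) :
    AxTest (fun s t => s + c * (s - t)) (fun _ _ => 1 + c) fun _ _ => -c where
  deriv s t := by
    refine (hasFDerivAt_fst.add ((hasFDerivAt_fst.sub hasFDerivAt_snd).const_mul c)).congr_fderiv ?_
    ext <;> simp
  cont_fst := continuous_const
  cont_snd := continuous_const
  origin := by ring

/-- The integrand of the bound. -/
def fisherTest (p : ℕ) (F Fs Ft : ℝ → ℝ → ℝ) (s t r : ℝ) : ℝ :=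
  2 * (1 - t * F s t) * (Fs s t * r + Ft s t) - ((p : ℝ) + 2) * F s t ^ 2 - 1

/-- The bound of the Fisher excess by the test. -/
theorem fisher_ge {F Fs Ft : ℝ → ℝ → ℝ} (hF : AxTest F Fs Ft) (hg : Regular g)
    (hσ : Transport p g σ) :
    IntervalIntegrable (fun t => g t ^ (p + 1) * fisherTest p F Fs Ft (σ t) t (rate p g σ t))
        volume 0 1 ∧
      ∫ t in (0 : ℝ)..1, g t ^ (p + 1) * fisherTest p F Fs Ft (σ t) t (rate p g σ t) ≤
        half (p + 1) * Lift.jExc p g := by
  have hu : uIcc (0 : ℝ) 1 = Icc 0 1 := uIcc_of_le zero_le_one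
  have hsub : uIcc (0 : ℝ) 1 ⊆ uIcc (-1 : ℝ) 1 := by
    rw [hu, uIcc_of_le (by norm_num)]
    exact Icc_subset_Icc (by norm_num) le_rfl
  have hgc := Lift.continuousOn_profile hg
  have hpair : ContinuousOn (fun t => (σ t, t)) (Icc (0 : ℝ) 1) := hσ.cont.prodMk continuousOn_id
  set φ := fun t => F (σ t) t with hφ
  have hφc : ContinuousOn φ (Icc 0 1) := hF.continuous.comp_continuousOn hpair
  have hsc : ContinuousOn (fun t => Fs (σ t) t) (Icc 0 1) := hF.cont_fst.comp_continuousOn hpair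
  have htc : ContinuousOn (fun t => Ft (σ t) t) (Icc 0 1) := hF.cont_snd.comp_continuousOn hpair
  have iq : IntervalIntegrable (slopeR g) volume 0 1 := hg.integrable_slopeR.mono_set hsub
  set T := fun t => g t ^ (p + 1) * fisherTest p F Fs Ft (σ t) t (rate p g σ t) with hT
  have hTi : IntervalIntegrable T volume 0 1 := by
    have c₁ : ContinuousOn (fun t => g t ^ (p + 1) * (2 * (1 - t * φ t) * Fs (σ t) t))
        (uIcc 0 1) := by
      rw [hu]
      exact (hgc.pow _).mul
        ((continuousOn_const.mul (continuousOn_const.sub (continuousOn_id.mul hφc))).mul hsc)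
    have c₂ : ContinuousOn (fun t => g t ^ (p + 1) *
        (2 * (1 - t * φ t) * Ft (σ t) t - ((p : ℝ) + 2) * φ t ^ 2 - 1)) (uIcc 0 1) := by
      rw [hu]
      exact (hgc.pow _).mul
        ((((continuousOn_const.mul (continuousOn_const.sub (continuousOn_id.mul hφc))).mul htc).sub
          (continuousOn_const.mul (hφc.pow 2))).sub continuousOn_const)
    refine (((hσ.integrable_rate hg).continuousOn_mul c₁).add c₂.intervalIntegrable).congr ?_
    intro t _
    simp only [hT, fisherTest, rate, hφ]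
    ring
  refine ⟨hTi, ?_⟩
  have iQ : IntervalIntegrable (fun t => g t ^ p * slopeR g t ^ 2 / icept g t) volume 0 1 :=
    (Ident.integrable_jInt hg p).mono_set hsub
  set Ψ := fun t => g t ^ (p + 1) * (2 * φ t - t * φ t ^ 2) with hΨ
  set Ψ' := fun t => T t + g t ^ (p + 1) * (1 + ((p : ℝ) + 1) * φ t ^ 2) +
    ((p : ℝ) + 1) * g t ^ p * (2 * φ t - t * φ t ^ 2) * slopeR g t with hΨ'
  have hi' : IntervalIntegrable Ψ' volume 0 1 := by
    have c₁ : ContinuousOn (fun t => g t ^ (p + 1) * (1 + ((p : ℝ) + 1) * φ t ^ 2)) (uIcc 0 1) := by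
      rw [hu]
      exact (hgc.pow _).mul (continuousOn_const.add (continuousOn_const.mul (hφc.pow 2)))
    have c₂ : ContinuousOn (fun t => ((p : ℝ) + 1) * g t ^ p * (2 * φ t - t * φ t ^ 2))
        (uIcc 0 1) := by
      rw [hu]
      exact (continuousOn_const.mul (hgc.pow p)).mul
        ((continuousOn_const.mul hφc).sub (continuousOn_id.mul (hφc.pow 2)))
    exact (hTi.add c₁.intervalIntegrable).add (iq.continuousOn_mul c₂)
  have hd : ∀ t ∈ Ioo (0 : ℝ) 1, HasDerivWithinAt Ψ (Ψ' t) (Ioi t) t := fun t ht => by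
    have h1 : HasDerivWithinAt (fun u => (σ u, u)) (rate p g σ t, 1) (Ioi t) t :=
      (hσ.deriv t ht).hasDerivWithinAt.prodMk (hasDerivWithinAt_id t _)
    have hφd : HasDerivWithinAt φ (Fs (σ t) t * rate p g σ t + Ft (σ t) t) (Ioi t) t := by
      refine (HasFDerivAt.comp_hasDerivWithinAt (f := fun u => (σ u, u))
        (l := fun x : ℝ × ℝ => F x.1 x.2) t (hF.deriv (σ t) t) h1).congr_deriv ?_
      simp
    have hgd := (hasDerivWithinAt_slopeR hg.concave
      (⟨by linarith [ht.1], ht.2⟩ : t ∈ Ioo (-1 : ℝ) 1)).fun_pow (p + 1)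
    refine (hgd.mul ((hφd.const_mul 2).sub
      ((hasDerivWithinAt_id t _).mul (hφd.fun_pow 2)))).congr_deriv ?_
    simp only [hΨ', hT, fisherTest, hφ, id, Pi.mul_apply, Pi.sub_apply, Nat.add_sub_cancel]
    push_cast
    ring
  have hint := intervalIntegral.integral_eq_sub_of_hasDeriv_right_of_le zero_le_one
    (show ContinuousOn Ψ (Icc 0 1) from (hgc.pow _).mul
      ((continuousOn_const.mul hφc).sub (continuousOn_id.mul (hφc.pow 2)))) hd hi'
  set R := fun t => ((p : ℝ) + 1) * (g t ^ p * slopeR g t ^ 2 / icept g t) - g t ^ (p + 1) + Ψ' t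
    with hR
  have hm : IntervalIntegrable (fun t => g t ^ (p + 1)) volume 0 1 :=
    (hgc.pow _).intervalIntegrable_of_Icc zero_le_one
  have hRi : IntervalIntegrable R volume 0 1 := ((iQ.const_mul _).sub hm).add hi'
  have hle : ∫ t in (0 : ℝ)..1, T t ≤ ∫ t in (0 : ℝ)..1, R t := by
    refine intervalIntegral.integral_mono_on_of_le_Ioo zero_le_one hTi hRi fun t ht => ?_
    have hD : 0 < icept g t := hg.icept_pos ⟨by linarith [ht.1], ht.2⟩
    have hgp := hg.pos_of_lt (t := t) ⟨ht.1.le, ht.2⟩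
    have key : 0 ≤ ((p : ℝ) + 1) * g t ^ p *
        ((slopeR g t + φ t * icept g t) ^ 2 / icept g t) := by positivity
    have e : R t - T t = ((p : ℝ) + 1) * g t ^ p *
        ((slopeR g t + φ t * icept g t) ^ 2 / icept g t) := by
      simp only [hR, hΨ']
      field_simp
      rw [icept]
      ring
    linarith
  have hends : Ψ 1 - Ψ 0 ≤ g 1 ^ (p + 1) := by
    have h0 : Ψ 0 = 0 := by simp [hΨ, hφ, hσ.zero, hF.origin]
    have h1 := mul_le_mul_of_nonneg_left
      (show 2 * φ 1 - 1 * φ 1 ^ 2 ≤ 1 by nlinarith [sq_nonneg (φ 1 - 1)])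
      (pow_nonneg (hg.nonneg 1 (by norm_num)) (p + 1))
    rw [h0, sub_zero, hΨ]
    linarith
  have hJ : half (p + 1) * Lift.jExc p g =
      (((p : ℝ) + 1) * ∫ t in (0 : ℝ)..1, g t ^ p * slopeR g t ^ 2 / icept g t) +
        g 1 ^ (p + 1) - half (p + 1) := by
    rw [Lift.jExc_eq hg p]
    field_simp [(Ident.half_pos (p + 1)).ne']
  have hRe : ∫ t in (0 : ℝ)..1, R t =
      (((p : ℝ) + 1) * ∫ t in (0 : ℝ)..1, g t ^ p * slopeR g t ^ 2 / icept g t) -
        half (p + 1) + (Ψ 1 - Ψ 0) := by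
    rw [hR, intervalIntegral.integral_add ((iQ.const_mul _).sub hm) hi',
      intervalIntegral.integral_sub (iQ.const_mul _) hm, intervalIntegral.integral_const_mul,
      Lift.integral_mass hσ, hint]
  linarith

end Vale.Agent.P237.Petty.Cor
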