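import Vale.Agent.P237.Petty.Cor.Criterion
import Vale.Agent.P237.Petty.Cor.Fisher
import Vale.Agent.P237.Petty.Cor.Concave

/-!
# P237: the bound of the correlation excess from a field without slope

The axial Fisher excess is replaced by its bound with a test `F (σ, t)`, so the integrand depends
only on the two abscissae and the value of the profile. The states are pinned by the cut: the
masses of the circle on either side of `t` are at most `exp ell` times those on either side of
`σ`, and the section is logarithmically concave below its lower bound `topLog` at the centre and below the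
scaled circle before `t`. A
field for large logarithm of the relative volume, with any bound for the small values, gives
the step in dimension `p + 2`.
-/

namespace Vale.Agent.P237.Petty.Cor

open MeasureTheory Set intervalIntegral
open Ident (half rate)

universe u

variable {p : ℕ} {g σ : ℝ → ℝ}

/-- The states above the scaled circle. -/
structure FlatState (p : ℕ) (ell s t a r q : ℝ) : Prop where
  state : Lift.LiftState p s t a r q
  cut : arc t ^ (p + 1) ≤ Real.exp ell * a ^ (p + 1)
  low : Lift.circLow p t ≤ Real.exp ell * Lift.circLow p s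
  high : Lift.circHigh p t ≤ Real.exp ell * Lift.circHigh p s
  tail : (topLog p ell - Real.log (a ^ (p + 1))) * Lift.circHigh p s ≤ t * a ^ (p + 1)
  head : 0 < topLog p ell - Real.log (a ^ (p + 1)) →
    t * a ^ (p + 1) * (Real.exp (topLog p ell - Real.log (a ^ (p + 1))) - 1) ≤
      (topLog p ell - Real.log (a ^ (p + 1))) * Lift.circLow p s
  chord : ∀ u ∈ Ico (0 : ℝ) t,
    (t - u) * a ^ (p + 1) *
        expMean (Real.log (arc u ^ (p + 1)) - ell - Real.log (a ^ (p + 1))) ≤
      Lift.circLow p s - Real.exp (-ell) * Lift.circLow p u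
  tailChord : ∀ u ∈ Ico (0 : ℝ) t,
    (Real.log (arc u ^ (p + 1)) - ell - Real.log (a ^ (p + 1))) * Lift.circHigh p s ≤
      (t - u) * a ^ (p + 1)
  hullHigh : ∀ u ∈ Ioc t 1,
    (u - t) * linMean p a (Real.exp (-ell / ((p : ℝ) + 1)) * arc u) +
        Real.exp (-ell) * Lift.circHigh p u ≤ Lift.circHigh p s
  hullLow : ∀ u ∈ Ico (0 : ℝ) t,
    (t - u) * linMean p (Real.exp (-ell / ((p : ℝ) + 1)) * arc u) a +
        Real.exp (-ell) * Lift.circLow p u ≤ Lift.circLow p s

/-- The cut, in the speed of the transport. -/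
theorem FlatState.cut_rate {ell s t a r q : ℝ} (h : FlatState p ell s t a r q) :
    arc t ^ (p + 1) ≤ Real.exp ell * (r * arc s ^ (p + 1)) := by
  rw [h.state.rate_eq, div_mul_cancel₀ _ (pow_pos h.state.arc_pos' _).ne']
  exact h.cut

/-- The chord, with the geometric mean of its two ends. -/
theorem FlatState.chord_geo {ell s t a r q : ℝ} (h : FlatState p ell s t a r q) {u : ℝ}
    (hu : u ∈ Ico (0 : ℝ) t) :
    (t - u) * a ^ (p + 1) *
        Real.exp ((Real.log (arc u ^ (p + 1)) - ell - Real.log (a ^ (p + 1))) / 2) ≤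
      Lift.circLow p s - Real.exp (-ell) * Lift.circLow p u :=
  le_trans (mul_le_mul_of_nonneg_left (exp_half_le_expMean _)
    (mul_nonneg (sub_nonneg.2 hu.2.le) (pow_nonneg h.state.pos.le _))) (h.chord u hu)

/-- The data of a profile above the scaled circle are such a state. -/
theorem flatState_profile (hg : Regular g) (hσ : Transport p g σ) {ell : ℝ}
    (hcut : ∀ t ∈ Ioo (0 : ℝ) 1, obsCut p ell t (g t)) {t : ℝ} (ht : t ∈ Ioo (0 : ℝ) 1) :
    FlatState p ell (σ t) t (g t) (rate p g σ t) (slopeR g t) := by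
  have hgc := (Lift.continuousOn_profile hg).pow (p + 1)
  have hc : Continuous fun u => arc u ^ (p + 1) := continuous_arc.pow _
  obtain ⟨h1, h2⟩ := Lift.mass_split hg hσ (Ioo_subset_Icc_self ht)
  refine ⟨Lift.liftState_profile hg hσ ht, hcut t ht, ?_, ?_,
    tail_log hg hσ ht (topLog_le hg hσ hcut), head_log hg hσ ht (topLog_le hg hσ hcut),
    fun u hu => chord_log hg hσ ht hu hcut, fun u hu => tail_base hg hσ ht ⟨hu.1, hu.2.le⟩
      (log_circle_le hg hσ ⟨hu.1, hu.2.trans ht.2⟩ hcut),
    fun u hu => hull_high hg hσ ht hu hcut, fun u hu => hull_low hg hσ ht hu hcut⟩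
  · rw [← h1, Lift.circLow, ← intervalIntegral.integral_const_mul]
    refine intervalIntegral.integral_mono_on_of_le_Ioo ht.1.le (hc.intervalIntegrable _ _)
      (((hgc.mono (Icc_subset_Icc le_rfl ht.2.le)).intervalIntegrable_of_Icc ht.1.le).const_mul _)
      fun u hu => hcut u ⟨hu.1, hu.2.trans ht.2⟩
  · rw [← h2, Lift.circHigh, ← intervalIntegral.integral_const_mul]
    refine intervalIntegral.integral_mono_on_of_le_Ioo ht.2.le (hc.intervalIntegrable _ _)
      (((hgc.mono (Icc_subset_Icc ht.1.le le_rfl)).intervalIntegrable_of_Icc ht.2.le).const_mul _)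
      fun u hu => hcut u ⟨ht.1.trans hu.1, hu.2⟩

/-- The integrand without slope: `gam` times the shadow, `nu` times the bound of the Fisher
excess, the gain `ell` with the weight `ω`, and the correlation. -/
noncomputable def flatPart (p : ℕ) (gam nu kap ell : ℝ) (F Fs Ft : ℝ → ℝ → ℝ) (ω : ℝ → ℝ)
    (s t a r : ℝ) : ℝ :=
  gam / ((p : ℝ) + 1) * Lift.aPart p s a + nu * (a ^ (p + 1) * fisherTest p F Fs Ft s t r) +
    kap * (ell / ((p : ℝ) + 2)) * (a ^ (p + 1) * ω s) -
    kap * (a ^ (p + 1) * (((p : ℝ) + 4) * (s * t) - 1))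

/-- A test, a weight of total mass that of the circle, and a null field that make the integrand
nonnegative on the states above the scaled circle of parameter `top`. -/
def FlatField (p : ℕ) (gam nu kap ell top : ℝ) : Prop :=
  ∃ (F Fs Ft : ℝ → ℝ → ℝ) (ω : ℝ → ℝ) (D : ℝ → ℝ → ℝ → ℝ → ℝ → ℝ),
    AxTest F Fs Ft ∧ Continuous ω ∧ (∫ s in (0 : ℝ)..1, arc s ^ (p + 1) * ω s) = half (p + 1) ∧
    Lift.NullField p D ∧ ∀ s t a r q : ℝ, FlatState p top s t a r q →
      0 ≤ flatPart p gam nu kap ell F Fs Ft ω s t a r + D s t a r q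

/-- A larger `top` leaves fewer constraints: the field bounds every smaller cut. -/
theorem corBound_of_flat {gam nu kap ell top ell' : ℝ} (hnu : 0 ≤ nu) (htop : ell' ≤ top)
    (h : FlatField p gam nu kap ell top) : CorBound p gam nu kap ell (obsCut p ell') := by
  intro g σ hg hσ hcut
  obtain ⟨F, Fs, Ft, ω, D, hF, hω, hmean, hD, hpos⟩ := h
  obtain ⟨ψ, hψc, hends, hψd⟩ := hD g σ hg hσ
  obtain ⟨hFi, hFle⟩ := fisher_ge hF hg hσ
  obtain ⟨hai, ha⟩ := Lift.integral_aPart hg hσ
  obtain ⟨hI, -⟩ := young_average hg hσ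
  have hgc := (Lift.continuousOn_profile hg).pow (p + 1)
  have hm : IntervalIntegrable (fun t => g t ^ (p + 1)) volume 0 1 :=
    hgc.intervalIntegrable_of_Icc zero_le_one
  have hwi : IntervalIntegrable (fun t => g t ^ (p + 1) * ω (σ t)) volume 0 1 :=
    (hgc.mul (hω.comp_continuousOn hσ.cont)).intervalIntegrable_of_Icc zero_le_one
  have hw : ∫ t in (0 : ℝ)..1, g t ^ (p + 1) * ω (σ t) = half (p + 1) := by
    rw [← hmean, ← hσ.integral_rate_mul hg (φ := fun s => arc s ^ (p + 1) * ω s)
      ((continuous_arc.pow _).mul hω)]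
    refine intervalIntegral.integral_congr_ae ?_
    filter_upwards [Measure.ae_ne volume (1 : ℝ)] with t h1 ht
    rw [uIoc_of_le zero_le_one] at ht
    have hs := hσ.mem_Ioo t ⟨ht.1, lt_of_le_of_ne ht.2 h1⟩
    have hc : 0 < arc (σ t) := arc_pos ⟨by linarith [hs.1], hs.2⟩
    field_simp
  have hei : IntervalIntegrable
      (fun t => g t ^ (p + 1) * (((p : ℝ) + 4) * (σ t * t) - 1)) volume 0 1 := by
    refine ((hI.const_mul ((p : ℝ) + 4)).sub hm).congr ?_
    intro t _
    ring
  have hB := Ident.half_pos (p + 1)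
  have he : ∫ t in (0 : ℝ)..1, g t ^ (p + 1) * (((p : ℝ) + 4) * (σ t * t) - 1) =
      half (p + 1) * corExc p g σ := by
    rw [corExc, mul_sub, mul_div_cancel₀ _ hB.ne', mul_one,
      ← intervalIntegral.integral_const_mul]
    conv_rhs => arg 2; rw [← Lift.integral_mass hσ]
    rw [← intervalIntegral.integral_sub (hI.const_mul _) hm]
    exact intervalIntegral.integral_congr fun t _ => by ring
  have hPi := (((hai.const_mul (gam / ((p : ℝ) + 1))).add (hFi.const_mul nu)).add
    (hwi.const_mul (kap * (ell / ((p : ℝ) + 2))))).sub (hei.const_mul kap)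
  have hkey := intervalIntegral.sub_le_integral_of_hasDeriv_right_of_le zero_le_one hψc.neg
    (fun t ht => (hψd t ht).neg)
    ((intervalIntegrable_iff_integrableOn_Icc_of_le zero_le_one).1 hPi) fun t ht => by
      have := hpos _ _ _ _ _ (flatState_profile hg hσ (fun u hu =>
        (hcut u hu).trans (mul_le_mul_of_nonneg_right (Real.exp_le_exp.2 htop)
          (pow_nonneg (hg.nonneg u ⟨by linarith [hu.1], hu.2.le⟩) _))) ht)
      simp only [flatPart] at this
      linarith
  rw [intervalIntegral.integral_sub (((hai.const_mul _).add (hFi.const_mul nu)).add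
      (hwi.const_mul _)) (hei.const_mul kap),
    intervalIntegral.integral_add ((hai.const_mul _).add (hFi.const_mul nu)) (hwi.const_mul _),
    intervalIntegral.integral_add (hai.const_mul _) (hFi.const_mul nu),
    intervalIntegral.integral_const_mul, intervalIntegral.integral_const_mul,
    intervalIntegral.integral_const_mul, intervalIntegral.integral_const_mul, ha, hw, he] at hkey
  simp only [Pi.neg_apply] at hkey
  have hFle' := mul_le_mul_of_nonneg_left hFle hnu
  have e : gam / ((p : ℝ) + 1) * (half (p + 1) * (((p : ℝ) + 1) * Lift.aExc p g)) =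
      half (p + 1) * (gam * Lift.aExc p g) := by
    field_simp
  have h2 : 0 ≤ gam * Lift.aExc p g + nu * Lift.jExc p g + kap * (ell / ((p : ℝ) + 2)) -
      kap * corExc p g σ := nonneg_of_mul_nonneg_right (by linarith) hB
  linarith

/-- Above `ell₁` fields without slope, their gain not above and their cut not below the logarithm
of the relative volume. -/
def PointwiseR (p : ℕ) (ell₁ : ℝ) : Prop :=
  ∀ ell : ℝ, ell₁ ≤ ell → ∃ gam nu kap ell₀ top : ℝ,
    0 < gam ∧ 0 ≤ nu ∧ 0 < kap ∧ ell₀ ≤ ell ∧ ell ≤ top ∧ FlatField p gam nu kap ell₀ top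

/-- Bounds up to `ell₁`. -/
def SmallBounds (p : ℕ) (ell₁ : ℝ) : Prop :=
  ∀ ell ∈ Icc (0 : ℝ) ell₁, ∃ gam nu kap ell₀ : ℝ, 0 < gam ∧ 0 ≤ nu ∧ 0 < kap ∧ ell₀ ≤ ell ∧
    CorBound p gam nu kap ell₀ (obsCut p ell)

theorem corBounds_of_regimes {ell₁ : ℝ} (hR : PointwiseR p ell₁) (hS : SmallBounds p ell₁) :
    CorBounds p := fun ell hl => by
  rcases le_total ell ell₁ with h | h
  · exact hS ell ⟨hl, h⟩
  · obtain ⟨gam, nu, kap, ell₀, top, hgam, hnu, hk, h0, htop, hF⟩ := hR ell h
    exact ⟨gam, nu, kap, ell₀, hgam, hnu, hk, h0, corBound_of_flat hnu htop hF⟩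

/-- The two regimes give the criterion in John position. -/
theorem criterion_of_regimes {ell₁ : ℝ} (hR : PointwiseR p ell₁) (hS : SmallBounds p ell₁) :
    ProfileCriterion p :=
  criterion_of_corBounds (corBounds_of_regimes hR hS)

/-- The two regimes in every order from four on give the inequality in every dimension, with its
cases of equality. -/
theorem petty_of_regimes (hB : ∀ p, 4 ≤ p → ∃ ell₁, PointwiseR p ell₁ ∧ SmallBounds p ell₁)
    {n : ℕ} (hn : 3 ≤ n) {E : Type} [NormedAddCommGroup E] [InnerProductSpace ℝ E]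
    [FiniteDimensional ℝ E] [MeasurableSpace E] [BorelSpace E] (hfin : Module.finrank ℝ E = n)
    {K : Set E} (hK : Body K) :
    cPetty n * volume.real K ^ (n - 1) ≤ volume.real (projBody K) ∧
      (volume.real (projBody K) = cPetty n * volume.real K ^ (n - 1) ↔
        ∃ (T : E ≃L[ℝ] E) (a : E), K = (fun x => a + x) '' (T '' Metric.closedBall 0 1)) :=
  petty_of_corBounds (fun p hp => by
    obtain ⟨ell₁, hR, hS⟩ := hB p hp
    exact corBounds_of_regimes hR hS) hn hfin hK

/-- A potential of the two abscissae that vanishes at both ends gives a null field. -/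
theorem nullField_pair {Φ Φs Φt : ℝ → ℝ → ℝ}
    (hd : ∀ s ∈ Ioo (0 : ℝ) 1, ∀ t ∈ Ioo (0 : ℝ) 1, HasFDerivAt (fun x : ℝ × ℝ => Φ x.1 x.2)
      (Φs s t • ContinuousLinearMap.fst ℝ ℝ ℝ + Φt s t • ContinuousLinearMap.snd ℝ ℝ ℝ) (s, t))
    (hc : ContinuousOn (fun x : ℝ × ℝ => Φ x.1 x.2) (Icc 0 1 ×ˢ Icc 0 1))
    (hends : Φ 1 1 ≤ Φ 0 0) :
    Lift.NullField p fun s t _ r _ => Φs s t * r + Φt s t := fun g σ hg hσ => by
  refine ⟨fun t => Φ (σ t) t, hc.comp (hσ.cont.prodMk continuousOn_id) fun t ht =>
    ⟨hσ.mem t ht, ht⟩, by simpa [hσ.one, hσ.zero] using hends, fun t ht => ?_⟩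
  have h1 : HasDerivWithinAt (fun u => (σ u, u)) (rate p g σ t, 1) (Ioi t) t :=
    (hσ.deriv t ht).hasDerivWithinAt.prodMk (hasDerivWithinAt_id t _)
  refine (HasFDerivAt.comp_hasDerivWithinAt (f := fun u => (σ u, u))
    (l := fun x : ℝ × ℝ => Φ x.1 x.2) t (hd _ (hσ.mem_Ioo t ht) t ht) h1).congr_deriv ?_
  simp

end Vale.Agent.P237.Petty.Cor
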