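import Vale.Agent.P237.Petty.Cor.Flat

/-!
# P237: the field without slope, per unit of mass

With the null potential `arc s ^ (p + 1) * Q (s, t)` the integrand is the mass `a ^ (p + 1)` times
an expression in the two abscissae and the speed of the transport. Its sign on the states is the
pointwise statement; one for every value of the logarithm of the relative volume gives the step.
-/

namespace Vale.Agent.P237.Petty.Cor

open MeasureTheory Set intervalIntegral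
open Ident (half rate)

universe u

variable {p : ℕ}

/-- The integrand per unit of mass. -/
noncomputable def perMass (p : ℕ) (gam nu kap ell : ℝ) (F Fs Ft : ℝ → ℝ → ℝ) (ω : ℝ → ℝ)
    (Q Qs Qt : ℝ → ℝ → ℝ) (s t a r : ℝ) : ℝ :=
  gam * Ident.b0 p * (1 / a - 1 / arc s) + nu * fisherTest p F Fs Ft s t r +
    kap * (ell / ((p : ℝ) + 2)) * ω s - kap * (((p : ℝ) + 4) * (s * t) - 1) +
    (Qs s t - ((p : ℝ) + 1) * s / (1 - s ^ 2) * Q s t) + Qt s t / r

theorem flatPart_add_null {gam nu kap ell : ℝ} {F Fs Ft : ℝ → ℝ → ℝ} {ω : ℝ → ℝ}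
    {Q Qs Qt : ℝ → ℝ → ℝ} {s t a r q : ℝ} (h : Lift.LiftState p s t a r q) :
    flatPart p gam nu kap ell F Fs Ft ω s t a r +
        (arc s ^ (p + 1) * (Qs s t - ((p : ℝ) + 1) * s / (1 - s ^ 2) * Q s t) * r +
          arc s ^ (p + 1) * Qt s t) =
      a ^ (p + 1) * perMass p gam nu kap ell F Fs Ft ω Q Qs Qt s t a r := by
  have hc := pow_pos h.arc_pos' (p + 1)
  have hr := h.rate_pos.ne'
  have e : r * arc s ^ (p + 1) = a ^ (p + 1) := by
    rw [h.rate_eq, div_mul_cancel₀ _ hc.ne']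
  have ha := h.pos.ne'
  have hs := h.arc_pos'.ne'
  have hA : gam / ((p : ℝ) + 1) * Lift.aPart p s a =
      a ^ (p + 1) * (gam * Ident.b0 p * (1 / a - 1 / arc s)) := by
    rw [Lift.aPart, pow_succ]
    field_simp
  have hT : arc s ^ (p + 1) * Qt s t = a ^ (p + 1) * (Qt s t / r) := by
    rw [← e]
    field_simp
  simp only [flatPart, perMass, hA, hT]
  rw [show arc s ^ (p + 1) * (Qs s t - ((p : ℝ) + 1) * s / (1 - s ^ 2) * Q s t) * r =
    r * arc s ^ (p + 1) * (Qs s t - ((p : ℝ) + 1) * s / (1 - s ^ 2) * Q s t) by ring, e]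
  ring

/-- The derivative of a power of the half circle, inside. -/
theorem hasDerivAt_arc_pow (p : ℕ) {s : ℝ} (hs : s ∈ Ioo (-1 : ℝ) 1) :
    HasDerivAt (fun x => arc x ^ (p + 1))
      (-(((p : ℝ) + 1) * s / (1 - s ^ 2)) * arc s ^ (p + 1)) s := by
  have h0 : 0 < 1 - s ^ 2 := by nlinarith [hs.1, hs.2]
  have hq : 0 < arc s := Real.sqrt_pos.2 h0
  have hd : HasDerivAt arc (-s / arc s) s := by
    refine (((hasDerivAt_pow 2 s).const_sub 1).sqrt h0.ne').congr_deriv ?_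
    simp only [arc]
    field_simp
    ring
  refine (hd.pow (p + 1)).congr_deriv ?_
  have h2 : arc s ^ 2 = 1 - s ^ 2 := Real.sq_sqrt h0.le
  rw [← h2, Nat.add_sub_cancel, pow_succ]
  push_cast
  field_simp
  ring

/-- A test, a weight and a potential with the sign per unit of mass give a field. -/
theorem flatField_of_point {gam nu kap ell top : ℝ} {F Fs Ft : ℝ → ℝ → ℝ} {ω : ℝ → ℝ}
    {Q Qs Qt : ℝ → ℝ → ℝ} (hF : AxTest F Fs Ft) (hω : Continuous ω)
    (hmean : (∫ s in (0 : ℝ)..1, arc s ^ (p + 1) * ω s) = half (p + 1))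
    (hQ : ∀ s ∈ Ioo (0 : ℝ) 1, ∀ t ∈ Ioo (0 : ℝ) 1, HasFDerivAt (fun x : ℝ × ℝ => Q x.1 x.2)
      (Qs s t • ContinuousLinearMap.fst ℝ ℝ ℝ + Qt s t • ContinuousLinearMap.snd ℝ ℝ ℝ) (s, t))
    (hQc : ContinuousOn (fun x : ℝ × ℝ => Q x.1 x.2) (Icc 0 1 ×ˢ Icc 0 1)) (hQ0 : 0 ≤ Q 0 0)
    (hpos : ∀ s t a r q : ℝ, FlatState p top s t a r q →
      0 ≤ perMass p gam nu kap ell F Fs Ft ω Q Qs Qt s t a r) :
    FlatField p gam nu kap ell top := by
  have hN : Lift.NullField p fun s t _ r _ =>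
      arc s ^ (p + 1) * (Qs s t - ((p : ℝ) + 1) * s / (1 - s ^ 2) * Q s t) * r +
        arc s ^ (p + 1) * Qt s t := by
    refine nullField_pair (Φ := fun s t => arc s ^ (p + 1) * Q s t) (fun s hs t ht => ?_) ?_ ?_
    · have h1 : HasFDerivAt (fun x : ℝ × ℝ => arc x.1 ^ (p + 1))
          ((-(((p : ℝ) + 1) * s / (1 - s ^ 2)) * arc s ^ (p + 1)) •
            ContinuousLinearMap.fst ℝ ℝ ℝ) (s, t) :=
        HasDerivAt.comp_hasFDerivAt (f := fun x : ℝ × ℝ => x.1) (s, t)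
          (hasDerivAt_arc_pow p (s := s) ⟨by linarith [hs.1], hs.2⟩)
          (hasFDerivAt_fst : HasFDerivAt (fun x : ℝ × ℝ => x.1)
            (ContinuousLinearMap.fst ℝ ℝ ℝ) (s, t))
      refine (h1.mul (hQ s hs t ht)).congr_fderiv ?_
      ext <;> simp <;> ring
    · exact ((continuous_arc.comp continuous_fst).pow _).continuousOn.mul hQc
    · have : arc 1 ^ (p + 1) = 0 := by simp [arc]
      simp only [this, zero_mul]
      exact mul_nonneg (pow_nonneg (Real.sqrt_nonneg _) _) hQ0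
  refine ⟨F, Fs, Ft, ω, _, hF, hω, hmean, hN, fun s t a r q h => ?_⟩
  rw [flatPart_add_null h.state]
  exact mul_nonneg (pow_nonneg h.state.pos.le _) (hpos s t a r q h)

/-- One pointwise statement for every value of the logarithm of the relative volume. -/
def PointwiseAll (p : ℕ) : Prop :=
  ∀ ell : ℝ, 0 ≤ ell → ∃ (gam nu kap ell₀ top : ℝ) (F Fs Ft : ℝ → ℝ → ℝ) (ω : ℝ → ℝ)
    (Q Qs Qt : ℝ → ℝ → ℝ), 0 < gam ∧ 0 ≤ nu ∧ 0 < kap ∧ ell₀ ≤ ell ∧ ell ≤ top ∧
    AxTest F Fs Ft ∧ Continuous ω ∧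
    (∫ s in (0 : ℝ)..1, arc s ^ (p + 1) * ω s) = half (p + 1) ∧
    (∀ s ∈ Ioo (0 : ℝ) 1, ∀ t ∈ Ioo (0 : ℝ) 1, HasFDerivAt (fun x : ℝ × ℝ => Q x.1 x.2)
      (Qs s t • ContinuousLinearMap.fst ℝ ℝ ℝ + Qt s t • ContinuousLinearMap.snd ℝ ℝ ℝ) (s, t)) ∧
    ContinuousOn (fun x : ℝ × ℝ => Q x.1 x.2) (Icc 0 1 ×ˢ Icc 0 1) ∧ 0 ≤ Q 0 0 ∧
    ∀ s t a r q : ℝ, FlatState p top s t a r q →
      0 ≤ perMass p gam nu kap ell₀ F Fs Ft ω Q Qs Qt s t a r

theorem pointwiseR_of_all (h : PointwiseAll p) : PointwiseR p 0 := fun ell hl => by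
  obtain ⟨gam, nu, kap, ell₀, top, F, Fs, Ft, ω, Q, Qs, Qt, hgam, hnu, hk, h0, htop, hF, hω,
    hmean, hQ, hQc, hQ0, hpos⟩ := h ell hl
  exact ⟨gam, nu, kap, ell₀, top, hgam, hnu, hk, h0, htop,
    flatField_of_point hF hω hmean hQ hQc hQ0 hpos⟩

theorem corBounds_of_all (h : PointwiseAll p) : CorBounds p := fun ell hl => by
  obtain ⟨gam, nu, kap, ell₀, top, hgam, hnu, hk, h0, htop, hF⟩ := pointwiseR_of_all h ell hl
  exact ⟨gam, nu, kap, ell₀, hgam, hnu, hk, h0, corBound_of_flat hnu htop hF⟩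

/-- The pointwise statements in every order from four on give the inequality in every dimension,
with its cases of equality. -/
theorem petty_of_pointwiseAll (h : ∀ p, 4 ≤ p → PointwiseAll p) {n : ℕ} (hn : 3 ≤ n) {E : Type}
    [NormedAddCommGroup E] [InnerProductSpace ℝ E] [FiniteDimensional ℝ E] [MeasurableSpace E]
    [BorelSpace E] (hfin : Module.finrank ℝ E = n) {K : Set E} (hK : Body K) :
    cPetty n * volume.real K ^ (n - 1) ≤ volume.real (projBody K) ∧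
      (volume.real (projBody K) = cPetty n * volume.real K ^ (n - 1) ↔
        ∃ (T : E ≃L[ℝ] E) (a : E), K = (fun x => a + x) '' (T '' Metric.closedBall 0 1)) :=
  petty_of_corBounds (fun p hp => corBounds_of_all (h p hp)) hn hfin hK

end Vale.Agent.P237.Petty.Cor
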