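import Vale.Agent.P237.Petty.Cor.Mills

/-!
# P237: the hazard bound of the states

The scaled circle at a base `u` before `t`, times the mass beyond `s`, is at most the value at `t`
times the mass of the circle less that of the scaled circle before `u`.
-/

namespace Vale.Agent.P237.Petty.Cor

open MeasureTheory Set intervalIntegral
open Ident (half rate)
open Lift (circLow circHigh)

variable {p : ℕ}

/-- The two masses make the half circle. -/
theorem circLow_add_circHigh (p : ℕ) (s : ℝ) : circLow p s + circHigh p s = half (p + 1) :=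
  intervalIntegral.integral_add_adjacent_intervals ((continuous_arc.pow _).intervalIntegrable _ _)
    ((continuous_arc.pow _).intervalIntegrable _ _)

/-- The hazard bound. -/
theorem FlatState.hazard {ell s t a r q : ℝ} (h : FlatState p ell s t a r q) {u : ℝ}
    (hu : u ∈ Ico (0 : ℝ) t) :
    Real.exp (-ell) * arc u ^ (p + 1) * circHigh p s ≤
      a ^ (p + 1) * (circHigh p u + (1 - Real.exp (-ell)) * circLow p u) := by
  have hh : 0 < a ^ (p + 1) := pow_pos h.state.pos _
  have hc : 0 < arc u ^ (p + 1) :=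
    pow_pos (arc_pos ⟨by linarith [hu.1], hu.2.trans h.state.t_mem.2⟩) _
  have htu : 0 < t - u := sub_pos.2 hu.2
  have hT : 0 ≤ circHigh p s :=
    intervalIntegral.integral_nonneg h.state.s_mem.2.le fun v _ => pow_nonneg (Real.sqrt_nonneg _) _
  have hR : circHigh p u + (1 - Real.exp (-ell)) * circLow p u =
      circHigh p s + (circLow p s - Real.exp (-ell) * circLow p u) := by
    linarith [circLow_add_circHigh p u, circLow_add_circHigh p s]
  set d := Real.log (arc u ^ (p + 1)) - ell - Real.log (a ^ (p + 1)) with hd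
  have he : Real.exp (-ell) * arc u ^ (p + 1) = a ^ (p + 1) * Real.exp d := by
    rw [hd, Real.exp_sub, Real.exp_sub, Real.exp_log hc, Real.exp_log hh, Real.exp_neg]
    field_simp
  have hchord := h.chord u hu
  rw [← hd] at hchord
  rw [hR, he]
  set E := circLow p s - Real.exp (-ell) * circLow p u
  have hm0 : 0 < expMean d := (Real.exp_pos _).trans_le (exp_half_le_expMean d)
  have hE : 0 ≤ E := le_trans (by positivity) hchord
  rw [mul_assoc]
  refine mul_le_mul_of_nonneg_left ?_ hh.le
  rcases le_or_gt d 0 with hd0 | hd0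
  · exact (mul_le_of_le_one_left hT (Real.exp_le_one_iff.2 hd0)).trans (le_add_of_nonneg_right hE)
  · have h1 := mul_le_mul_of_nonneg_right (h.tailChord u hu)
      (sub_nonneg.2 (Real.one_le_exp hd0.le))
    rw [← hd] at h1
    have h2 := mul_le_mul_of_nonneg_left hchord hd0.le
    rw [show d * ((t - u) * a ^ (p + 1) * expMean d) =
      (t - u) * a ^ (p + 1) * (d * expMean d) by ring, mul_expMean] at h2
    refine le_of_mul_le_mul_left ?_ hd0
    linarith

/-- The hazard bound on the speed of the transport. -/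
theorem FlatState.hazard_rate {ell s t a r q : ℝ} (h : FlatState p ell s t a r q) {u : ℝ}
    (hu : u ∈ Ico (0 : ℝ) t) :
    Real.exp (-ell) * arc u ^ (p + 1) * (1 - s ^ 2) ≤
      r * millsDen p s * (circHigh p u + (1 - Real.exp (-ell)) * circLow p u) := by
  have hs : s ∈ Icc (0 : ℝ) 1 := Ioo_subset_Icc_self h.state.s_mem
  have hm := pow_pos h.state.arc_pos' (p + 1)
  have hq := millsDen_pos (p := p) hs.1
  have h1 := mul_le_mul_of_nonneg_left ((div_le_iff₀ hq).1 (circHigh_ge (p := p) hs))
    (mul_nonneg (Real.exp_pos (-ell)).le (pow_nonneg (Real.sqrt_nonneg (1 - u ^ 2)) (p + 1)))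
  have h2 := mul_le_mul_of_nonneg_right (h.hazard hu) hq.le
  have hs2 : arc s ^ 2 = 1 - s ^ 2 := Real.sq_sqrt (by nlinarith [hs.1, hs.2])
  have e : a ^ (p + 1) = r * arc s ^ (p + 1) := by
    rw [h.state.rate_eq, div_mul_cancel₀ _ hm.ne']
  rw [show arc s ^ (p + 3) = arc s ^ (p + 1) * (1 - s ^ 2) by rw [← hs2]; ring,
    show √(1 - u ^ 2) = arc u from rfl] at h1
  rw [e] at h2
  refine le_of_mul_le_mul_left ?_ hm
  linarith

/-- The mass in the hazard bound is below elementary functions. -/
theorem hazardDen_le {ell u : ℝ} (h0 : 0 ≤ ell) (hu : u ∈ Icc (0 : ℝ) 1) :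
    ((p : ℝ) + 3) * u * (circHigh p u + (1 - Real.exp (-ell)) * circLow p u) ≤
      arc u ^ (p + 3) + ((p : ℝ) + 3) * u * (ell * u) := by
  have h1 := (circHigh_bounds (p := p) hu).2
  have h2 : 1 - Real.exp (-ell) ≤ ell := by linarith [Real.add_one_le_exp (-ell)]
  have h3 : (1 - Real.exp (-ell)) * circLow p u ≤ ell * u :=
    mul_le_mul h2 (circLow_le hu)
      (intervalIntegral.integral_nonneg hu.1 fun v _ => pow_nonneg (Real.sqrt_nonneg _) _) h0
  have h4 := mul_le_mul_of_nonneg_left h3 (mul_nonneg (show (0 : ℝ) ≤ (p : ℝ) + 3 by positivity) hu.1)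
  linarith

end Vale.Agent.P237.Petty.Cor
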