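import Vale.Agent.P237.Petty.Cor.Bounds

/-!
# P237: the mass of the circle above an abscissa, from below

`circHigh p s` is at least `arc s ^ (p + 3) / ((p + 3) s + √(p + 3))`. At the centre this bounds
`half (p + 1)` below, and on the states it bounds the reciprocal of the speed of the transport by
the room above `t` and by the logarithmic concavity below the value at the centre.
-/

namespace Vale.Agent.P237.Petty.Cor

open MeasureTheory Set intervalIntegral
open Ident (half rate)
open Lift (circLow circHigh)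

variable {p : ℕ}

/-- The denominator of the lower bound of the mass above `s`. -/
noncomputable def millsDen (p : ℕ) (s : ℝ) : ℝ := ((p : ℝ) + 3) * s + √((p : ℝ) + 3)

theorem millsDen_pos {s : ℝ} (hs : 0 ≤ s) : 0 < millsDen p s := by
  unfold millsDen
  positivity

/-- The mass above `s` is at least the power of the circle over `millsDen`. -/
theorem circHigh_ge {s : ℝ} (hs : s ∈ Icc (0 : ℝ) 1) :
    arc s ^ (p + 3) / millsDen p s ≤ circHigh p s := by
  have hc : Continuous fun u => arc u ^ (p + 1) := continuous_arc.pow _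
  have hF : ContinuousOn (fun u => -(arc u ^ (p + 3) / millsDen p u)) (Icc s 1) := by
    refine ((continuous_arc.pow _).continuousOn.div ?_ fun u hu =>
      (millsDen_pos (hs.1.trans hu.1)).ne').neg
    unfold millsDen
    fun_prop
  have hk : √((p : ℝ) + 3) ^ 2 = (p : ℝ) + 3 := Real.sq_sqrt (by positivity)
  have h := sub_le_integral_of_hasDeriv_right_of_le
    (g' := fun u => arc u ^ (p + 1) *
      (((p : ℝ) + 3) * u * millsDen p u + ((p : ℝ) + 3) * (1 - u ^ 2)) / millsDen p u ^ 2)
    (φ := fun u => arc u ^ (p + 1)) hs.2 hF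
    (fun u hu => ?_) (hc.integrableOn_Icc) fun u hu => ?_
  · simp only [circHigh, neg_sub_neg] at h ⊢
    simpa [arc] using h
  · have hu0 : 0 < 1 - u ^ 2 := by nlinarith [hu.1, hu.2, hs.1]
    have h2 : arc u ^ 2 = 1 - u ^ 2 := Real.sq_sqrt hu0.le
    have hq : 0 < millsDen p u := millsDen_pos (by linarith [hu.1, hs.1])
    have hd : HasDerivAt (millsDen p) ((p : ℝ) + 3) u := by
      show HasDerivAt (fun x => ((p : ℝ) + 3) * x + √((p : ℝ) + 3)) _ _
      exact (((hasDerivAt_id u).const_mul ((p : ℝ) + 3)).add_const _).congr_deriv (by ring)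
    refine (((hasDerivAt_arc_pow (p + 2) (s := u) ⟨by linarith [hu.1, hs.1], hu.2⟩).div hd
      hq.ne').neg.congr_deriv ?_).hasDerivWithinAt
    rw [show arc u ^ (p + 2 + 1) = arc u ^ (p + 1) * (1 - u ^ 2) by rw [← h2]; ring]
    push_cast
    field_simp
    ring
  · have hu0 : 0 ≤ u := by linarith [hu.1, hs.1]
    rw [div_le_iff₀ (pow_pos (millsDen_pos hu0) 2)]
    refine mul_le_mul_of_nonneg_left ?_ (pow_nonneg (Real.sqrt_nonneg _) _)
    have h3 : 0 ≤ √((p : ℝ) + 3) * u := mul_nonneg (Real.sqrt_nonneg _) hu0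
    have h4 : 0 ≤ ((p : ℝ) + 3) * u ^ 2 := by positivity
    rw [millsDen]
    nlinarith [mul_nonneg (show (0 : ℝ) ≤ (p : ℝ) + 3 by positivity) h3]

/-- The mass of the circle is at least `1 / √(p + 3)`. -/
theorem inv_sqrt_le_half (p : ℕ) : 1 / √((p : ℝ) + 3) ≤ half (p + 1) := by
  simpa [millsDen, circHigh, arc, half] using
    circHigh_ge (p := p) (left_mem_Icc.2 zero_le_one)

/-- The lower bound of the value at the centre is at least `-log (p + 3) / 2`. -/
theorem neg_log_le_topLog (p : ℕ) (ell : ℝ) : -(Real.log ((p : ℝ) + 3) / 2) ≤ topLog p ell := by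
  refine le_trans ?_ (half_log_le_topLog p ell)
  have h := Real.log_le_log (by positivity) (inv_sqrt_le_half p)
  rwa [one_div, Real.log_inv, Real.log_sqrt (by positivity)] at h

/-- The room above `t` bounds the speed below. -/
theorem FlatState.room {ell s t a r q : ℝ} (h : FlatState p ell s t a r q) :
    1 - s ^ 2 ≤ r * ((1 - t) * millsDen p s) := by
  have hs : s ∈ Icc (0 : ℝ) 1 := Ioo_subset_Icc_self h.state.s_mem
  have hm := pow_pos h.state.arc_pos' (p + 1)
  have h1 := ((div_le_iff₀ (millsDen_pos hs.1)).1 (circHigh_ge (p := p) hs)).trans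
    (mul_le_mul_of_nonneg_right h.state.high_rect (millsDen_pos (p := p) hs.1).le)
  have h2 : arc s ^ 2 = 1 - s ^ 2 := Real.sq_sqrt (by nlinarith [hs.1, hs.2])
  have e : a ^ (p + 1) = r * arc s ^ (p + 1) := by
    rw [h.state.rate_eq, div_mul_cancel₀ _ hm.ne']
  rw [show arc s ^ (p + 3) = arc s ^ (p + 1) * (1 - s ^ 2) by rw [← h2]; ring, e] at h1
  refine le_of_mul_le_mul_left ?_ hm
  linarith

/-- The reciprocal of the speed is at most the room above `t`. -/
theorem FlatState.inv_rate_le {ell s t a r q : ℝ} (h : FlatState p ell s t a r q) :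
    1 / r ≤ (1 - t) * millsDen p s / (1 - s ^ 2) := by
  rw [div_le_div_iff₀ h.state.rate_pos (by nlinarith [h.state.s_mem.1, h.state.s_mem.2])]
  linarith [h.room]

/-- The room above `t` bounds the speed above, away from the centre. -/
theorem FlatState.rate_le {ell s t a r q : ℝ} (h : FlatState p ell s t a r q) :
    s * (((p : ℝ) + 3) * (r * (1 - t))) ≤ ((p : ℝ) + 2) * (1 - s ^ 2) := by
  have hs : s ∈ Icc (0 : ℝ) 1 := Ioo_subset_Icc_self h.state.s_mem
  have hm := pow_pos h.state.arc_pos' (p + 1)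
  have h1 := mul_le_mul_of_nonneg_left h.state.high
    (mul_nonneg hs.1 (show (0 : ℝ) ≤ (p : ℝ) + 3 by positivity))
  have h2 : arc s ^ 2 = 1 - s ^ 2 := Real.sq_sqrt (by nlinarith [hs.1, hs.2])
  have h3 := mul_le_mul_of_nonneg_left (circHigh_bounds (p := p) hs).2
    (show (0 : ℝ) ≤ (p : ℝ) + 2 by positivity)
  have e : a ^ (p + 1) = r * arc s ^ (p + 1) := by
    rw [h.state.rate_eq, div_mul_cancel₀ _ hm.ne']
  rw [show arc s ^ (p + 3) = arc s ^ (p + 1) * (1 - s ^ 2) by rw [← h2]; ring] at h3
  rw [e] at h1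
  refine le_of_mul_le_mul_left ?_ hm
  linarith

/-- The logarithmic concavity below the value at the centre bounds the speed below. -/
theorem FlatState.tail_rate {ell s t a r q : ℝ} (h : FlatState p ell s t a r q) :
    (topLog p ell - (Real.log r + ((p : ℝ) + 1) * Real.log (arc s))) * (1 - s ^ 2) ≤
      t * (r * millsDen p s) := by
  have hs : s ∈ Icc (0 : ℝ) 1 := Ioo_subset_Icc_self h.state.s_mem
  have hm := pow_pos h.state.arc_pos' (p + 1)
  have hq := millsDen_pos (p := p) hs.1
  have h2 : arc s ^ 2 = 1 - s ^ 2 := Real.sq_sqrt (by nlinarith [hs.1, hs.2])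
  have e : a ^ (p + 1) = r * arc s ^ (p + 1) := by
    rw [h.state.rate_eq, div_mul_cancel₀ _ hm.ne']
  have el : Real.log (a ^ (p + 1)) = Real.log r + ((p : ℝ) + 1) * Real.log (arc s) := by
    rw [e, Real.log_mul h.state.rate_pos.ne' hm.ne', Real.log_pow]
    push_cast
    ring
  rw [← el]
  set X := topLog p ell - Real.log (a ^ (p + 1)) with hX
  rcases le_total X 0 with hX0 | hX0
  · exact (mul_nonpos_of_nonpos_of_nonneg hX0 (by nlinarith [hs.1, hs.2])).trans
      (mul_nonneg h.state.t_mem.1.le (mul_nonneg h.state.rate_pos.le hq.le))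
  · have h1 := mul_le_mul_of_nonneg_left
      ((div_le_iff₀ hq).1 (circHigh_ge (p := p) hs)) hX0
    have h3 := mul_le_mul_of_nonneg_right h.tail hq.le
    rw [← hX, e] at h3
    rw [show arc s ^ (p + 3) = arc s ^ (p + 1) * (1 - s ^ 2) by rw [← h2]; ring] at h1
    refine le_of_mul_le_mul_left ?_ hm
    linarith

end Vale.Agent.P237.Petty.Cor
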