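import Vale.Agent.P237.Petty.Cor.Point

/-!
# P237: closed potentials, tests and weights for the field without slope

Rules that build null potentials `Q (s, t)` from the coordinates, the null part of a potential
with the factor `1 - s ^ 2`, the saturating test and the weights quadratic in the abscissa.
-/

namespace Vale.Agent.P237.Petty.Cor

open MeasureTheory Set
open Ident (half)

variable {p : ℕ}

/-- A potential on the square with its partial derivatives inside. -/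
structure Pot (Q Qs Qt : ℝ → ℝ → ℝ) : Prop where
  deriv : ∀ s ∈ Ioo (0 : ℝ) 1, ∀ t ∈ Ioo (0 : ℝ) 1, HasFDerivAt (fun x : ℝ × ℝ => Q x.1 x.2)
    (Qs s t • ContinuousLinearMap.fst ℝ ℝ ℝ + Qt s t • ContinuousLinearMap.snd ℝ ℝ ℝ) (s, t)
  cont : ContinuousOn (fun x : ℝ × ℝ => Q x.1 x.2) (Icc 0 1 ×ˢ Icc 0 1)

theorem Pot.const (a : ℝ) : Pot (fun _ _ => a) (fun _ _ => 0) fun _ _ => 0 where
  deriv s _ t _ := by simpa using hasFDerivAt_const (𝕜 := ℝ) a ((s, t) : ℝ × ℝ)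
  cont := continuousOn_const

theorem Pot.abscissa : Pot (fun s _ => s) (fun _ _ => 1) fun _ _ => 0 where
  deriv s _ t _ := by
    refine (hasFDerivAt_fst (p := (s, t))).congr_fderiv ?_
    ext <;> simp
  cont := continuousOn_fst

theorem Pot.height : Pot (fun _ t => t) (fun _ _ => 0) fun _ _ => 1 where
  deriv s _ t _ := by
    refine (hasFDerivAt_snd (p := (s, t))).congr_fderiv ?_
    ext <;> simp
  cont := continuousOn_snd

variable {Q Qs Qt R Rs Rt : ℝ → ℝ → ℝ}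

theorem Pot.congr {Q' Qs' Qt' : ℝ → ℝ → ℝ} (h : Pot Q Qs Qt) (e : ∀ s t, Q' s t = Q s t)
    (es : ∀ s ∈ Ioo (0 : ℝ) 1, ∀ t ∈ Ioo (0 : ℝ) 1, Qs' s t = Qs s t)
    (et : ∀ s ∈ Ioo (0 : ℝ) 1, ∀ t ∈ Ioo (0 : ℝ) 1, Qt' s t = Qt s t) : Pot Q' Qs' Qt' where
  deriv s hs t ht := by
    rw [show (fun x : ℝ × ℝ => Q' x.1 x.2) = fun x => Q x.1 x.2 from funext fun x => e _ _,
      es s hs t ht, et s hs t ht]
    exact h.deriv s hs t ht
  cont := h.cont.congr fun x _ => e _ _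

theorem Pot.add (hQ : Pot Q Qs Qt) (hR : Pot R Rs Rt) :
    Pot (fun s t => Q s t + R s t) (fun s t => Qs s t + Rs s t) fun s t => Qt s t + Rt s t where
  deriv s hs t ht := by
    refine ((hQ.deriv s hs t ht).add (hR.deriv s hs t ht)).congr_fderiv ?_
    ext <;> simp
  cont := hQ.cont.add hR.cont

theorem Pot.sub (hQ : Pot Q Qs Qt) (hR : Pot R Rs Rt) :
    Pot (fun s t => Q s t - R s t) (fun s t => Qs s t - Rs s t) fun s t => Qt s t - Rt s t where
  deriv s hs t ht := by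
    refine ((hQ.deriv s hs t ht).sub (hR.deriv s hs t ht)).congr_fderiv ?_
    ext <;> simp
  cont := hQ.cont.sub hR.cont

theorem Pot.smul (hQ : Pot Q Qs Qt) (a : ℝ) :
    Pot (fun s t => a * Q s t) (fun s t => a * Qs s t) fun s t => a * Qt s t where
  deriv s hs t ht := by
    refine ((hQ.deriv s hs t ht).const_mul a).congr_fderiv ?_
    ext <;> simp
  cont := continuousOn_const.mul hQ.cont

theorem Pot.mul (hQ : Pot Q Qs Qt) (hR : Pot R Rs Rt) :
    Pot (fun s t => Q s t * R s t) (fun s t => Qs s t * R s t + Q s t * Rs s t)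
      fun s t => Qt s t * R s t + Q s t * Rt s t where
  deriv s hs t ht := by
    refine ((hQ.deriv s hs t ht).mul (hR.deriv s hs t ht)).congr_fderiv ?_
    ext <;> simp <;> ring
  cont := hQ.cont.mul hR.cont

theorem Pot.comp (hQ : Pot Q Qs Qt) {f f' : ℝ → ℝ} {S : Set ℝ}
    (hmem : ∀ s ∈ Icc (0 : ℝ) 1, ∀ t ∈ Icc (0 : ℝ) 1, Q s t ∈ S) (hfc : ContinuousOn f S)
    (hf : ∀ s ∈ Ioo (0 : ℝ) 1, ∀ t ∈ Ioo (0 : ℝ) 1, HasDerivAt f (f' (Q s t)) (Q s t)) :
    Pot (fun s t => f (Q s t)) (fun s t => f' (Q s t) * Qs s t)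
      fun s t => f' (Q s t) * Qt s t where
  deriv s hs t ht := by
    refine (HasDerivAt.comp_hasFDerivAt (f := fun x : ℝ × ℝ => Q x.1 x.2) (s, t) (hf s hs t ht)
      (hQ.deriv s hs t ht)).congr_fderiv ?_
    ext <;> simp
  cont := hfc.comp hQ.cont fun x hx => hmem x.1 hx.1 x.2 hx.2

theorem Pot.pow (hQ : Pot Q Qs Qt) (k : ℕ) :
    Pot (fun s t => Q s t ^ k) (fun s t => (k : ℝ) * Q s t ^ (k - 1) * Qs s t)
      fun s t => (k : ℝ) * Q s t ^ (k - 1) * Qt s t :=
  hQ.comp (f := fun u => u ^ k) (f' := fun u => (k : ℝ) * u ^ (k - 1)) (S := univ)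
    (fun _ _ _ _ => mem_univ _) (continuous_pow k).continuousOn fun _ _ _ _ => hasDerivAt_pow k _

theorem Pot.inv (hQ : Pot Q Qs Qt)
    (h0 : ∀ s ∈ Icc (0 : ℝ) 1, ∀ t ∈ Icc (0 : ℝ) 1, Q s t ≠ 0) :
    Pot (fun s t => (Q s t)⁻¹) (fun s t => -(Q s t ^ 2)⁻¹ * Qs s t)
      fun s t => -(Q s t ^ 2)⁻¹ * Qt s t :=
  hQ.comp (f := fun u => u⁻¹) (f' := fun u => -(u ^ 2)⁻¹) (S := {u | u ≠ 0}) h0 continuousOn_inv₀
    fun s hs t ht => hasDerivAt_inv (h0 s (Ioo_subset_Icc_self hs) t (Ioo_subset_Icc_self ht))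

theorem Pot.div (hQ : Pot Q Qs Qt) (hR : Pot R Rs Rt)
    (h0 : ∀ s ∈ Icc (0 : ℝ) 1, ∀ t ∈ Icc (0 : ℝ) 1, R s t ≠ 0) :
    Pot (fun s t => Q s t / R s t) (fun s t => (Qs s t * R s t - Q s t * Rs s t) / R s t ^ 2)
      fun s t => (Qt s t * R s t - Q s t * Rt s t) / R s t ^ 2 := by
  refine (hQ.mul (hR.inv h0)).congr (fun s t => div_eq_mul_inv _ _) ?_ ?_ <;>
  · intro s hs t ht
    have := h0 s (Ioo_subset_Icc_self hs) t (Ioo_subset_Icc_self ht)
    field_simp
    ring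

theorem Pot.sqrt (hQ : Pot Q Qs Qt)
    (h0 : ∀ s ∈ Ioo (0 : ℝ) 1, ∀ t ∈ Ioo (0 : ℝ) 1, Q s t ≠ 0) :
    Pot (fun s t => √(Q s t)) (fun s t => 1 / (2 * √(Q s t)) * Qs s t)
      fun s t => 1 / (2 * √(Q s t)) * Qt s t :=
  hQ.comp (f := Real.sqrt) (f' := fun u => 1 / (2 * √u)) (S := univ) (fun _ _ _ _ => mem_univ _)
    Real.continuous_sqrt.continuousOn fun s hs t ht => Real.hasDerivAt_sqrt (h0 s hs t ht)

theorem Pot.log (hQ : Pot Q Qs Qt)
    (h0 : ∀ s ∈ Icc (0 : ℝ) 1, ∀ t ∈ Icc (0 : ℝ) 1, Q s t ≠ 0) :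
    Pot (fun s t => Real.log (Q s t)) (fun s t => (Q s t)⁻¹ * Qs s t)
      fun s t => (Q s t)⁻¹ * Qt s t :=
  hQ.comp (f := Real.log) (f' := fun u => u⁻¹) (S := {0}ᶜ) h0 Real.continuousOn_log
    fun s hs t ht => Real.hasDerivAt_log (h0 s (Ioo_subset_Icc_self hs) t (Ioo_subset_Icc_self ht))

theorem Pot.sum {ι : Type*} (S : Finset ι) {F Fs Ft : ι → ℝ → ℝ → ℝ}
    (h : ∀ i ∈ S, Pot (F i) (Fs i) (Ft i)) :
    Pot (fun s t => ∑ i ∈ S, F i s t) (fun s t => ∑ i ∈ S, Fs i s t)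
      fun s t => ∑ i ∈ S, Ft i s t := by
  classical
  induction S using Finset.induction_on with
  | empty => simpa using Pot.const 0
  | insert i S hi ih =>
    simp only [Finset.sum_insert hi]
    exact (h i (Finset.mem_insert_self i S)).add (ih fun j hj => h j (Finset.mem_insert_of_mem hj))

/-- A polynomial in the two abscissae, as a finite sum of monomials. -/
theorem Pot.poly (S : Finset (ℕ × ℕ)) (a : ℕ × ℕ → ℝ) :
    Pot (fun s t => ∑ k ∈ S, a k * (s ^ k.1 * t ^ k.2))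
      (fun s t => ∑ k ∈ S, a k * ((k.1 : ℝ) * s ^ (k.1 - 1) * t ^ k.2))
      fun s t => ∑ k ∈ S, a k * (s ^ k.1 * ((k.2 : ℝ) * t ^ (k.2 - 1))) :=
  Pot.sum S fun k _ => (((Pot.abscissa.pow k.1).mul (Pot.height.pow k.2)).smul (a k)).congr
    (fun _ _ => rfl) (fun _ _ _ _ => by ring) fun _ _ _ _ => by ring

/-- The null part of a potential, per unit of mass. -/
noncomputable def nullPart (p : ℕ) (Q Qs Qt : ℝ → ℝ → ℝ) (s t r : ℝ) : ℝ :=
  Qs s t - ((p : ℝ) + 1) * s / (1 - s ^ 2) * Q s t + Qt s t / r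

/-- The integrand is its part without potential plus the null part. -/
theorem perMass_eq (gam nu kap ell : ℝ) (F Fs Ft : ℝ → ℝ → ℝ) (ω : ℝ → ℝ)
    (Q Qs Qt : ℝ → ℝ → ℝ) (s t a r : ℝ) :
    perMass p gam nu kap ell F Fs Ft ω Q Qs Qt s t a r =
      gam * Ident.b0 p * (1 / a - 1 / arc s) + nu * fisherTest p F Fs Ft s t r +
        kap * (ell / ((p : ℝ) + 2)) * ω s - kap * (((p : ℝ) + 4) * (s * t) - 1) +
        nullPart p Q Qs Qt s t r := by
  simp only [perMass, nullPart]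
  ring

theorem nullPart_add (s t r : ℝ) :
    nullPart p (fun s t => Q s t + R s t) (fun s t => Qs s t + Rs s t)
      (fun s t => Qt s t + Rt s t) s t r = nullPart p Q Qs Qt s t r + nullPart p R Rs Rt s t r := by
  simp only [nullPart]
  ring

/-- A potential with the factor of the circle. -/
theorem Pot.arcSq (hQ : Pot Q Qs Qt) :
    Pot (fun s t => (1 - s ^ 2) * Q s t) (fun s t => -2 * s * Q s t + (1 - s ^ 2) * Qs s t)
      fun s t => (1 - s ^ 2) * Qt s t :=
  (((Pot.const 1).sub (Pot.abscissa.pow 2)).mul hQ).congr (fun _ _ => rfl)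
    (fun _ _ _ _ => by push_cast; ring) fun _ _ _ _ => by ring

/-- The null part of a potential with the factor of the circle has no denominator in `s`. -/
theorem nullPart_arcSq {s : ℝ} (hs : s ∈ Ioo (0 : ℝ) 1) (t r : ℝ) :
    nullPart p (fun s t => (1 - s ^ 2) * Q s t) (fun s t => -2 * s * Q s t + (1 - s ^ 2) * Qs s t)
        (fun s t => (1 - s ^ 2) * Qt s t) s t r =
      (1 - s ^ 2) * (Qs s t + Qt s t / r) - ((p : ℝ) + 3) * s * Q s t := by
  have h : (1 - s ^ 2) ≠ 0 := by nlinarith [hs.1, hs.2]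
  simp only [nullPart]
  field_simp
  ring

/-- The saturating test `s + c * (s - t) / √(1 + K * (s - t) ^ 2)`. -/
theorem axTest_saturating (c : ℝ) {K : ℝ} (hK : 0 ≤ K) :
    AxTest (fun s t => s + c * ((s - t) / √(1 + K * (s - t) ^ 2)))
      (fun s t => 1 + c / √(1 + K * (s - t) ^ 2) ^ 3)
      fun s t => -(c / √(1 + K * (s - t) ^ 2) ^ 3) where
  deriv s t := by
    have hpos : ∀ u : ℝ, 0 < 1 + K * u ^ 2 := fun u => by nlinarith [mul_nonneg hK (sq_nonneg u)]
    have hd : HasDerivAt (fun u : ℝ => u / √(1 + K * u ^ 2)) (1 / √(1 + K * (s - t) ^ 2) ^ 3)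
        (s - t) := by
      refine ((hasDerivAt_id (s - t)).div ((((hasDerivAt_pow 2 (s - t)).const_mul K).const_add
        1).sqrt (hpos _).ne') (Real.sqrt_pos.2 (hpos _)).ne').congr_deriv ?_
      have hq := (Real.sqrt_pos.2 (hpos (s - t))).ne'
      have h2 := Real.sq_sqrt (hpos (s - t)).le
      simp only [id]
      field_simp
      push_cast
      linear_combination (2 : ℝ) * h2
    refine ((hasFDerivAt_fst (p := (s, t))).add ((HasDerivAt.comp_hasFDerivAt
      (f := fun x : ℝ × ℝ => x.1 - x.2) (s, t) hd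
      ((hasFDerivAt_fst (p := (s, t))).sub hasFDerivAt_snd)).const_mul c)).congr_fderiv ?_
    ext <;> simp <;> ring
  cont_fst := by
    refine continuous_const.add (continuous_const.div (by fun_prop) fun x => ?_)
    exact pow_ne_zero _ (Real.sqrt_pos.2 (by nlinarith [mul_nonneg hK (sq_nonneg (x.1 - x.2))])).ne'
  cont_snd := by
    refine (continuous_const.div (by fun_prop) fun x => ?_).neg
    exact pow_ne_zero _ (Real.sqrt_pos.2 (by nlinarith [mul_nonneg hK (sq_nonneg (x.1 - x.2))])).ne'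
  origin := by simp

/-- The second moment of the circle weight. -/
theorem integral_arc_pow_mul_sq (p : ℕ) :
    ((p : ℝ) + 4) * ∫ s in (0 : ℝ)..1, arc s ^ (p + 1) * s ^ 2 = half (p + 1) := by
  have h : ∀ s ∈ uIcc (0 : ℝ) 1,
      arc s ^ (p + 1) * s ^ 2 = arc s ^ (p + 1) - arc s ^ (p + 3) := fun s hs => by
    rw [uIcc_of_le zero_le_one] at hs
    have h2 : arc s ^ 2 = 1 - s ^ 2 := Real.sq_sqrt (by nlinarith [hs.1, hs.2])
    linear_combination arc s ^ (p + 1) * h2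
  have i : ∀ j : ℕ, IntervalIntegrable (fun s => arc s ^ j) volume 0 1 := fun j =>
    (continuous_arc.pow j).intervalIntegrable _ _
  rw [intervalIntegral.integral_congr h, intervalIntegral.integral_sub (i _) (i _)]
  have hst := Ident.half_step (p + 1)
  push_cast at hst
  have e1 : ∫ s in (0 : ℝ)..1, arc s ^ (p + 1) = half (p + 1) := rfl
  have e2 : ∫ s in (0 : ℝ)..1, arc s ^ (p + 3) = half (p + 1 + 2) := rfl
  rw [e1, e2]
  linarith

/-- The weights `1 + w * (1 - (p + 4) * s ^ 2)` have the mass of the circle. -/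
theorem integral_weight_quadratic (p : ℕ) (w : ℝ) :
    ∫ s in (0 : ℝ)..1, arc s ^ (p + 1) * (1 + w * (1 - ((p : ℝ) + 4) * s ^ 2)) = half (p + 1) := by
  have h : ∀ s ∈ uIcc (0 : ℝ) 1, arc s ^ (p + 1) * (1 + w * (1 - ((p : ℝ) + 4) * s ^ 2)) =
      (1 + w) * arc s ^ (p + 1) - w * ((p : ℝ) + 4) * (arc s ^ (p + 1) * s ^ 2) := fun s _ => by ring
  have i1 : IntervalIntegrable (fun s => arc s ^ (p + 1)) volume 0 1 :=
    (continuous_arc.pow _).intervalIntegrable _ _
  have i2 : IntervalIntegrable (fun s => arc s ^ (p + 1) * s ^ 2) volume 0 1 :=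
    ((continuous_arc.pow _).mul (continuous_pow 2)).intervalIntegrable _ _
  have e1 : ∫ s in (0 : ℝ)..1, arc s ^ (p + 1) = half (p + 1) := rfl
  rw [intervalIntegral.integral_congr h, intervalIntegral.integral_sub (i1.const_mul _)
    (i2.const_mul _), intervalIntegral.integral_const_mul, intervalIntegral.integral_const_mul,
    mul_assoc, integral_arc_pow_mul_sq, e1]
  ring

/-- A test, a weight and a potential with the sign per unit of mass give a field. -/
theorem flatField_of_pot {gam nu kap ell top : ℝ} {F Fs Ft : ℝ → ℝ → ℝ} {ω : ℝ → ℝ}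
    (hF : AxTest F Fs Ft) (hω : Continuous ω)
    (hmean : (∫ s in (0 : ℝ)..1, arc s ^ (p + 1) * ω s) = half (p + 1))
    (hQ : Pot Q Qs Qt) (hQ0 : 0 ≤ Q 0 0)
    (hpos : ∀ s t a r q : ℝ, FlatState p top s t a r q →
      0 ≤ gam * Ident.b0 p * (1 / a - 1 / arc s) + nu * fisherTest p F Fs Ft s t r +
        kap * (ell / ((p : ℝ) + 2)) * ω s - kap * (((p : ℝ) + 4) * (s * t) - 1) +
        nullPart p Q Qs Qt s t r) :
    FlatField p gam nu kap ell top :=
  flatField_of_point hF hω hmean hQ.deriv hQ.cont hQ0 fun s t a r q h => by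
    rw [perMass_eq]
    exact hpos s t a r q h

end Vale.Agent.P237.Petty.Cor
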