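import Vale.Agent.P237.Petty.Cor.Bulk
import Vale.Agent.P237.Petty.Cor.Mean

/-!
# P237: quadratic potentials with a pole at the centre

The transport satisfies `σ t ≥ c t` near the centre, so `(t - σ t) ^ 2 / σ t` tends to `0` there and
the potential `arc s ^ (p + 1) (k (s) d + β (s) d ^ 2)` gives a null field as soon as
`arc s ^ (p + 1) k (s)` and `arc s ^ (p + 1) β (s) s` are continuous on the closed interval.
-/

namespace Vale.Agent.P237.Petty.Cor

open MeasureTheory Set intervalIntegral Filter Topology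
open Ident (half rate)

variable {p : ℕ} {g σ : ℝ → ℝ}

/-- Near the centre the transport is at least linear. -/
theorem transport_ge_linear (hg : Regular g) (hσ : Transport p g σ) :
    ∃ δ : ℝ, 0 < δ ∧ ∀ t ∈ Icc (0 : ℝ) (1 / 2), δ * t ≤ σ t := by
  refine ⟨g (1 / 2) ^ (p + 1), pow_pos (hg.pos_of_lt ⟨by norm_num, by norm_num⟩) _, fun t ht => ?_⟩
  rcases ht.1.eq_or_lt with rfl | ht0
  · simp [hσ.zero]
  have ht1 : t ∈ Ioo (0 : ℝ) 1 := ⟨ht0, by linarith [ht.2]⟩
  have hanti := antitoneOn_of_concave_even hg.concave hg.even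
  calc g (1 / 2) ^ (p + 1) * t ≤ t * g t ^ (p + 1) := by
        rw [mul_comm]
        exact mul_le_mul_of_nonneg_left (pow_le_pow_left₀ (hg.nonneg _ (by norm_num))
          (hanti (Ioo_subset_Icc_self ht1) (by norm_num) ht.2) _) ht0.le
    _ ≤ Lift.circLow p (σ t) := Lift.mul_pow_le_low hg hσ ht1
    _ ≤ σ t := circLow_le (hσ.mem t (Ioo_subset_Icc_self ht1))

/-- The square of the displacement over the abscissa is continuous along the transport. -/
theorem continuousOn_sq_div (hg : Regular g) (hσ : Transport p g σ) :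
    ContinuousOn (fun t => (t - σ t) ^ 2 / σ t) (Icc 0 1) := by
  intro t ht
  rcases ht.1.eq_or_lt with rfl | ht0
  · obtain ⟨δ, hδ, hle⟩ := transport_ge_linear hg hσ
    rw [ContinuousWithinAt, hσ.zero, sub_zero, div_zero]
    have hmem : Icc (0 : ℝ) (1 / 2) ∈ 𝓝[Icc (0 : ℝ) 1] 0 :=
      mem_nhdsWithin.2 ⟨Iio (1 / 2), isOpen_Iio, by norm_num, fun x hx => ⟨hx.2.1, le_of_lt hx.1⟩⟩
    refine squeeze_zero_norm' (a := fun t => 2 * t / δ + 2 * σ t) ?_ ?_
    · filter_upwards [hmem] with u hu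
      have hs : 0 ≤ σ u := (hσ.mem u ⟨hu.1, by linarith [hu.2]⟩).1
      rw [Real.norm_eq_abs, abs_of_nonneg (div_nonneg (sq_nonneg _) hs)]
      rcases hs.eq_or_lt with h0 | hs0
      · rw [← h0, div_zero]
        have := hu.1
        positivity
      rw [div_le_iff₀ hs0]
      have h1 : u * u ≤ u / δ * σ u := by
        rw [div_mul_eq_mul_div, le_div_iff₀ hδ]
        nlinarith [mul_le_mul_of_nonneg_left (hle u hu) hu.1]
      have h2 : (2 * u / δ + 2 * σ u) * σ u = 2 * (u / δ * σ u) + 2 * σ u ^ 2 := by ring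
      nlinarith [sq_nonneg (u + σ u)]
    · have h : ContinuousWithinAt (fun t => 2 * t / δ + 2 * σ t) (Icc 0 1) 0 :=
        ((continuousWithinAt_id.const_mul 2).div_const δ).add ((hσ.cont 0 ht).const_mul 2)
      simpa [ContinuousWithinAt, hσ.zero] using h
  · have hne : σ t ≠ 0 := by
      rcases ht.2.eq_or_lt with rfl | ht1
      · simp [hσ.one]
      · exact (hσ.mem_Ioo t ⟨ht0, ht1⟩).1.ne'
    exact (((continuousWithinAt_id).sub (hσ.cont t ht)).pow 2).div (hσ.cont t ht) hne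

/-- The quadratic potential with a pole at the centre gives a null field. -/
theorem nullField_quadPot {k k' β β' B : ℝ → ℝ}
    (hk : ∀ s ∈ Ioo (0 : ℝ) 1, HasDerivAt k (k' s) s)
    (hβ : ∀ s ∈ Ioo (0 : ℝ) 1, HasDerivAt β (β' s) s)
    (hkc : ContinuousOn (fun s => arc s ^ (p + 1) * k s) (Icc 0 1))
    (hBc : ContinuousOn B (Icc 0 1))
    (hB : ∀ s ∈ Ioo (0 : ℝ) 1, arc s ^ (p + 1) * β s * s = B s) :
    Lift.NullField p fun s t _ r _ => arc s ^ (p + 1) *
      (quadPotS k k' β β' s t - ((p : ℝ) + 1) * s / (1 - s ^ 2) * quadPot k β s t) * r +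
        arc s ^ (p + 1) * quadPotT k β s t := fun g σ hg hσ => by
  refine ⟨fun t => arc (σ t) ^ (p + 1) * k (σ t) * (t - σ t) + B (σ t) * ((t - σ t) ^ 2 / σ t),
    ?_, ?_, fun t ht => ?_⟩
  · exact ((hkc.comp hσ.cont fun t ht => hσ.mem t ht).mul (continuousOn_id.sub hσ.cont)).add
      ((hBc.comp hσ.cont fun t ht => hσ.mem t ht).mul (continuousOn_sq_div hg hσ))
  · simp [hσ.one, hσ.zero]
  have hs := hσ.mem_Ioo t ht
  have hd : HasDerivAt σ (rate p g σ t) t := hσ.deriv t ht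
  have h1 := (hasDerivAt_arc_pow p (s := σ t) ⟨by linarith [hs.1], hs.2⟩).comp t hd
  have hd2 := (hasDerivAt_id t).sub hd
  have hmain := h1.mul ((((hk _ hs).comp t hd).mul hd2).add
    (((hβ _ hs).comp t hd).mul (hd2.fun_pow 2)))
  refine (hmain.congr_of_eventuallyEq ?_).hasDerivWithinAt.congr_deriv ?_
  · filter_upwards [Ioo_mem_nhds ht.1 ht.2] with u hu
    have hu' := hσ.mem_Ioo u hu
    have := hu'.1.ne'
    rw [← hB _ hu']
    simp only [Pi.mul_apply, Pi.add_apply, Pi.pow_apply, Pi.sub_apply, Function.comp, id]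
    field_simp
  · simp only [quadPot, quadPotS, quadPotT, Pi.mul_apply, Pi.add_apply, Pi.pow_apply, Pi.sub_apply,
      Function.comp, id]
    push_cast
    ring

/-- A cell with an affine test and such a potential, from the lower bound of the bulk algebra. -/
theorem corCell_of_bulk (hp : 1 ≤ p) {lo hi gam nu c : ℝ} (hgam : (p : ℝ) + 1 ≤ gam) (hnu : 0 ≤ nu)
    (hlo : 0 ≤ lo) (hhi : Real.exp hi * ((p : ℝ) + 1) ≤ 2 * p) {k k' β β' B : ℝ → ℝ}
    {ψ : ℝ → ℝ → ℝ} (hk : ∀ s ∈ Ioo (0 : ℝ) 1, HasDerivAt k (k' s) s)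
    (hβ : ∀ s ∈ Ioo (0 : ℝ) 1, HasDerivAt β (β' s) s)
    (hkc : ContinuousOn (fun s => arc s ^ (p + 1) * k s) (Icc 0 1))
    (hBc : ContinuousOn B (Icc 0 1))
    (hB : ∀ s ∈ Ioo (0 : ℝ) 1, arc s ^ (p + 1) * β s * s = B s)
    (hψ : ∀ ell ∈ Icc lo hi, ContinuousOn (fun s => arc s ^ (p + 1) * ψ ell s) (Icc 0 1))
    (hmean : ∀ ell ∈ Icc lo hi, 0 ≤ ∫ s in (0 : ℝ)..1, arc s ^ (p + 1) * ψ ell s)
    (hpos : ∀ ell ∈ Icc lo hi, ∀ s t a r q : ℝ, FlatState p ell s t a r q → ψ ell s ≤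
      coefUU nu c k s * ((r - 1) ^ 2 / r) + coefDU nu c β s * ((t - s) * (r - 1)) +
        coefDD p nu c β β' s * (t - s) ^ 2 - (k s + coefShadow p gam s) * (r - 1) +
        coefD p nu k k' s * (t - s) +
        2 * nu * c * (1 + c) * ((t - s) ^ 2 * (r - 1)) + 2 * β s * ((t - s) * ((r - 1) ^ 2 / r)) -
        Real.exp ell * (excS p t a ^ 2 / 2) +
        wS p (arc t) * (Real.exp (excS p t a) * (ell - excS p t a))) :
    CorCell p lo hi := fun ell hl =>
  ⟨gam, nu, _, ell, lt_of_lt_of_le (by positivity) hgam, hnu, Lift.muMin_pos hp, le_rfl,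
    corBound_of_flat hnu le_rfl (flatField_of_cell_null hp (axTest_affine c)
      (nullField_quadPot hk hβ hkc hBc hB) (hψ ell hl) (hmean ell hl) fun s t a r q h =>
        (hpos ell hl s t a r q h).trans (cellExpr_bulk_ge hp hgam (hlo.trans hl.1)
          ((mul_le_mul_of_nonneg_right (Real.exp_le_exp.2 hl.2) (by positivity)).trans hhi)
          k k' β β' h))⟩

end Vale.Agent.P237.Petty.Cor
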