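import Vale.Agent.P237.Petty.Cor.Potential
import Vale.Agent.P237.Petty.Centre.Setting

/-!
# P237: the exact form of the integrand with the stationary multipliers

With `gam = p + 1`, `kap = muMin p`, `nu = L - kap / 2` and the test `s + c * (s - t)` all first
order terms are null. What is left, per unit of mass, is the deficit of the test, `P (t - s) ^ 2`,
two convex functions of `X = log (arc t ^ (p + 1) / a ^ (p + 1))` with weights in `arc t`, the gain
`W * exp X * (ell - X)` and the null part of a quadratic potential `β (s) (t - s) ^ 2`.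
-/

namespace Vale.Agent.P237.Petty.Cor

open MeasureTheory Set intervalIntegral
open Ident (half rate)

variable {p : ℕ}

/-- The stationary multiplier of the Fisher excess. -/
noncomputable def nuS (p : ℕ) : ℝ :=
  (p : ℝ) / (2 * ((p : ℝ) + 4) * Ident.b0 p ^ 2) - Ident.muMin p / 2

/-- The coefficient of the square of `t - s`. -/
noncomputable def sqCoef (p : ℕ) : ℝ := (p : ℝ) / (2 * Ident.b0 p ^ 2)

/-- The weight of the obstacle, per unit of `arc t ^ (p + 1)`, over `p + 1`. -/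
noncomputable def wS (p : ℕ) (c : ℝ) : ℝ :=
  sqCoef p * (c - Ident.b0 p) ^ 2 * (c + 2 * Ident.b0 p) / c

/-- The logarithm of the circle over the profile. -/
noncomputable def excS (p : ℕ) (t a : ℝ) : ℝ := Real.log (arc t ^ (p + 1) / a ^ (p + 1))

/-- `exp x - 1 - m (exp (x / m) - 1)` with `m = p + 1`. -/
noncomputable def psiS (p : ℕ) (x : ℝ) : ℝ :=
  Real.exp x - 1 - ((p : ℝ) + 1) * (Real.exp (x / ((p : ℝ) + 1)) - 1)

/-- `x exp x - exp x + 1`. -/
noncomputable def phiS (x : ℝ) : ℝ := x * Real.exp x - Real.exp x + 1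

/-- The deficit of the affine test. -/
noncomputable def testDef (p : ℕ) (c s t r : ℝ) : ℝ :=
  2 * (1 + c) * (1 - s ^ 2) * (r - 1) ^ 2 / r + 2 * c * (t - s) ^ 2 * r -
    2 * s * (t - s) * (r - 1) +
    c ^ 2 * (2 * t * (t - s) * (r - 1) - ((p : ℝ) + 2) * (t - s) ^ 2)

/-- The null part of the quadratic potential. -/
noncomputable def quadNull (p : ℕ) (β β' : ℝ → ℝ) (s t r : ℝ) : ℝ :=
  (t - s) ^ 2 * (β' s - ((p : ℝ) + 1) * s / (1 - s ^ 2) * β s) + 2 * β s * (t - s) * (1 / r - 1)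

/-- The exact integrand per unit of mass. -/
noncomputable def sExpr (p : ℕ) (c ell : ℝ) (β β' : ℝ → ℝ) (s t a r : ℝ) : ℝ :=
  nuS p * testDef p c s t r + sqCoef p * (t - s) ^ 2 -
    Ident.b0 p / arc t * psiS p (excS p t a) +
    wS p (arc t) * (phiS (excS p t a) + Real.exp (excS p t a) * (ell - excS p t a)) +
    quadNull p β β' s t r

theorem psiS_nonneg (p : ℕ) (x : ℝ) : 0 ≤ psiS p x := by
  have hm : (0 : ℝ) < (p : ℝ) + 1 := by positivity
  set y := Real.exp (x / ((p : ℝ) + 1)) with hy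
  have h := one_add_mul_le_pow (a := y - 1) (by linarith [Real.exp_pos (x / ((p : ℝ) + 1))]) (p + 1)
  rw [add_sub_cancel, hy, ← Real.exp_nat_mul] at h
  push_cast at h
  rw [mul_div_cancel₀ _ hm.ne'] at h
  rw [psiS]
  linarith

theorem psiS_le (p : ℕ) (x : ℝ) : psiS p x ≤ Real.exp x - 1 - x := by
  have hm : (0 : ℝ) < (p : ℝ) + 1 := by positivity
  have h := mul_le_mul_of_nonneg_left (Real.add_one_le_exp (x / ((p : ℝ) + 1))) hm.le
  rw [mul_add, mul_div_cancel₀ _ hm.ne'] at h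
  rw [psiS]
  linarith

theorem phiS_nonneg (x : ℝ) : 0 ≤ phiS x := by
  have h := mul_le_mul_of_nonneg_left (Real.add_one_le_exp (-x)) (Real.exp_pos x).le
  rw [← Real.exp_add, add_neg_cancel, Real.exp_zero] at h
  rw [phiS]
  linarith

theorem sqCoef_pos (hp : 1 ≤ p) : 0 < sqCoef p := by
  have := Ident.b0_pos p
  have : (0 : ℝ) < p := by exact_mod_cast hp
  unfold sqCoef
  positivity

theorem wS_nonneg (hp : 1 ≤ p) {c : ℝ} (hc : 0 < c) : 0 ≤ wS p c := by
  have := sqCoef_pos hp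
  have := Ident.b0_pos p
  unfold wS
  positivity

theorem nuS_nonneg (hp : 4 ≤ p) : 0 ≤ nuS p := by
  have hx := Ident.b0_pos p
  have hp4 : (4 : ℝ) ≤ p := by exact_mod_cast hp
  have h1 := LargeN.low_le_ratSq p
  rw [Centre.ratSq_eq, LargeN.low, div_le_iff₀ (by positivity)] at h1
  have e : nuS p = (p : ℝ) / (4 * ((p : ℝ) + 4) * Ident.b0 p ^ 2) *
      (2 - ((p : ℝ) + 2) * (((p : ℝ) + 4) * (1 - Ident.b0 p ^ 2) - 1)) := by
    rw [nuS, Ident.muMin]
    field_simp
    ring
  rw [e]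
  refine mul_nonneg (by positivity) ?_
  nlinarith [mul_le_mul_of_nonneg_left h1 (show 0 ≤ ((p : ℝ) + 2) * ((p : ℝ) + 4) by positivity),
    sq_nonneg (Ident.b0 p)]

/-- The potential of the first order terms in the two abscissae. -/
theorem nullField_linearS (p : ℕ) (A B : ℝ) :
    Lift.NullField p fun s t _ r _ => arc s ^ (p + 3) *
      ((B - A - ((p : ℝ) + 3) * s / (1 - s ^ 2) * (A * (t - s) + B * s)) * r + A) := by
  have h := nullField_pair (p := p) (Φ := fun s t => arc s ^ (p + 3) * (A * (t - s) + B * s))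
    (Φs := fun s t => arc s ^ (p + 3) *
      (B - A - ((p : ℝ) + 3) * s / (1 - s ^ 2) * (A * (t - s) + B * s)))
    (Φt := fun s _ => arc s ^ (p + 3) * A) (fun s hs t _ => ?_) ?_ ?_
  · exact h.congr fun s t a r q _ => by ring
  · have h1 : HasFDerivAt (fun x : ℝ × ℝ => arc x.1 ^ (p + 2 + 1))
        ((-((((p + 2 : ℕ) : ℝ) + 1) * s / (1 - s ^ 2)) * arc s ^ (p + 2 + 1)) •
          ContinuousLinearMap.fst ℝ ℝ ℝ) (s, t) :=
      HasDerivAt.comp_hasFDerivAt (f := fun x : ℝ × ℝ => x.1) (s, t)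
        (hasDerivAt_arc_pow (p + 2) (s := s) ⟨by linarith [hs.1], hs.2⟩)
        (hasFDerivAt_fst : HasFDerivAt (fun x : ℝ × ℝ => x.1)
          (ContinuousLinearMap.fst ℝ ℝ ℝ) (s, t))
    refine (h1.mul (((hasFDerivAt_snd.sub hasFDerivAt_fst).const_mul A).add
      (hasFDerivAt_fst.const_mul B))).congr_fderiv ?_
    ext <;> simp <;> ring
  · exact ((continuous_arc.comp continuous_fst).pow _).mul (by fun_prop) |>.continuousOn
  · simp [arc]

/-- Two primitives of the same total. -/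
theorem nullField_primitives (p : ℕ) {P R : ℝ → ℝ} (hP : Continuous P) (hR : Continuous R)
    (h : ∫ u in (0 : ℝ)..1, P u = ∫ u in (0 : ℝ)..1, R u) :
    Lift.NullField p fun s t _ r _ => P t - R s * r := by
  have hd : ∀ {f : ℝ → ℝ}, Continuous f → ∀ x, HasDerivAt (fun y => ∫ u in (0 : ℝ)..y, f u) (f x) x :=
    fun hf x => (hf.integral_hasStrictDerivAt 0 x).hasDerivAt
  have hn := nullField_pair (p := p)
    (Φ := fun s t => (∫ u in (0 : ℝ)..t, P u) - ∫ u in (0 : ℝ)..s, R u)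
    (Φs := fun s _ => -R s) (Φt := fun _ t => P t) (fun s _ t _ => ?_) ?_ ?_
  · exact hn.congr fun s t a r q _ => by ring
  · refine ((HasDerivAt.comp_hasFDerivAt (f := fun x : ℝ × ℝ => x.2) (s, t) (hd hP t)
      (hasFDerivAt_snd : HasFDerivAt (fun x : ℝ × ℝ => x.2)
        (ContinuousLinearMap.snd ℝ ℝ ℝ) (s, t))).sub
      (HasDerivAt.comp_hasFDerivAt (f := fun x : ℝ × ℝ => x.1) (s, t) (hd hR s)
        (hasFDerivAt_fst : HasFDerivAt (fun x : ℝ × ℝ => x.1)
          (ContinuousLinearMap.fst ℝ ℝ ℝ) (s, t)))).congr_fderiv ?_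
    ext <;> simp
  · have hc : ∀ {f : ℝ → ℝ}, Continuous f → Continuous fun y => ∫ u in (0 : ℝ)..y, f u :=
      fun hf => continuous_iff_continuousAt.2 fun x => (hd hf x).continuousAt
    exact (((hc hP).comp continuous_snd).sub ((hc hR).comp continuous_fst)).continuousOn
  · simp [h]

/-- The quadratic potential. -/
theorem nullField_quad (p : ℕ) {β β' : ℝ → ℝ}
    (hβ : ∀ s ∈ Ioo (0 : ℝ) 1, HasDerivAt β (β' s) s)
    (hc : ContinuousOn (fun s => arc s ^ (p + 1) * β s) (Icc 0 1)) :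
    Lift.NullField p fun s t _ r _ => arc s ^ (p + 1) *
      ((t - s) ^ 2 * (β' s - ((p : ℝ) + 1) * s / (1 - s ^ 2) * β s) * r +
        2 * β s * (t - s) * (1 - r)) := by
  have h := nullField_pair (p := p) (Φ := fun s t => arc s ^ (p + 1) * β s * (t - s) ^ 2)
    (Φs := fun s t => arc s ^ (p + 1) *
      ((t - s) ^ 2 * (β' s - ((p : ℝ) + 1) * s / (1 - s ^ 2) * β s) - 2 * β s * (t - s)))
    (Φt := fun s t => arc s ^ (p + 1) * (2 * β s * (t - s))) (fun s hs t _ => ?_) ?_ ?_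
  · exact h.congr fun s t a r q _ => by ring
  · have h1 := HasDerivAt.comp_hasFDerivAt (f := fun x : ℝ × ℝ => x.1) (s, t)
      ((hasDerivAt_arc_pow p (s := s) ⟨by linarith [hs.1], hs.2⟩).mul (hβ s hs))
      (hasFDerivAt_fst : HasFDerivAt (fun x : ℝ × ℝ => x.1)
        (ContinuousLinearMap.fst ℝ ℝ ℝ) (s, t))
    refine (h1.mul ((hasFDerivAt_snd.sub hasFDerivAt_fst).pow 2)).congr_fderiv ?_
    ext <;> simp <;> ring
  · exact (hc.comp continuousOn_fst fun x hx => hx.1).mul (by fun_prop)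
  · simp [arc]

/-- The density of the potential of the shadow. -/
noncomputable def shadowPrim (p : ℕ) (u : ℝ) : ℝ :=
  ((p : ℝ) + 1) * Ident.b0 p * arc u ^ p + sqCoef p * arc u ^ (p + 3) -
    3 * (p : ℝ) / 2 * arc u ^ (p + 1)

/-- The whole null part of the first order terms. -/
noncomputable def linNull (p : ℕ) (c ell : ℝ) (β β' : ℝ → ℝ) (s t r : ℝ) : ℝ :=
  arc s ^ (p + 3) * ((-(nuS p + Ident.muMin p) - 2 * nuS p * (1 + c) -
      ((p : ℝ) + 3) * s / (1 - s ^ 2) *
        (2 * nuS p * (1 + c) * (t - s) + -(nuS p + Ident.muMin p) * s)) * r +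
      2 * nuS p * (1 + c)) +
    (-shadowPrim p t - -shadowPrim p s * r) +
    (ell / ((p : ℝ) + 1) * Lift.obsWeight p t -
      ell * (Ident.muMin p / ((p : ℝ) + 2)) * arc s ^ (p + 1) * r) +
    arc s ^ (p + 1) * ((t - s) ^ 2 * (β' s - ((p : ℝ) + 1) * s / (1 - s ^ 2) * β s) * r +
      2 * β s * (t - s) * (1 - r))

theorem nullField_linNull (hp : 1 ≤ p) (c ell : ℝ) {β β' : ℝ → ℝ}
    (hβ : ∀ s ∈ Ioo (0 : ℝ) 1, HasDerivAt β (β' s) s)
    (hc : ContinuousOn (fun s => arc s ^ (p + 1) * β s) (Icc 0 1)) :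
    Lift.NullField p fun s t _ r _ => linNull p c ell β β' s t r := by
  have hs : Continuous (shadowPrim p) := by
    have := continuous_arc
    unfold shadowPrim
    fun_prop
  refine ((((nullField_linearS p (2 * nuS p * (1 + c)) (-(nuS p + Ident.muMin p))).add
    (nullField_primitives p hs.neg hs.neg rfl)).add (nullField_primitives p
      ((Lift.continuous_obsWeight p).const_mul (ell / ((p : ℝ) + 1)))
      ((continuous_arc.pow (p + 1)).const_mul (ell * (Ident.muMin p / ((p : ℝ) + 2)))) ?_)).add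
    (nullField_quad p hβ hc)).congr fun s t a r q _ => ?_
  · rw [intervalIntegral.integral_const_mul, intervalIntegral.integral_const_mul,
      Lift.integral_obsWeight hp]
    show _ = _ * half (p + 1)
    field_simp
  · simp only [linNull, Pi.neg_apply, Pi.pow_apply]

/-- The identity at a state. -/
theorem flatPart_add_linNull (hp : 1 ≤ p) (c ell : ℝ) (β β' : ℝ → ℝ) {s t a r q : ℝ}
    (h : Lift.LiftState p s t a r q) :
    flatPart p ((p : ℝ) + 1) (nuS p) (Ident.muMin p) ell (fun s t => s + c * (s - t))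
        (fun _ _ => 1 + c) (fun _ _ => -c) (fun _ => 1) s t a r +
        linNull p c ell β β' s t r =
      a ^ (p + 1) * sExpr p c ell β β' s t a r := by
  have ha := h.pos
  have hr := h.rate_pos
  have hcs := h.arc_pos'
  have hct : 0 < arc t := arc_pos ⟨by linarith [h.t_mem.1], h.t_mem.2⟩
  have hb := Ident.b0_pos p
  have hm : (0 : ℝ) < (p : ℝ) + 1 := by positivity
  have hp4 : (0 : ℝ) < (p : ℝ) + 4 := by positivity
  have hs2 : arc s ^ 2 = 1 - s ^ 2 := Real.sq_sqrt (by nlinarith [h.s_mem.1, h.s_mem.2])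
  have ht2 : arc t ^ 2 = 1 - t ^ 2 := Real.sq_sqrt (by nlinarith [h.t_mem.1, h.t_mem.2])
  have hne : 1 - s ^ 2 ≠ 0 := hs2 ▸ (pow_pos hcs 2).ne'
  have eh : a ^ (p + 1) = r * arc s ^ (p + 1) := by
    rw [h.rate_eq, div_mul_cancel₀ _ (pow_pos hcs _).ne']
  set X := excS p t a with hX
  have hE : Real.exp X = arc t ^ (p + 1) / a ^ (p + 1) := by
    rw [hX, excS, Real.exp_log (by positivity)]
  have hE1 : Real.exp (X / ((p : ℝ) + 1)) = arc t / a := by
    rw [hX, excS, ← div_pow, Real.log_pow]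
    push_cast
    rw [mul_div_cancel_left₀ _ hm.ne', Real.exp_log (by positivity)]
  -- the shadow and its gain
  have eW : Lift.obsWeight p t = ((p : ℝ) + 1) * (wS p (arc t) * arc t ^ (p + 1)) := by
    obtain ⟨i, rfl⟩ : ∃ i, p = i + 1 := ⟨p - 1, by omega⟩
    rw [Lift.obsWeight, Ident.weight, wS, sqCoef, Nat.add_sub_cancel,
      show √(1 - t ^ 2) = arc t from rfl]
    field_simp
    ring
  have key1 : Lift.aPart p s a - shadowPrim p t + shadowPrim p s * r +
      ell / ((p : ℝ) + 1) * Lift.obsWeight p t =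
      a ^ (p + 1) * (-(Ident.b0 p / arc t) * psiS p X +
        wS p (arc t) * (phiS X + Real.exp X * (ell - X)) +
        sqCoef p * (1 - s ^ 2 - (1 - t ^ 2))) := by
    rw [eW, psiS, phiS, hE, hE1, Lift.aPart, shadowPrim, shadowPrim, wS, sqCoef,
      show r = a ^ (p + 1) / arc s ^ (p + 1) from h.rate_eq]
    rw [show (1 - s ^ 2 - (1 - t ^ 2)) = arc s ^ 2 - arc t ^ 2 by rw [hs2, ht2]]
    simp only [pow_succ]
    field_simp
    ring
  -- the test and the correlation
  have key2 : nuS p * (a ^ (p + 1) * fisherTest p (fun s t => s + c * (s - t))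
      (fun _ _ => 1 + c) (fun _ _ => -c) s t r) -
      Ident.muMin p * (a ^ (p + 1) * (((p : ℝ) + 4) * (s * t) - 1)) +
      arc s ^ (p + 3) * ((-(nuS p + Ident.muMin p) - 2 * nuS p * (1 + c) -
        ((p : ℝ) + 3) * s / (1 - s ^ 2) *
          (2 * nuS p * (1 + c) * (t - s) + -(nuS p + Ident.muMin p) * s)) * r +
        2 * nuS p * (1 + c)) +
      a ^ (p + 1) * (sqCoef p * (1 - s ^ 2 - (1 - t ^ 2))) =
      a ^ (p + 1) * (nuS p * testDef p c s t r + sqCoef p * (t - s) ^ 2) := by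
    have e3 : arc s ^ (p + 3) = arc s ^ (p + 1) * (1 - s ^ 2) := by rw [← hs2]; ring
    have eL : sqCoef p = ((p : ℝ) + 4) * (nuS p + Ident.muMin p / 2) := by
      rw [sqCoef, nuS]
      field_simp
      ring
    rw [e3, eh, eL, fisherTest, testDef]
    field_simp
    ring
  have key3 : arc s ^ (p + 1) * ((t - s) ^ 2 * (β' s - ((p : ℝ) + 1) * s / (1 - s ^ 2) * β s) * r +
      2 * β s * (t - s) * (1 - r)) = a ^ (p + 1) * quadNull p β β' s t r := by
    rw [eh, quadNull]
    field_simp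
  have key4 : Ident.muMin p * (ell / ((p : ℝ) + 2)) * (a ^ (p + 1) * 1) -
      ell * (Ident.muMin p / ((p : ℝ) + 2)) * arc s ^ (p + 1) * r = 0 := by
    rw [eh]
    ring
  have e1 : ((p : ℝ) + 1) / ((p : ℝ) + 1) * Lift.aPart p s a = Lift.aPart p s a := by
    rw [div_self hm.ne', one_mul]
  simp only [flatPart, linNull, sExpr, e1, ← hX]
  linear_combination key1 + key2 + key3 + key4

/-- The sign of the exact form gives the bound with the stationary multipliers. -/
theorem corBound_of_sExpr (hp : 4 ≤ p) (c : ℝ) {ell : ℝ} {β β' : ℝ → ℝ}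
    (hβ : ∀ s ∈ Ioo (0 : ℝ) 1, HasDerivAt β (β' s) s)
    (hc : ContinuousOn (fun s => arc s ^ (p + 1) * β s) (Icc 0 1))
    (hpos : ∀ s t a r q : ℝ, FlatState p ell s t a r q → 0 ≤ sExpr p c ell β β' s t a r) :
    CorBound p ((p : ℝ) + 1) (nuS p) (Ident.muMin p) ell (obsCut p ell) := by
  have hp1 : 1 ≤ p := by omega
  refine corBound_of_flat (top := ell) (nuS_nonneg hp) le_rfl
    ⟨_, _, _, fun _ => 1, _, axTest_affine c, continuous_const, by simp only [mul_one]; rfl,
      nullField_linNull hp1 c ell hβ hc, fun s t a r q h => ?_⟩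
  rw [flatPart_add_linNull hp1 c ell β β' h.state]
  exact mul_nonneg (pow_nonneg h.state.pos.le _) (hpos s t a r q h)

/-- A sign of the exact form up to `ell₁` gives the bounds of the small regime. -/
theorem smallBounds_of_sExpr (hp : 4 ≤ p) {ell₁ : ℝ}
    (h : ∀ ell ∈ Icc (0 : ℝ) ell₁, ∃ (c : ℝ) (β β' : ℝ → ℝ),
      (∀ s ∈ Ioo (0 : ℝ) 1, HasDerivAt β (β' s) s) ∧
      ContinuousOn (fun s => arc s ^ (p + 1) * β s) (Icc 0 1) ∧
      ∀ s t a r q : ℝ, FlatState p ell s t a r q → 0 ≤ sExpr p c ell β β' s t a r) :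
    SmallBounds p ell₁ := fun ell hl => by
  obtain ⟨c, β, β', hβ, hc, hpos⟩ := h ell hl
  exact ⟨_, _, _, ell, by positivity, nuS_nonneg hp, Lift.muMin_pos (by omega), le_rfl,
    corBound_of_sExpr hp c hβ hc hpos⟩

end Vale.Agent.P237.Petty.Cor
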