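import Vale.Agent.P237.Petty.Cor.PsiTrick

/-!
# P237: the obstacle part below the tangent exponential

For `x ≤ 0` and `l` in `[3/4, 1]` with `psiS p x ≤ l p phiS x`, which holds for `l = 1` and for
`l = 3/4` above `-(p + 1)`, the loss `b0 / c * psiS p x` less `l` times `wS p c * phiS x` is at
most `exp x - 1 - x`, once `p ≥ 20`.
-/

namespace Vale.Agent.P237.Petty.Cor

variable {p : ℕ}

/-- The largest value over the height, to the third order in the ratio `y`. -/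
theorem cubic_height {y u : ℝ} (h0 : 0 ≤ y) (h1 : y ≤ 1) (hu : 0 ≤ u) :
    0 ≤ u ^ 3 - (3 - 2 * y - y ^ 2 / 3 - 2 * y ^ 3 / 3) * u + 2 * (1 - y) := by
  set z := 1 + y / 3 + 2 * y ^ 2 / 9 with hz
  have hz0 : 0 ≤ (1 - y) * z := mul_nonneg (by linarith) (by positivity)
  have hP : (1 - y) * z ^ 3 ≤ 1 := by
    rw [hz]
    nlinarith [pow_nonneg h0 3, pow_nonneg h0 4, pow_nonneg h0 5, pow_nonneg h0 6, pow_nonneg h0 7,
      mul_nonneg (pow_nonneg h0 3) (sub_nonneg.2 h1), mul_nonneg (pow_nonneg h0 4) (sub_nonneg.2 h1)]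
  set k := √((1 - y) * z) with hk
  have hk2 : k ^ 2 = (1 - y) * z := Real.sq_sqrt hz0
  have hk3 : k ^ 3 ≤ 1 - y := by
    refine (sq_le_sq₀ (by positivity) (by linarith)).1 ?_
    calc (k ^ 3) ^ 2 = (k ^ 2) ^ 3 := by ring
      _ = (1 - y) ^ 2 * ((1 - y) * z ^ 3) := by rw [hk2]; ring
      _ ≤ (1 - y) ^ 2 * 1 := mul_le_mul_of_nonneg_left hP (sq_nonneg _)
      _ = (1 - y) ^ 2 := mul_one _
  have h : 0 ≤ (u - k) ^ 2 * (u + 2 * k) :=
    mul_nonneg (sq_nonneg _) (by linarith [Real.sqrt_nonneg ((1 - y) * z)])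
  have e : (u - k) ^ 2 * (u + 2 * k) = u ^ 3 - 3 * k ^ 2 * u + 2 * k ^ 3 := by ring
  rw [e, hk2, hz] at h
  linarith

/-- The obstacle part with a share of the weight, over the height. -/
theorem obstacle_share {c x l y : ℝ} (hc : 0 < c)
    (hy : psiS p x = y * (l * p * phiS x)) (h0 : 0 ≤ y) (h1 : y ≤ 1)
    (hl : 0 ≤ l * p * phiS x) :
    Ident.b0 p / c * psiS p x - l * (wS p c * phiS x) ≤
      psiS p x * (1 + y / 6 + y ^ 2 / 3) := by
  obtain ⟨b, hb, hbdef⟩ : ∃ b, 0 < b ∧ Ident.b0 p = b := ⟨_, Ident.b0_pos p, rfl⟩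
  obtain ⟨u, hu, rfl⟩ : ∃ u, 0 < u ∧ c = b * u := ⟨c / b, div_pos hc hb, by field_simp⟩
  have h := mul_nonneg hl (cubic_height h0 h1 hu.le)
  rw [wS, sqCoef, hbdef, hy]
  refine le_of_mul_le_mul_left (a := u) ?_ hu
  have e : u * (b / (b * u) * (y * (l * p * phiS x)) -
      l * ((p : ℝ) / (2 * b ^ 2) * (b * u - b) ^ 2 * (b * u + 2 * b) / (b * u) * phiS x)) =
      y * (l * p * phiS x) - l * p * phiS x / 2 * ((u - 1) ^ 2 * (u + 2)) := by
    field_simp
  rw [e]
  linarith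

/-- The facts on the exponentials below zero. -/
theorem below_facts {x : ℝ} (hx : x < 0) :
    (Real.exp x - 1 - x) * (2 - 2 * x + x ^ 2) ≤ x ^ 2 * (1 - x) ∧
      x ^ 2 ≤ phiS x * (2 - 2 * x + x ^ 2) ∧ 0 < phiS x := by
  have hD : 0 < 2 - 2 * x + x ^ 2 := by nlinarith
  have hE : Real.exp x * (2 - 2 * x + x ^ 2) ≤ 2 := by
    have h := mul_le_mul_of_nonneg_left
      (Real.quadratic_le_exp_of_nonneg (neg_nonneg.2 hx.le)) (Real.exp_pos x).le
    rw [← Real.exp_add, add_neg_cancel, Real.exp_zero] at h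
    linarith
  have h2 : x ^ 2 ≤ phiS x * (2 - 2 * x + x ^ 2) := by
    rw [phiS]
    linarith [mul_le_mul_of_nonneg_left hE (show (0 : ℝ) ≤ 1 - x by linarith)]
  refine ⟨by linarith, h2, ?_⟩
  exact pos_of_mul_pos_left ((sq_pos_of_neg hx).trans_le h2) hD.le

/-- The facts at the scale `m = p + 1`. -/
theorem below_scale (p : ℕ) {x : ℝ} (hx : x < 0) :
    x ^ 2 ≤ (2 * ((p : ℝ) + 1) - x) * (Real.exp x - 1 - x - psiS p x) ∧
      (2 * ((p : ℝ) + 1) - x) * psiS p x ≤ 2 * ((p : ℝ) + 1) * -x := by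
  obtain ⟨v, hv, rfl⟩ : ∃ v, 0 < v ∧ x = -(((p : ℝ) + 1) * v) :=
    ⟨-x / ((p : ℝ) + 1), div_pos (neg_pos.2 hx) (by positivity), by field_simp⟩
  have hm : (0 : ℝ) < (p : ℝ) + 1 := by positivity
  have hE : 2 - v ≤ Real.exp (-v) * (2 + v) := by
    have hd : ∀ u : ℝ, HasDerivAt (fun u => Real.exp (-u) * (2 + u) + u)
        (1 - Real.exp (-u) * (1 + u)) u := fun u => by
      refine ((((hasDerivAt_id u).neg.exp).mul ((hasDerivAt_id u).const_add 2)).add
        (hasDerivAt_id u)).congr_deriv ?_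
      simp only [id, Pi.neg_apply]
      ring
    have h := monotone_of_hasDerivAt_nonneg hd (fun u => ?_) hv.le
    · simp only [neg_zero, Real.exp_zero] at h
      linarith
    · show 0 ≤ 1 - Real.exp (-u) * (1 + u)
      have h := mul_le_mul_of_nonneg_left (Real.add_one_le_exp u) (Real.exp_pos (-u)).le
      rw [← Real.exp_add, neg_add_cancel, Real.exp_zero] at h
      linarith
  have e : -(((p : ℝ) + 1) * v) / ((p : ℝ) + 1) = -v := by field_simp
  rw [psiS, e]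
  constructor
  · linarith [mul_le_mul_of_nonneg_left hE (mul_nonneg hm.le hm.le)]
  · have hx1 : Real.exp (-(((p : ℝ) + 1) * v)) ≤ 1 :=
      Real.exp_le_one_iff.2 (neg_nonpos.2 (mul_nonneg hm.le hv.le))
    linarith [mul_le_mul_of_nonneg_left hE (mul_nonneg hm.le hm.le),
      mul_nonneg (mul_nonneg hm.le (by linarith : (0 : ℝ) ≤ 2 + v)) (sub_nonneg.2 hx1)]

/-- Beyond `-5` the weight `phiS` is nearly `1`. -/
theorem nineteen_le_phiS {x : ℝ} (hx : x ≤ -5) : 19 / 20 ≤ phiS x := by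
  have h5 : (120 : ℝ) ≤ Real.exp 5 := by
    have h := pow_le_pow_left₀ (by norm_num) (Real.exp_one_gt_d9.le) 5
    rw [← Real.exp_nat_mul] at h
    norm_num at h
    linarith
  have h1 := mul_le_mul (Real.add_one_le_exp (-x - 5)) h5 (by norm_num) (Real.exp_pos _).le
  rw [← Real.exp_add, sub_add_cancel] at h1
  have h2 := mul_le_mul_of_nonneg_left h1 (Real.exp_pos x).le
  rw [← Real.exp_add, add_neg_cancel, Real.exp_zero] at h2
  rw [phiS]
  nlinarith [mul_nonneg (Real.exp_pos x).le (show (0 : ℝ) ≤ -x - 5 by linarith)]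

/-- The ratio is at most `(1 - x) / (l (p + 1))`, and beyond `-5` at most `3 v / (2 + v)` at
`v = -x / (p + 1)`. -/
theorem ratio_le (hp : 20 ≤ p) {x l y : ℝ} (hx : x < 0) (hl : 3 / 4 ≤ l)
    (hy : psiS p x = y * (l * p * phiS x)) :
    y * (l * ((p : ℝ) + 1)) ≤ 1 - x ∧
      (x ≤ -5 → y * (2 * ((p : ℝ) + 1) - x) ≤ 3 * -x) := by
  have hp' : (20 : ℝ) ≤ p := by exact_mod_cast hp
  obtain ⟨hG, hφ, hφ0⟩ := below_facts hx
  have hD : 0 < 2 - 2 * x + x ^ 2 := by nlinarith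
  have hy0 : 0 ≤ y := nonneg_of_mul_nonneg_left (hy ▸ psiS_nonneg p x) (by positivity)
  constructor
  · have h1 := mul_le_mul_of_nonneg_right (psiS_le_frac p hx.le) hD.le
    rw [hy] at h1
    have h2 := mul_le_mul_of_nonneg_left hG (show (0 : ℝ) ≤ p by linarith)
    have h3 := mul_le_mul_of_nonneg_left hφ
      (show (0 : ℝ) ≤ ((p : ℝ) + 1) * y * l * p by positivity)
    refine le_of_mul_le_mul_left ?_ (mul_pos (show (0 : ℝ) < p by linarith) (sq_pos_of_neg hx))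
    linarith
  · intro hx5
    have h1 := (below_scale p hx).2
    rw [hy] at h1
    have h2 := mul_le_mul (nineteen_le_phiS hx5) hl (by norm_num) hφ0.le
    have h3 := mul_le_mul_of_nonneg_left h2
      (mul_nonneg (mul_nonneg hy0 (show (0 : ℝ) ≤ p by linarith))
        (show (0 : ℝ) ≤ 2 * ((p : ℝ) + 1) - x by linarith))
    refine le_of_mul_le_mul_left ?_ (show (0 : ℝ) < (p : ℝ) * (57 / 80) by linarith)
    nlinarith [mul_nonneg (neg_nonneg.2 hx.le) (show (0 : ℝ) ≤ 11 * (p : ℝ) - 160 by linarith)]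

/-- The obstacle part below zero is at most the tangent exponential. -/
theorem obstacle_le_expRem (hp : 20 ≤ p) {c : ℝ} (hc : 0 < c) {x l : ℝ} (hx : x ≤ 0)
    (hl0 : 3 / 4 ≤ l) (hl1 : psiS p x ≤ l * p * phiS x) :
    Ident.b0 p / c * psiS p x - l * (wS p c * phiS x) ≤ Real.exp x - 1 - x := by
  rcases hx.eq_or_lt with rfl | hx
  · simp [psiS, phiS]
  have hp' : (20 : ℝ) ≤ p := by exact_mod_cast hp
  obtain ⟨hG, hφ, hφ0⟩ := below_facts hx
  have hA : 0 < l * p * phiS x := by positivity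
  obtain ⟨y, hy⟩ : ∃ y, psiS p x = y * (l * p * phiS x) :=
    ⟨psiS p x / (l * p * phiS x), (div_mul_cancel₀ _ hA.ne').symm⟩
  have hy0 : 0 ≤ y := nonneg_of_mul_nonneg_left (hy ▸ psiS_nonneg p x) hA
  have hy1 : y ≤ 1 := le_of_mul_le_mul_right (by rw [one_mul]; exact hy ▸ hl1) hA
  refine (obstacle_share hc hy hy0 hy1 hA.le).trans ?_
  obtain ⟨hR, hS⟩ := below_scale p hx
  obtain ⟨hy2, hy3⟩ := ratio_le hp hx hl0 hy
  set R := Real.exp x - 1 - x - psiS p x with hRdef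
  set M := 2 * ((p : ℝ) + 1) - x with hM
  have hM0 : 0 < M := by linarith
  suffices psiS p x * y * (1 + 2 * y) ≤ 6 * R by linarith
  refine le_of_mul_le_mul_left ?_ hM0
  rcases le_or_gt x (-5) with hx5 | hx5
  · rcases le_or_gt (-x) ((p : ℝ) + 1) with hv | hv
    · have h1 := mul_le_mul_of_nonneg_right hS (show (0 : ℝ) ≤ y * (1 + 2 * y) by positivity)
      refine le_of_mul_le_mul_left (a := M ^ 2) ?_ (by positivity)
      have h2 := mul_le_mul (hy3 hx5)
        (show M + 2 * (y * M) ≤ M + 6 * -x by linarith [hy3 hx5]) (by positivity) (by linarith)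
      have h3 := mul_le_mul_of_nonneg_left h2 (show (0 : ℝ) ≤ 2 * ((p : ℝ) + 1) * -x by nlinarith)
      have h4 : ((p : ℝ) + 1) * (M + 6 * -x) ≤ M ^ 2 := by
        rw [hM]
        nlinarith [mul_nonneg (sub_nonneg.2 hv) (show (0 : ℝ) ≤ 2 * ((p : ℝ) + 1) + x by linarith)]
      have h5 := mul_le_mul_of_nonneg_left h4 (show (0 : ℝ) ≤ 6 * x ^ 2 by positivity)
      have h6 := mul_le_mul_of_nonneg_left hR (show (0 : ℝ) ≤ 6 * M ^ 2 by positivity)
      have h7 := mul_le_mul_of_nonneg_left h1 (sq_nonneg M)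
      linarith
    · have h1 := mul_le_mul_of_nonneg_right hS (show (0 : ℝ) ≤ y * (1 + 2 * y) by positivity)
      have h2 : y * (1 + 2 * y) ≤ 3 := by nlinarith
      have h3 := mul_le_mul_of_nonneg_left h2 (show (0 : ℝ) ≤ 2 * ((p : ℝ) + 1) * -x by nlinarith)
      have h4 := mul_le_mul_of_nonneg_left hv.le (show (0 : ℝ) ≤ 6 * -x by linarith)
      linarith
  · have hy5 : y ≤ 8 / 21 := by
      have h := mul_le_mul_of_nonneg_left
        (mul_le_mul hl0 (show (21 : ℝ) ≤ (p : ℝ) + 1 by linarith) (by norm_num) (by linarith)) hy0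
      linarith
    -- the product `psiS * y` is at most `4 x ^ 2 / (3 (p + 1))`
    have hD : 0 < 2 - 2 * x + x ^ 2 := by nlinarith
    have h1 : ((p : ℝ) + 1) * (psiS p x * y) * 3 ≤ 4 * x ^ 2 := by
      have a1 : psiS p x * (2 - 2 * x + x ^ 2) ≤ x ^ 2 * (1 - x) := by
        have := mul_le_mul_of_nonneg_right (psiS_le p x) hD.le
        linarith
      have a2 := mul_le_mul_of_nonneg_left a1 (show (0 : ℝ) ≤ y * ((p : ℝ) + 1) * l by positivity)
      have a3 := mul_le_mul_of_nonneg_left hy2 (show (0 : ℝ) ≤ x ^ 2 * (1 - x) by nlinarith)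
      have a4 : psiS p x * (y * ((p : ℝ) + 1) * l) ≤ x ^ 2 :=
        le_of_mul_le_mul_right (by nlinarith [sq_nonneg x]) hD
      have a5 := mul_le_mul_of_nonneg_left hl0
        (mul_nonneg (mul_nonneg (show (0 : ℝ) ≤ (p : ℝ) + 1 by linarith) (psiS_nonneg p x)) hy0)
      linarith
    have h2 : M * (1 + 2 * y) * 4 ≤ 18 * ((p : ℝ) + 1) := by
      rw [hM]
      nlinarith [mul_le_mul_of_nonneg_left hy5 hM0.le]
    refine le_of_mul_le_mul_left (a := 3 * ((p : ℝ) + 1)) ?_ (by positivity)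
    have h3 := mul_le_mul_of_nonneg_right h1
      (show (0 : ℝ) ≤ M * (1 + 2 * y) by positivity)
    have h4 := mul_le_mul_of_nonneg_left h2 (sq_nonneg x)
    have h5 := mul_le_mul_of_nonneg_left hR (show (0 : ℝ) ≤ 18 * ((p : ℝ) + 1) by linarith)
    linarith

/-- The obstacle part below zero is at most the tangent exponential. -/
theorem obstacle_le_tangent (hp : 20 ≤ p) {c : ℝ} (hc : 0 < c) {x : ℝ} (hx : x ≤ 0) :
    Ident.b0 p / c * psiS p x - wS p c * phiS x ≤ Real.exp x - 1 - x := by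
  simpa using obstacle_le_expRem hp hc hx (l := 1) (by norm_num)
    (by rw [one_mul]; exact psiS_le_mul_phiS p x)

/-- Above `-(p + 1)` a quarter of the weight remains. -/
theorem obstacle_le_quarter (hp : 20 ≤ p) {c : ℝ} (hc : 0 < c) {x : ℝ} (hx : x ≤ 0)
    (hxm : -((p : ℝ) + 1) ≤ x) :
    Ident.b0 p / c * psiS p x - wS p c * phiS x ≤
      Real.exp x - 1 - x - 1 / 4 * (wS p c * phiS x) := by
  have hp' : (20 : ℝ) ≤ p := by exact_mod_cast hp
  have hl : psiS p x ≤ 3 / 4 * p * phiS x := by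
    rcases hx.eq_or_lt with rfl | hx
    · simp [psiS, phiS]
    obtain ⟨-, -, hφ0⟩ := below_facts hx
    have hA : (0 : ℝ) < 3 / 4 * p * phiS x := by positivity
    obtain ⟨y, hy⟩ : ∃ y, psiS p x = y * (3 / 4 * p * phiS x) :=
      ⟨psiS p x / (3 / 4 * p * phiS x), (div_mul_cancel₀ _ hA.ne').symm⟩
    obtain ⟨hy2, hy3⟩ := ratio_le hp hx le_rfl hy
    rw [hy]
    refine mul_le_of_le_one_left hA.le ?_
    rcases le_or_gt x (-5) with hx5 | hx5
    · refine le_of_mul_le_mul_right ?_ (show (0 : ℝ) < 2 * ((p : ℝ) + 1) - x by linarith)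
      linarith [hy3 hx5]
    · refine le_of_mul_le_mul_right ?_ (show (0 : ℝ) < 3 / 4 * ((p : ℝ) + 1) by linarith)
      linarith
  linarith [obstacle_le_expRem hp hc hx (l := 3 / 4) le_rfl hl]

end Vale.Agent.P237.Petty.Cor
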