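import Vale.Agent.P237.Petty.Lift.Main

/-!
# P237: the correlation term tested on the transport

The primitive of the transport `σ` and its conjugate are a Young pair with equality along the
transport. With them the two averages of the correlation term add up to the mean of `σ t * t`.
-/

namespace Vale.Agent.P237.Petty.Cor

open MeasureTheory Set intervalIntegral
open Ident (half rate)

variable {p : ℕ} {g σ : ℝ → ℝ}

theorem monotoneOn_transport (hg : Regular g) (hσ : Transport p g σ) :
    MonotoneOn σ (Icc 0 1) :=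
  monotoneOn_of_hasDerivWithinAt_nonneg (convex_Icc 0 1) hσ.cont
    (f' := fun t => g t ^ (p + 1) / arc (σ t) ^ (p + 1))
    (fun t ht => (hσ.deriv t (by rwa [interior_Icc] at ht)).hasDerivWithinAt) fun t ht => by
      rw [interior_Icc] at ht
      exact div_nonneg (pow_nonneg (hg.pos_of_lt ⟨ht.1.le, ht.2⟩).le _)
        (pow_nonneg (Real.sqrt_nonneg _) _)

/-- The transport, continued by constants. -/
noncomputable def sigExt (σ : ℝ → ℝ) (u : ℝ) : ℝ := σ (projIcc (0 : ℝ) 1 zero_le_one u)

theorem sigExt_eq {u : ℝ} (hu : u ∈ Icc (0 : ℝ) 1) : sigExt σ u = σ u := by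
  rw [sigExt, projIcc_of_mem _ hu]

theorem continuous_sigExt (hσ : Transport p g σ) : Continuous (sigExt σ) :=
  hσ.cont.comp_continuous (continuous_subtype_val.comp continuous_projIcc) fun u =>
    (projIcc (0 : ℝ) 1 zero_le_one u).2

theorem monotone_sigExt (hg : Regular g) (hσ : Transport p g σ) : Monotone (sigExt σ) :=
  fun _ _ h => monotoneOn_transport hg hσ (Subtype.prop _) (Subtype.prop _)
    (monotone_projIcc zero_le_one h)

/-- The primitive of the transport, even. -/
noncomputable def prim (σ : ℝ → ℝ) (t : ℝ) : ℝ := ∫ u in (0 : ℝ)..|t|, sigExt σ u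

theorem continuous_prim (hσ : Transport p g σ) : Continuous (prim σ) := by
  have hc := continuous_sigExt hσ
  have : Continuous fun x => ∫ u in (0 : ℝ)..x, sigExt σ u :=
    continuous_iff_continuousAt.2 fun x => (hc.integral_hasStrictDerivAt 0 x).hasDerivAt.continuousAt
  exact this.comp continuous_abs

/-- The conjugate of the primitive on `[-1, 1]`. -/
noncomputable def conj (σ : ℝ → ℝ) (u : ℝ) : ℝ :=
  sSup ((fun t => u * t - prim σ t) '' Icc (-1 : ℝ) 1)

theorem continuous_conj (hσ : Transport p g σ) : Continuous (conj σ) := by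
  have hp := continuous_prim hσ
  exact isCompact_Icc.continuous_sSup (f := fun u t => u * t - prim σ t) (by fun_prop)

theorem mul_le_prim_add_conj (hσ : Transport p g σ) {x : ℝ} (hx : x ∈ Icc (-1 : ℝ) 1) (u : ℝ) :
    x * u ≤ prim σ x + conj σ u := by
  have hp := continuous_prim hσ
  have h : u * x - prim σ x ≤ conj σ u :=
    le_csSup (isCompact_Icc.image (by fun_prop)).bddAbove
      (mem_image_of_mem (fun t => u * t - prim σ t) hx)
  linarith

theorem conj_neg (σ : ℝ → ℝ) (u : ℝ) : conj σ (-u) = conj σ u := by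
  unfold conj
  congr 1
  ext y
  constructor <;>
    · rintro ⟨t, ht, rfl⟩
      exact ⟨-t, ⟨by linarith [ht.2], by linarith [ht.1]⟩, by simp [prim]⟩

/-- Equality along the transport. -/
theorem conj_sigma (hg : Regular g) (hσ : Transport p g σ) {t : ℝ} (ht : t ∈ Icc (0 : ℝ) 1) :
    conj σ (σ t) = σ t * t - prim σ t := by
  refine IsGreatest.csSup_eq ⟨mem_image_of_mem (fun x => σ t * x - prim σ x)
    ⟨by linarith [ht.1], ht.2⟩, ?_⟩
  rintro _ ⟨x, -, rfl⟩
  have hc := continuous_sigExt hσ
  have hm := monotone_sigExt hg hσ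
  have hs : 0 ≤ σ t := (hσ.mem t ht).1
  have e := intervalIntegral.integral_add_adjacent_intervals
    (hc.intervalIntegrable 0 t) (hc.intervalIntegrable (μ := volume) t |x|)
  have key : σ t * (|x| - t) ≤ ∫ u in t..|x|, sigExt σ u := by
    rcases le_total t |x| with h | h
    · refine le_trans (le_of_eq ?_) (intervalIntegral.integral_mono_on h intervalIntegrable_const
        (hc.intervalIntegrable _ _) fun u hu => (sigExt_eq (σ := σ) ht).symm.trans_le (hm hu.1))
      rw [intervalIntegral.integral_const, smul_eq_mul, mul_comm]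
    · have := intervalIntegral.integral_mono_on (μ := volume) h (hc.intervalIntegrable _ _)
        intervalIntegrable_const fun u hu => (hm hu.2).trans_eq (sigExt_eq (σ := σ) ht)
      rw [intervalIntegral.integral_const, smul_eq_mul] at this
      rw [intervalIntegral.integral_symm |x| t]
      linarith
  have hx : σ t * x ≤ σ t * |x| := mul_le_mul_of_nonneg_left (le_abs_self x) hs
  simp only [prim, abs_of_nonneg ht.1] at e ⊢
  linarith

/-- The two averages along the transport. -/
theorem young_average (hg : Regular g) (hσ : Transport p g σ) :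
    IntervalIntegrable (fun t => g t ^ (p + 1) * (σ t * t)) volume 0 1 ∧
      pavg (p + 1) g (prim σ) + pavg (p + 1) (fun t => √(1 - t ^ 2)) (conj σ) =
        (∫ t in (0 : ℝ)..1, g t ^ (p + 1) * (σ t * t)) / half (p + 1) := by
  have hu : uIcc (0 : ℝ) 1 = Icc 0 1 := uIcc_of_le zero_le_one
  have hgc := (Lift.continuousOn_profile hg).pow (p + 1)
  have hpc := continuous_prim hσ
  have hcc := continuous_conj hσ
  have hI : IntervalIntegrable (fun t => g t ^ (p + 1) * (σ t * t)) volume 0 1 :=
    (hgc.mul (hσ.cont.mul continuousOn_id)).intervalIntegrable_of_Icc zero_le_one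
  refine ⟨hI, ?_⟩
  have hIP : IntervalIntegrable (fun t => g t ^ (p + 1) * prim σ t) volume 0 1 :=
    (hgc.mul hpc.continuousOn).intervalIntegrable_of_Icc zero_le_one
  have e1 : ∫ t in (-1 : ℝ)..1, prim σ t * g t ^ (p + 1) =
      2 * ∫ t in (0 : ℝ)..1, g t ^ (p + 1) * prim σ t := by
    have hi : ContinuousOn (fun t => prim σ t * g t ^ (p + 1)) (Icc (-1) 1) :=
      hpc.continuousOn.mul (hg.cont.pow (p + 1))
    rw [integral_even (fun t => by simp [prim, hg.even])
      (hi.intervalIntegrable_of_Icc (by norm_num))]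
    simp only [mul_comm]
  have e2 : ∫ t in (-1 : ℝ)..1, conj σ t * √(1 - t ^ 2) ^ (p + 1) =
      2 * ∫ t in (0 : ℝ)..1, g t ^ (p + 1) * conj σ (σ t) := by
    rw [integral_even (fun t => by rw [conj_neg, neg_sq])
      (Continuous.intervalIntegrable (by fun_prop) _ _),
      ← hσ.integral_rate_mul hg (φ := fun s => conj σ s * √(1 - s ^ 2) ^ (p + 1)) (by fun_prop)]
    congr 1
    refine intervalIntegral.integral_congr_ae ?_
    filter_upwards [Measure.ae_ne volume (1 : ℝ)] with t h1 ht
    rw [uIoc_of_le zero_le_one] at ht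
    have hs := hσ.mem_Ioo t ⟨ht.1, lt_of_le_of_ne ht.2 h1⟩
    have hc : 0 < arc (σ t) := arc_pos ⟨by linarith [hs.1], hs.2⟩
    rw [show √(1 - σ t ^ 2) = arc (σ t) from rfl]
    field_simp
  have hden : ∫ t in (-1 : ℝ)..1, g t ^ (p + 1) = 2 * half (p + 1) := by
    rw [integral_even (fun t => by rw [hg.even]) (ContinuousOn.intervalIntegrable (by
      rw [uIcc_of_le (by norm_num : (-1 : ℝ) ≤ 1)]; exact hg.cont.pow _)),
      Lift.integral_mass hσ]
  have hcirc : ∫ t in (-1 : ℝ)..1, √(1 - t ^ 2) ^ (p + 1) = 2 * half (p + 1) := by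
    rw [← Ident.circ_eq_half]; rfl
  have hsum : ∫ t in (0 : ℝ)..1, g t ^ (p + 1) * conj σ (σ t) =
      (∫ t in (0 : ℝ)..1, g t ^ (p + 1) * (σ t * t)) -
        ∫ t in (0 : ℝ)..1, g t ^ (p + 1) * prim σ t := by
    rw [← intervalIntegral.integral_sub hI hIP]
    refine intervalIntegral.integral_congr fun t ht => ?_
    rw [hu] at ht
    simp only [conj_sigma hg hσ ht]
    ring
  rw [pavg, pavg, e1, e2, hden, hcirc, hsum]
  have := (Ident.half_pos (p + 1)).ne'
  field_simp
  ring

end Vale.Agent.P237.Petty.Cor
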